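import Vale.Agent.P113.BumpPer

/-!
# P113: smoothness, support and symbolic derivatives of bumps and of products of bumps
-/

namespace Vale.Agent.P113

open Set

@[simp] theorem Bump.eval_inl (k : ℕ) (a b : ℚ) (j : ℕ) (s : ℝ) :
    Bump.eval (k, a, b, Sum.inl j) s = s ^ k * iteratedDeriv j rho (a * s - b) := rfl

@[simp] theorem Bump.eval_inr (k : ℕ) (a b l : ℚ) (s : ℝ) :
    Bump.eval (k, a, b, Sum.inr l) s = s ^ k * plateau l (a * s - b) := rfl

@[simp] theorem Bump.valid_inl (k : ℕ) (a b : ℚ) (j : ℕ) :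
    Bump.Valid (k, a, b, Sum.inl j) ↔ a ≠ 0 := Iff.rfl

@[simp] theorem Bump.valid_inr (k : ℕ) (a b l : ℚ) :
    Bump.Valid (k, a, b, Sum.inr l) ↔ a ≠ 0 ∧ 0 < l := Iff.rfl

theorem Bump.contDiff {n : ℕ∞} (g : Bump) : ContDiff ℝ n g.eval := by
  obtain ⟨k, a, b, j | l⟩ := g
  · change ContDiff ℝ n fun s : ℝ => s ^ k * iteratedDeriv j rho (a * s - b)
    exact (contDiff_id.pow k).mul ((contDiff_iteratedDeriv_rho j).comp (by fun_prop))
  · change ContDiff ℝ n fun s : ℝ => s ^ k * plateau l (a * s - b)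
    exact (contDiff_id.pow k).mul ((contDiff_plateau l).comp (by fun_prop))

theorem le_abs_affine {a b c s : ℝ} (ha : a ≠ 0) (hs : (c + |b|) / |a| ≤ |s|) :
    c ≤ |a * s - b| := by
  have h0 : 0 < |a| := abs_pos.2 ha
  rw [div_le_iff₀ h0] at hs
  have h1 : |a * s| ≤ |a * s - b| + |b| := by
    simpa using abs_add_le (a * s - b) b
  rw [abs_mul] at h1
  linarith

theorem Bump.Valid.bddSupp {g : Bump} (hg : g.Valid) : BddSupp g.eval := by
  obtain ⟨k, a, b, j | l⟩ := g
  · have ha : (a : ℝ) ≠ 0 := by exact_mod_cast hg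
    refine ⟨(1 + |(b : ℝ)|) / |(a : ℝ)|, fun s hs => ?_⟩
    rw [Bump.eval_inl, iteratedDeriv_rho_of_one_le_abs j (le_abs_affine ha hs), mul_zero]
  · have ha : (a : ℝ) ≠ 0 := by exact_mod_cast hg.1
    have hl : (0 : ℝ) < l := by exact_mod_cast hg.2
    refine ⟨(l + 1 + |(b : ℝ)|) / |(a : ℝ)|, fun s hs => ?_⟩
    rw [Bump.eval_inr]
    rcases le_abs'.1 (le_abs_affine ha hs) with h | h
    · rw [plateau_of_le_neg_one hl.le (by linarith), mul_zero]
    · rw [plateau_of_le hl.le h, mul_zero]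

theorem Bump.Valid.contDiff_per {n : ℕ∞} {g : Bump} (hg : g.Valid) :
    ContDiff ℝ n (per g.eval) :=
  Vale.Agent.P113.contDiff_per hg.bddSupp g.contDiff

/-! ### The derivative of a bump -/

/-- The derivative of a bump, as a list of bumps with rational coefficients. -/
def Bump.d (g : Bump) : List (ℚ × Bump) :=
  ((g.1 : ℚ), (g.1 - 1, g.2.1, g.2.2.1, g.2.2.2)) ::
    Sum.elim (fun j : ℕ => [(g.2.1, (g.1, g.2.1, g.2.2.1, Sum.inl (j + 1)))])
      (fun l : ℚ => [(g.2.1, (g.1, g.2.1, g.2.2.1, Sum.inl 0)),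
        (-g.2.1, (g.1, g.2.1, g.2.2.1 + l, Sum.inl 0))]) g.2.2.2

theorem Bump.hasDerivAt (g : Bump) (s : ℝ) :
    HasDerivAt g.eval ((g.d.map fun p => (p.1 : ℝ) * p.2.eval s).sum) s := by
  have hlin : ∀ a b : ℚ, HasDerivAt (fun s : ℝ => (a : ℝ) * s - b) a s := fun a b => by
    simpa using ((hasDerivAt_id s).const_mul (a : ℝ)).sub_const (b : ℝ)
  obtain ⟨k, a, b, j | l⟩ := g
  · have h := (hasDerivAt_pow k s).mul
      ((hasDerivAt_iteratedDeriv_rho j ((a : ℝ) * s - b)).comp s (hlin a b))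
    refine HasDerivAt.congr_deriv h ?_
    simp [Bump.d]
    ring
  · have h := (hasDerivAt_pow k s).mul
      ((hasDerivAt_plateau l ((a : ℝ) * s - b)).comp s (hlin a b))
    refine HasDerivAt.congr_deriv h ?_
    simp [Bump.d, sub_sub]
    ring

theorem Bump.Valid.d {g : Bump} (hg : g.Valid) : ∀ p ∈ g.d, p.2.Valid := by
  obtain ⟨k, a, b, j | l⟩ := g
  · simp only [Bump.valid_inl] at hg
    simp [Bump.d, hg]
  · simp only [Bump.valid_inr] at hg
    simp [Bump.d, hg]

theorem bddSupp_list_sum (l : List (ℚ × Bump)) (hl : ∀ p ∈ l, p.2.Valid) :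
    BddSupp fun s => (l.map fun p => (p.1 : ℝ) * p.2.eval s).sum := by
  induction l with
  | nil => simpa using BddSupp.zero
  | cons p l ih =>
    simp only [List.map_cons, List.sum_cons]
    exact ((hl p (by simp)).bddSupp.const_mul _).add (ih fun q hq => hl q (by simp [hq]))

theorem per_list_sum (l : List (ℚ × Bump)) (hl : ∀ p ∈ l, p.2.Valid) (y : ℝ) :
    per (fun s => (l.map fun p => (p.1 : ℝ) * p.2.eval s).sum) y
      = (l.map fun p => (p.1 : ℝ) * per p.2.eval y).sum := by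
  induction l with
  | nil => simpa using per_zero y
  | cons p l ih =>
    simp only [List.map_cons, List.sum_cons]
    have hl' : ∀ q ∈ l, q.2.Valid := fun q hq => hl q (by simp [hq])
    rw [per_add ((hl p (by simp)).bddSupp.const_mul _) (bddSupp_list_sum l hl'), per_const_mul,
      ih hl']

theorem Bump.Valid.hasDerivAt_per {g : Bump} (hg : g.Valid) (s : ℝ) :
    HasDerivAt (per g.eval) ((g.d.map fun p => (p.1 : ℝ) * per p.2.eval s).sum) s := by
  rw [← per_list_sum g.d hg.d]
  exact Vale.Agent.P113.hasDerivAt_per hg.bddSupp g.hasDerivAt s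

/-! ### The derivative of a product of bumps -/

/-- The derivative of a product of bumps (or of their periodizations), as a list of products with
rational coefficients. -/
def dList : List Bump → List (ℚ × List Bump)
  | [] => []
  | g :: l => (g.d.map fun p => (p.1, p.2 :: l)) ++ (dList l).map fun p => (p.1, g :: p.2)

@[simp] theorem dList_nil : dList [] = [] := rfl

theorem dList_cons (g : Bump) (l : List Bump) : dList (g :: l) =
    (g.d.map fun p => (p.1, p.2 :: l)) ++ (dList l).map fun p => (p.1, g :: p.2) := rfl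

theorem hasDerivAt_list_prod {ev : Bump → ℝ → ℝ} {s : ℝ} (l : List Bump)
    (hev : ∀ g ∈ l, HasDerivAt (ev g) ((g.d.map fun p => (p.1 : ℝ) * ev p.2 s).sum) s) :
    HasDerivAt (fun r => (l.map fun g => ev g r).prod)
      (((dList l).map fun p => (p.1 : ℝ) * (p.2.map fun g => ev g s).prod).sum) s := by
  induction l with
  | nil => simpa using hasDerivAt_const s (1 : ℝ)
  | cons g l ih =>
    simp only [List.map_cons, List.prod_cons]
    have h := (hev g (by simp)).mul (ih fun g' hg' => hev g' (by simp [hg']))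
    refine HasDerivAt.congr_deriv h ?_
    simp only [dList_cons, List.map_append, List.sum_append, List.map_map, Function.comp_def,
      List.map_cons, List.prod_cons]
    rw [← List.sum_map_mul_right, ← List.sum_map_mul_left]
    congr 1
    · congr 1
      exact List.map_congr_left fun p _ => by ring
    · congr 1
      exact List.map_congr_left fun p _ => by ring

theorem valid_dList {l : List Bump} (hl : ∀ g ∈ l, g.Valid) :
    ∀ p ∈ dList l, ∀ g ∈ p.2, g.Valid := by
  induction l with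
  | nil => simp
  | cons g l ih =>
    intro p hp
    simp only [dList_cons, List.mem_append, List.mem_map] at hp
    rcases hp with ⟨q, hq, rfl⟩ | ⟨q, hq, rfl⟩
    · intro g' hg'
      rcases List.mem_cons.1 hg' with rfl | hg'
      · exact (hl g (by simp)).d q hq
      · exact hl g' (by simp [hg'])
    · intro g' hg'
      rcases List.mem_cons.1 hg' with rfl | hg'
      · exact hl _ (by simp)
      · exact ih (fun g hg => hl g (by simp [hg])) q hq g' hg'

theorem ne_nil_of_mem_dList {l : List Bump} {p : ℚ × List Bump} (hp : p ∈ dList l) :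
    l ≠ [] ∧ p.2 ≠ [] := by
  cases l with
  | nil => simp at hp
  | cons g l =>
    simp only [dList_cons, List.mem_append, List.mem_map] at hp
    rcases hp with ⟨q, _, rfl⟩ | ⟨q, _, rfl⟩ <;> simp

/-! ### Bumps that vanish from a given time on -/

/-- A sufficient condition, stable under differentiation, for a bump to vanish on `[T, ∞)`. -/
def Bump.Dead (T : ℝ) : Bump → Prop
  | (_, a, b, Sum.inl _) => 0 < a ∧ 1 ≤ a * T - b
  | (_, a, b, Sum.inr l) => 0 < a ∧ 0 ≤ l ∧ l + 1 ≤ a * T - b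

@[simp] theorem Bump.dead_inl (T : ℝ) (k : ℕ) (a b : ℚ) (j : ℕ) :
    Bump.Dead T (k, a, b, Sum.inl j) ↔ 0 < a ∧ 1 ≤ a * T - b := Iff.rfl

@[simp] theorem Bump.dead_inr (T : ℝ) (k : ℕ) (a b l : ℚ) :
    Bump.Dead T (k, a, b, Sum.inr l) ↔ 0 < a ∧ 0 ≤ l ∧ l + 1 ≤ a * T - b := Iff.rfl

theorem Bump.Dead.eval_eq_zero {T : ℝ} {g : Bump} (hg : g.Dead T) {t : ℝ} (ht : T ≤ t) :
    g.eval t = 0 := by
  obtain ⟨k, a, b, j | l⟩ := g
  · obtain ⟨ha, h⟩ := hg
    have ha' : (0 : ℝ) < a := by exact_mod_cast ha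
    rw [Bump.eval_inl, iteratedDeriv_rho_of_one_le j (by nlinarith), mul_zero]
  · obtain ⟨ha, hl, h⟩ := hg
    have ha' : (0 : ℝ) < a := by exact_mod_cast ha
    have hl' : (0 : ℝ) ≤ l := by exact_mod_cast hl
    rw [Bump.eval_inr, plateau_of_le hl' (by nlinarith), mul_zero]

theorem Bump.Dead.d {T : ℝ} {g : Bump} (hg : g.Dead T) : ∀ p ∈ g.d, p.2.Dead T := by
  obtain ⟨k, a, b, j | l⟩ := g
  · simp only [Bump.dead_inl] at hg
    simp [Bump.d, hg]
  · obtain ⟨ha, hl, h⟩ := hg
    have hl' : (0 : ℝ) ≤ l := by exact_mod_cast hl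
    simp only [Bump.d, Sum.elim_inr, List.mem_cons, List.not_mem_nil, or_false, forall_eq_or_imp,
      forall_eq, Bump.dead_inr, Bump.dead_inl, Rat.cast_add]
    exact ⟨⟨ha, hl, h⟩, ⟨ha, by linarith⟩, ⟨ha, by linarith⟩⟩

theorem dead_dList {T : ℝ} {l : List Bump} (hl : ∃ g ∈ l, g.Dead T) :
    ∀ p ∈ dList l, ∃ g ∈ p.2, g.Dead T := by
  induction l with
  | nil => simp
  | cons g l ih =>
    intro p hp
    obtain ⟨g', hg', hd⟩ := hl
    simp only [dList_cons, List.mem_append, List.mem_map] at hp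
    rcases hp with ⟨q, hq, rfl⟩ | ⟨q, hq, rfl⟩
    · rcases List.mem_cons.1 hg' with rfl | hg'
      · exact ⟨q.2, by simp, hd.d q hq⟩
      · exact ⟨g', by simp [hg'], hd⟩
    · rcases List.mem_cons.1 hg' with rfl | hg'
      · exact ⟨g', by simp, hd⟩
      · obtain ⟨g'', h1, h2⟩ := ih ⟨g', hg', hd⟩ q hq
        exact ⟨g'', by simp [h1], h2⟩

end Vale.Agent.P113
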