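import Vale.Agent.P113.BumpRho

/-!
# P113: periodization of functions with bounded support
-/

namespace Vale.Agent.P113

open Set

/-- `g` vanishes outside a bounded set. -/
def BddSupp (g : ℝ → ℝ) : Prop := ∃ R : ℝ, ∀ s, R ≤ |s| → g s = 0

theorem BddSupp.zero : BddSupp fun _ => 0 := ⟨0, fun _ _ => rfl⟩

theorem BddSupp.add {g h : ℝ → ℝ} (hg : BddSupp g) (hh : BddSupp h) :
    BddSupp fun s => g s + h s := by
  obtain ⟨R, hR⟩ := hg
  obtain ⟨R', hR'⟩ := hh
  refine ⟨max R R', fun s hs => ?_⟩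
  simp only
  rw [hR s (le_trans (le_max_left _ _) hs), hR' s (le_trans (le_max_right _ _) hs), add_zero]

theorem BddSupp.const_mul {g : ℝ → ℝ} (hg : BddSupp g) (c : ℝ) : BddSupp fun s => c * g s := by
  obtain ⟨R, hR⟩ := hg
  exact ⟨R, fun s hs => by simp only [hR s hs, mul_zero]⟩

/-- The derivative of a function with bounded support has bounded support. -/
theorem BddSupp.of_hasDerivAt {g g' : ℝ → ℝ} (hg : BddSupp g) (hd : ∀ s, HasDerivAt g (g' s) s) :
    BddSupp g' := by
  obtain ⟨R, hR⟩ := hg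
  refine ⟨R + 1, fun s hs => ?_⟩
  have hev : g =ᶠ[nhds s] fun _ => 0 := by
    have : {x : ℝ | R < |x|} ∈ nhds s :=
      (isOpen_lt continuous_const continuous_abs).mem_nhds (by
        change R < |s|
        linarith)
    filter_upwards [this] with x hx using hR x (le_of_lt hx)
  exact (hd s).unique ((hasDerivAt_const s (0 : ℝ)).congr_of_eventuallyEq hev)

theorem per_add_int (g : ℝ → ℝ) (y : ℝ) (n : ℤ) : per g (y + n) = per g y := by
  unfold per
  rw [← (Equiv.addLeft n).tsum_eq fun m : ℤ => g (y + m)]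
  congr 1
  ext m
  simp [add_assoc]

theorem per_add_one (g : ℝ → ℝ) (y : ℝ) : per g (y + 1) = per g y := by
  simpa using per_add_int g y 1

theorem per_add_nat (g : ℝ → ℝ) (y : ℝ) (n : ℕ) : per g (y + n) = per g y := by
  simpa using per_add_int g y n

theorem periodic_per (g : ℝ → ℝ) : Function.Periodic (per g) 1 := per_add_one g

theorem per_fract (g : ℝ → ℝ) (y : ℝ) : per g (Int.fract y) = per g y := by
  rw [← per_add_int g (Int.fract y) ⌊y⌋, Int.fract_add_floor]

theorem per_const_mul (c : ℝ) (g : ℝ → ℝ) (y : ℝ) : per (fun s => c * g s) y = c * per g y := by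
  unfold per
  exact tsum_mul_left

/-- Near any point the periodization is a finite sum. -/
theorem per_eq_sum {g : ℝ → ℝ} {R : ℝ} (hR : ∀ s, R ≤ |s| → g s = 0) {N : ℕ} {y : ℝ}
    (hy : |y| + R ≤ N) : per g y = ∑ m ∈ Finset.Icc (-(N : ℤ)) N, g (y + m) := by
  unfold per
  refine tsum_eq_sum fun m hm => hR _ ?_
  rw [Finset.mem_Icc, not_and_or, not_le, not_le] at hm
  have h1 := le_abs_self y
  have h2 := neg_le_abs y
  rcases hm with hm | hm
  · have : (m : ℝ) < -(N : ℝ) := by exact_mod_cast hm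
    have := neg_le_abs (y + m)
    linarith
  · have : (N : ℝ) < (m : ℝ) := by exact_mod_cast hm
    have := le_abs_self (y + m)
    linarith

theorem BddSupp.summable {g : ℝ → ℝ} (hg : BddSupp g) (y : ℝ) :
    Summable fun m : ℤ => g (y + m) := by
  obtain ⟨R, hR⟩ := hg
  obtain ⟨N, hN⟩ := exists_nat_ge (|y| + R)
  refine summable_of_ne_finset_zero (s := Finset.Icc (-(N : ℤ)) N) fun m hm => hR _ ?_
  rw [Finset.mem_Icc, not_and_or, not_le, not_le] at hm
  have h1 := le_abs_self y
  have h2 := neg_le_abs y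
  rcases hm with hm | hm
  · have : (m : ℝ) < -(N : ℝ) := by exact_mod_cast hm
    have := neg_le_abs (y + m)
    linarith
  · have : (N : ℝ) < (m : ℝ) := by exact_mod_cast hm
    have := le_abs_self (y + m)
    linarith

theorem per_add {g h : ℝ → ℝ} (hg : BddSupp g) (hh : BddSupp h) (y : ℝ) :
    per (fun s => g s + h s) y = per g y + per h y := by
  unfold per
  exact (hg.summable y).tsum_add (hh.summable y)

theorem per_zero (y : ℝ) : per (fun _ => 0) y = 0 := by
  unfold per
  simp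

theorem BddSupp.eventually_per_eq_sum {g : ℝ → ℝ} {R : ℝ} (hR : ∀ s, R ≤ |s| → g s = 0) {N : ℕ}
    {y : ℝ} (hy : |y| + R < N) :
    per g =ᶠ[nhds y] fun z => ∑ m ∈ Finset.Icc (-(N : ℤ)) N, g (z + m) := by
  have : {z : ℝ | |z| + R < N} ∈ nhds y :=
    (isOpen_lt (by fun_prop) continuous_const).mem_nhds hy
  filter_upwards [this] with z hz using per_eq_sum hR (le_of_lt hz)

theorem contDiff_per {n : ℕ∞} {g : ℝ → ℝ} (hg : BddSupp g) (hc : ContDiff ℝ n g) :
    ContDiff ℝ n (per g) := by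
  obtain ⟨R, hR⟩ := hg
  rw [contDiff_iff_contDiffAt]
  intro y
  obtain ⟨N, hN⟩ := exists_nat_gt (|y| + R)
  refine ContDiffAt.congr_of_eventuallyEq ?_ (BddSupp.eventually_per_eq_sum hR hN)
  refine ContDiff.contDiffAt (ContDiff.sum fun m _ => hc.comp ?_)
  fun_prop

theorem hasDerivAt_per {g g' : ℝ → ℝ} (hg : BddSupp g) (hd : ∀ s, HasDerivAt g (g' s) s)
    (y : ℝ) : HasDerivAt (per g) (per g' y) y := by
  obtain ⟨R', hR'⟩ := hg.of_hasDerivAt hd
  obtain ⟨R, hR⟩ := hg
  obtain ⟨N, hN⟩ := exists_nat_gt (|y| + max R R')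
  have h1 : |y| + R < N := lt_of_le_of_lt (by linarith [le_max_left R R']) hN
  have h2 : |y| + R' ≤ N := le_trans (by linarith [le_max_right R R']) hN.le
  refine HasDerivAt.congr_of_eventuallyEq ?_ (BddSupp.eventually_per_eq_sum hR h1)
  rw [per_eq_sum hR' h2]
  exact HasDerivAt.fun_sum fun m _ => (hd (y + m)).comp_add_const y m

/-- If `g` vanishes outside `(a, b)`, then `P[g] = g` on `[b - 1, a + 1]`. -/
theorem per_eq_self {g : ℝ → ℝ} {a b y : ℝ} (ha : ∀ s ≤ a, g s = 0) (hb : ∀ s ≥ b, g s = 0)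
    (h1 : b - 1 ≤ y) (h2 : y ≤ a + 1) : per g y = g y := by
  unfold per
  rw [tsum_eq_single 0]
  · simp
  · intro m hm
    rcases lt_or_gt_of_ne hm with hm | hm
    · have : (m : ℝ) ≤ -1 := by exact_mod_cast (show m ≤ -1 by omega)
      exact ha _ (by linarith)
    · have : (1 : ℝ) ≤ m := by exact_mod_cast (show 1 ≤ m by omega)
      exact hb _ (by linarith)

/-- If `g` vanishes outside `(a, b)`, then `P[g](y) = g(y - n)` for
`y - n ∈ [b - 1, a + 1]`. -/
theorem per_eq_sub_int {g : ℝ → ℝ} {a b y : ℝ} (ha : ∀ s ≤ a, g s = 0) (hb : ∀ s ≥ b, g s = 0)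
    (n : ℤ) (h1 : b - 1 ≤ y - n) (h2 : y - n ≤ a + 1) : per g y = g (y - n) := by
  rw [← per_eq_self ha hb h1 h2, ← per_add_int g (y - n) n, sub_add_cancel]

/-! ### Periodizations on the circle -/

theorem perC_coe (g : ℝ → ℝ) (x : ℝ) : perC g (x : UnitAddCircle) = per g x := by
  unfold perC
  have h : ((Int.fract x : ℝ) : UnitAddCircle) = (x : UnitAddCircle) := by
    simp
  rw [← h, AddCircle.liftIco_zero_coe_apply ⟨Int.fract_nonneg x, Int.fract_lt_one x⟩, per_fract]

theorem continuous_perC {g : ℝ → ℝ} (hg : Continuous (per g)) : Continuous (perC g) := by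
  unfold perC
  refine AddCircle.liftIco_zero_continuous ?_ hg.continuousOn
  simpa using (per_add_one g 0).symm

end Vale.Agent.P113
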