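import Vale.Agent.P113.Defs

/-!
# P113: the functions `rho`, `kappa`, `sigma`, `plateau`
-/

namespace Vale.Agent.P113

open Set MeasureTheory

theorem rho_eq (s : ℝ) : rho s = expNegInvGlue (1 - s ^ 2) := by
  unfold rho expNegInvGlue
  by_cases h : |s| < 1
  · have h2 : s ^ 2 < 1 := (sq_lt_one_iff_abs_lt_one s).2 h
    rw [if_pos h, if_neg (by linarith)]
    congr 1
    rw [neg_div, one_div]
  · have h2 : ¬ s ^ 2 < 1 := fun h' => h ((sq_lt_one_iff_abs_lt_one s).1 h')
    rw [if_neg h, if_pos (by linarith)]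

theorem contDiff_rho {n : ℕ∞} : ContDiff ℝ n rho := by
  have : rho = fun s => expNegInvGlue (1 - s ^ 2) := funext rho_eq
  rw [this]
  exact expNegInvGlue.contDiff.comp (by fun_prop)

theorem continuous_rho : Continuous rho := (contDiff_rho (n := 0)).continuous

theorem rho_nonneg (s : ℝ) : 0 ≤ rho s := by
  rw [rho_eq]; exact expNegInvGlue.nonneg _

theorem rho_of_one_le_abs {s : ℝ} (h : 1 ≤ |s|) : rho s = 0 := by
  unfold rho; rw [if_neg (not_lt.2 h)]

theorem rho_of_one_le {s : ℝ} (h : 1 ≤ s) : rho s = 0 :=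
  rho_of_one_le_abs (h.trans (le_abs_self s))

theorem rho_of_le_neg_one {s : ℝ} (h : s ≤ -1) : rho s = 0 :=
  rho_of_one_le_abs (by have := neg_le_abs s; linarith)

theorem rho_pos {s : ℝ} (h : |s| < 1) : 0 < rho s := by
  unfold rho; rw [if_pos h]; exact Real.exp_pos _

theorem support_rho_subset : Function.support rho ⊆ Icc (-1) 1 := by
  intro s hs
  by_contra h
  apply hs
  rw [mem_Icc, not_and_or] at h
  rcases h with h | h
  · exact rho_of_le_neg_one (not_le.1 h).le
  · exact rho_of_one_le (not_le.1 h).le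

theorem hasCompactSupport_rho : HasCompactSupport rho :=
  HasCompactSupport.of_support_subset_isCompact isCompact_Icc support_rho_subset

theorem integrable_rho : Integrable rho :=
  continuous_rho.integrable_of_hasCompactSupport hasCompactSupport_rho

theorem kappa_pos : 0 < kappa := by
  unfold kappa
  refine continuous_rho.integral_pos_of_hasCompactSupport_nonneg_nonzero (x := 0)
    hasCompactSupport_rho rho_nonneg ?_
  exact (rho_pos (by simp)).ne'

theorem kappa_ne_zero : kappa ≠ 0 := kappa_pos.ne'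

theorem sigma_of_le_neg_one {s : ℝ} (h : s ≤ -1) : sigma s = 0 := by
  unfold sigma
  apply setIntegral_eq_zero_of_forall_eq_zero
  intro x hx
  exact rho_of_le_neg_one (le_trans hx h)

theorem sigma_of_one_le {s : ℝ} (h : 1 ≤ s) : sigma s = kappa := by
  unfold sigma kappa
  apply setIntegral_eq_integral_of_forall_compl_eq_zero
  intro x hx
  exact rho_of_one_le (le_trans h (not_le.1 hx).le)

theorem sigma_eq_intervalIntegral (s : ℝ) : sigma s = ∫ r in (-1 : ℝ)..s, rho r := by
  rw [← intervalIntegral.integral_Iic_sub_Iic integrable_rho.integrableOn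
    integrable_rho.integrableOn]
  have := sigma_of_le_neg_one (le_refl (-1 : ℝ))
  unfold sigma at this ⊢
  rw [this, sub_zero]

theorem hasDerivAt_sigma (s : ℝ) : HasDerivAt sigma (rho s) s := by
  have : sigma = fun s => ∫ r in (-1 : ℝ)..s, rho r := funext sigma_eq_intervalIntegral
  rw [this]
  exact (continuous_rho.integral_hasStrictDerivAt (-1) s).hasDerivAt

theorem deriv_sigma : deriv sigma = rho := funext fun s => (hasDerivAt_sigma s).deriv

theorem differentiable_sigma : Differentiable ℝ sigma :=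
  fun s => (hasDerivAt_sigma s).differentiableAt

theorem contDiff_sigma {n : ℕ∞} : ContDiff ℝ n sigma := by
  have h : ContDiff ℝ ((⊤ : ℕ∞) : WithTop ℕ∞) sigma := by
    rw [contDiff_infty_iff_deriv, deriv_sigma]
    exact ⟨differentiable_sigma, contDiff_rho⟩
  exact h.of_le (by exact_mod_cast le_top)

theorem continuous_sigma : Continuous sigma := differentiable_sigma.continuous

theorem monotone_sigma : Monotone sigma :=
  monotone_of_deriv_nonneg differentiable_sigma (by rw [deriv_sigma]; exact rho_nonneg)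

theorem sigma_nonneg (s : ℝ) : 0 ≤ sigma s := by
  rcases le_total s (-1) with h | h
  · rw [sigma_of_le_neg_one h]
  · rw [← sigma_of_le_neg_one (le_refl (-1 : ℝ))]; exact monotone_sigma h

theorem sigma_le_kappa (s : ℝ) : sigma s ≤ kappa := by
  rcases le_total 1 s with h | h
  · rw [sigma_of_one_le h]
  · rw [← sigma_of_one_le (le_refl (1 : ℝ))]; exact monotone_sigma h

theorem sigma_div_kappa_mem (s : ℝ) : sigma s / kappa ∈ Icc (0 : ℝ) 1 :=
  ⟨div_nonneg (sigma_nonneg s) kappa_pos.le, (div_le_one kappa_pos).2 (sigma_le_kappa s)⟩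

/-! ### The plateau functions -/

theorem hasDerivAt_plateau (l s : ℝ) : HasDerivAt (plateau l) (rho s - rho (s - l)) s := by
  unfold plateau
  have h := (hasDerivAt_sigma (s - l)).comp_sub_const s l
  exact (hasDerivAt_sigma s).sub h

theorem contDiff_plateau {n : ℕ∞} (l : ℝ) : ContDiff ℝ n (plateau l) := by
  unfold plateau
  exact contDiff_sigma.sub (contDiff_sigma.comp (by fun_prop))

/-- The plateau vanishes left of `-1`. -/
theorem plateau_of_le_neg_one {l s : ℝ} (hl : 0 ≤ l) (h : s ≤ -1) : plateau l s = 0 := by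
  unfold plateau
  rw [sigma_of_le_neg_one h, sigma_of_le_neg_one (by linarith), sub_zero]

/-- The plateau vanishes right of `l + 1`. -/
theorem plateau_of_le {l s : ℝ} (hl : 0 ≤ l) (h : l + 1 ≤ s) : plateau l s = 0 := by
  unfold plateau
  rw [sigma_of_one_le (by linarith), sigma_of_one_le (by linarith), sub_self]

/-- The plateau equals `kappa` on `[1, l - 1]`. -/
theorem plateau_eq_kappa {l s : ℝ} (h1 : 1 ≤ s) (h2 : s ≤ l - 1) : plateau l s = kappa := by
  unfold plateau
  rw [sigma_of_one_le h1, sigma_of_le_neg_one (by linarith), sub_zero]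

theorem plateau_nonneg {l : ℝ} (hl : 0 ≤ l) (s : ℝ) : 0 ≤ plateau l s := by
  unfold plateau
  exact sub_nonneg.2 (monotone_sigma (by linarith))

theorem plateau_le_kappa (l s : ℝ) : plateau l s ≤ kappa := by
  unfold plateau
  linarith [sigma_le_kappa s, sigma_nonneg (s - l)]

/-! ### The derivatives of `rho` -/

theorem contDiff_iteratedDeriv_rho {n : ℕ∞} (j : ℕ) : ContDiff ℝ n (iteratedDeriv j rho) := by
  have h : ContDiff ℝ ((⊤ : ℕ∞) : WithTop ℕ∞) (iteratedDeriv j rho) := by
    rw [iteratedDeriv_eq_iterate]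
    exact ContDiff.iterate_deriv j contDiff_rho
  exact h.of_le (by exact_mod_cast le_top)

theorem hasDerivAt_iteratedDeriv_rho (j : ℕ) (s : ℝ) :
    HasDerivAt (iteratedDeriv j rho) (iteratedDeriv (j + 1) rho s) s := by
  rw [iteratedDeriv_succ]
  exact ((contDiff_iteratedDeriv_rho (n := 1) j).differentiable (by simp) s).hasDerivAt

theorem iteratedDeriv_rho_of_one_lt_abs (j : ℕ) {s : ℝ} (h : 1 < |s|) :
    iteratedDeriv j rho s = 0 := by
  have hev : rho =ᶠ[nhds s] fun _ => 0 := by
    have : {x : ℝ | 1 < |x|} ∈ nhds s :=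
      (isOpen_lt continuous_const continuous_abs).mem_nhds h
    filter_upwards [this] with x hx using rho_of_one_le_abs (le_of_lt hx)
  rw [hev.iteratedDeriv_eq j]
  simp

theorem iteratedDeriv_rho_of_one_le_abs (j : ℕ) {s : ℝ} (h : 1 ≤ |s|) :
    iteratedDeriv j rho s = 0 := by
  have hc : IsClosed {x : ℝ | iteratedDeriv j rho x = 0} :=
    isClosed_eq (contDiff_iteratedDeriv_rho (n := 0) j).continuous continuous_const
  rcases le_abs'.1 h with h | h
  · have : Iic (-1 : ℝ) ⊆ {x : ℝ | iteratedDeriv j rho x = 0} := by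
      rw [← closure_Iio]
      refine hc.closure_subset_iff.2 fun x hx => iteratedDeriv_rho_of_one_lt_abs j ?_
      have := neg_le_abs x
      have : x < -1 := hx
      linarith
    exact this h
  · have : Ici (1 : ℝ) ⊆ {x : ℝ | iteratedDeriv j rho x = 0} := by
      rw [← closure_Ioi]
      refine hc.closure_subset_iff.2 fun x hx => iteratedDeriv_rho_of_one_lt_abs j ?_
      have := le_abs_self x
      have : 1 < x := hx
      linarith
    exact this h

theorem iteratedDeriv_rho_of_one_le (j : ℕ) {s : ℝ} (h : 1 ≤ s) : iteratedDeriv j rho s = 0 :=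
  iteratedDeriv_rho_of_one_le_abs j (h.trans (le_abs_self s))

theorem iteratedDeriv_rho_of_le_neg_one (j : ℕ) {s : ℝ} (h : s ≤ -1) :
    iteratedDeriv j rho s = 0 :=
  iteratedDeriv_rho_of_one_le_abs j (by have := neg_le_abs s; linarith)

end Vale.Agent.P113
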