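import Vale.Agent.P113.PrimInt

/-!
# P113: `fun_prop` rules for `Primrec` and `PrimrecPred`
-/

namespace Vale.Agent.P113.Prim

attribute [fun_prop] Primrec PrimrecPred

variable {α β γ σ : Type*} [Primcodable α] [Primcodable β] [Primcodable γ] [Primcodable σ]

/-! ### Lambda rules -/

@[fun_prop] theorem fp_id : Primrec fun a : α => a := Primrec.id

@[fun_prop] theorem fp_const (x : σ) : Primrec fun _ : α => x := Primrec.const x

@[fun_prop] theorem fp_comp {f : β → σ} {g : α → β} (hf : Primrec f) (hg : Primrec g) :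
    Primrec fun a => f (g a) := hf.comp hg

@[fun_prop] theorem fp_apply {n : ℕ} (i : Fin n) : Primrec fun f : Fin n → α => f i :=
  Primrec.fin_app.comp Primrec.id (Primrec.const i)

@[fun_prop] theorem fp_pi {n : ℕ} {f : α → Fin n → σ} (hf : ∀ i, Primrec fun a => f a i) :
    Primrec fun a i => f a i :=
  Primrec.fin_curry.2 (Primrec.fin_curry₁.2 hf).swap

/-! ### Products, sums, options -/

@[fun_prop] theorem fp_pair {f : α → β} {g : α → γ} (hf : Primrec f) (hg : Primrec g) :
    Primrec fun a => (f a, g a) := hf.pair hg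

@[fun_prop] theorem fp_fst {f : α → β × γ} (hf : Primrec f) : Primrec fun a => (f a).1 :=
  Primrec.fst.comp hf

@[fun_prop] theorem fp_snd {f : α → β × γ} (hf : Primrec f) : Primrec fun a => (f a).2 :=
  Primrec.snd.comp hf

@[fun_prop] theorem fp_inl {f : α → β} (hf : Primrec f) :
    Primrec fun a => (Sum.inl (f a) : β ⊕ γ) := Primrec.sumInl.comp hf

@[fun_prop] theorem fp_inr {f : α → γ} (hf : Primrec f) :
    Primrec fun a => (Sum.inr (f a) : β ⊕ γ) := Primrec.sumInr.comp hf

@[fun_prop] theorem fp_sumElim {f : α → β → σ} {g : α → γ → σ} {h : α → β ⊕ γ}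
    (hf : Primrec fun p : α × β => f p.1 p.2) (hg : Primrec fun p : α × γ => g p.1 p.2)
    (hh : Primrec h) : Primrec fun a => Sum.elim (f a) (g a) (h a) :=
  (Primrec.sumCasesOn hh hf hg).of_eq fun a => by cases h a <;> rfl

@[fun_prop] theorem fp_some {f : α → β} (hf : Primrec f) : Primrec fun a => some (f a) :=
  Primrec.option_some.comp hf

@[fun_prop] theorem fp_optionGetD {f : α → Option β} {g : α → β} (hf : Primrec f)
    (hg : Primrec g) : Primrec fun a => (f a).getD (g a) := Primrec.option_getD.comp hf hg

/-! ### Booleans and predicates -/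

@[fun_prop] theorem fp_cond {c : α → Bool} {f g : α → σ} (hc : Primrec c) (hf : Primrec f)
    (hg : Primrec g) : Primrec fun a => bif c a then f a else g a := Primrec.cond hc hf hg

@[fun_prop] theorem fp_ite {c : α → Prop} [DecidablePred c] {f g : α → σ} (hc : PrimrecPred c)
    (hf : Primrec f) (hg : Primrec g) : Primrec fun a => if c a then f a else g a :=
  Primrec.ite hc hf hg

@[fun_prop] theorem fp_decide {c : α → Prop} [DecidablePred c] (hc : PrimrecPred c) :
    Primrec fun a => decide (c a) := hc.decide

@[fun_prop] theorem fp_not {f : α → Bool} (hf : Primrec f) : Primrec fun a => !(f a) :=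
  Primrec.not.comp hf

@[fun_prop] theorem fp_and {f g : α → Bool} (hf : Primrec f) (hg : Primrec g) :
    Primrec fun a => (f a && g a) := Primrec.and.comp hf hg

@[fun_prop] theorem fp_or {f g : α → Bool} (hf : Primrec f) (hg : Primrec g) :
    Primrec fun a => (f a || g a) := Primrec.or.comp hf hg

@[fun_prop] theorem fp_pred_eq {f g : α → β} (hf : Primrec f) (hg : Primrec g) :
    PrimrecPred fun a => f a = g a := Primrec.eq.comp hf hg

@[fun_prop] theorem fp_pred_ne {f g : α → β} (hf : Primrec f) (hg : Primrec g) :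
    PrimrecPred fun a => f a ≠ g a := (Primrec.eq.comp hf hg).not

@[fun_prop] theorem fp_pred_not {p : α → Prop} (hp : PrimrecPred p) :
    PrimrecPred fun a => ¬ p a := hp.not

@[fun_prop] theorem fp_pred_and {p q : α → Prop} (hp : PrimrecPred p) (hq : PrimrecPred q) :
    PrimrecPred fun a => p a ∧ q a := hp.and hq

@[fun_prop] theorem fp_pred_or {p q : α → Prop} (hp : PrimrecPred p) (hq : PrimrecPred q) :
    PrimrecPred fun a => p a ∨ q a := hp.or hq

/-- Types with primitive recursive order relations. -/
class POrd (β : Type*) [Primcodable β] [LE β] [LT β] : Prop where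
  le : PrimrecRel fun a b : β => a ≤ b
  lt : PrimrecRel fun a b : β => a < b

instance : POrd ℕ := ⟨Primrec.nat_le, Primrec.nat_lt⟩
instance : POrd ℤ := ⟨int_le, int_lt⟩
instance : POrd ℚ := ⟨rat_le, rat_lt⟩

@[fun_prop] theorem fp_le [Preorder β] [POrd β] {f g : α → β} (hf : Primrec f) (hg : Primrec g) :
    PrimrecPred fun a => f a ≤ g a := POrd.le.comp hf hg

@[fun_prop] theorem fp_lt [Preorder β] [POrd β] {f g : α → β} (hf : Primrec f) (hg : Primrec g) :
    PrimrecPred fun a => f a < g a := POrd.lt.comp hf hg

/-! ### Arithmetic -/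

/-- Primitive recursive addition. -/
class PAdd (β : Type*) [Primcodable β] [Add β] : Prop where
  out : Primrec₂ fun a b : β => a + b
/-- Primitive recursive subtraction. -/
class PSub (β : Type*) [Primcodable β] [Sub β] : Prop where
  out : Primrec₂ fun a b : β => a - b
/-- Primitive recursive multiplication. -/
class PMul (β : Type*) [Primcodable β] [Mul β] : Prop where
  out : Primrec₂ fun a b : β => a * b
/-- Primitive recursive division. -/
class PDiv (β : Type*) [Primcodable β] [Div β] : Prop where
  out : Primrec₂ fun a b : β => a / b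
/-- Primitive recursive negation. -/
class PNeg (β : Type*) [Primcodable β] [Neg β] : Prop where
  out : Primrec fun a : β => -a
/-- Primitive recursive powers. -/
class PPow (β : Type*) [Primcodable β] [Pow β ℕ] : Prop where
  out : Primrec₂ fun (a : β) (n : ℕ) => a ^ n
/-- Primitive recursive cast from `ℕ`. -/
class PNatCast (β : Type*) [Primcodable β] [NatCast β] : Prop where
  out : Primrec fun n : ℕ => (n : β)

instance : PAdd ℕ := ⟨Primrec.nat_add⟩
instance : PAdd ℤ := ⟨int_add⟩
instance : PAdd ℚ := ⟨rat_add⟩
instance : PSub ℕ := ⟨Primrec.nat_sub⟩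
instance : PSub ℤ := ⟨int_sub⟩
instance : PSub ℚ := ⟨rat_sub⟩
instance : PMul ℕ := ⟨Primrec.nat_mul⟩
instance : PMul ℤ := ⟨int_mul⟩
instance : PMul ℚ := ⟨rat_mul⟩
instance : PDiv ℕ := ⟨Primrec.nat_div⟩
instance : PDiv ℚ := ⟨rat_div⟩
instance : PNeg ℤ := ⟨int_neg⟩
instance : PNeg ℚ := ⟨rat_neg⟩
instance : PPow ℕ := ⟨nat_pow⟩
instance : PPow ℚ := ⟨rat_pow⟩
instance : PNatCast ℕ := ⟨Primrec.id⟩
instance : PNatCast ℤ := ⟨int_natCast⟩
instance : PNatCast ℚ := ⟨rat_natCast⟩

@[fun_prop] theorem fp_add [Add β] [PAdd β] {f g : α → β} (hf : Primrec f) (hg : Primrec g) :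
    Primrec fun a => f a + g a := PAdd.out.comp hf hg

@[fun_prop] theorem fp_sub [Sub β] [PSub β] {f g : α → β} (hf : Primrec f) (hg : Primrec g) :
    Primrec fun a => f a - g a := PSub.out.comp hf hg

@[fun_prop] theorem fp_mul [Mul β] [PMul β] {f g : α → β} (hf : Primrec f) (hg : Primrec g) :
    Primrec fun a => f a * g a := PMul.out.comp hf hg

@[fun_prop] theorem fp_div [Div β] [PDiv β] {f g : α → β} (hf : Primrec f) (hg : Primrec g) :
    Primrec fun a => f a / g a := PDiv.out.comp hf hg

@[fun_prop] theorem fp_neg [Neg β] [PNeg β] {f : α → β} (hf : Primrec f) :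
    Primrec fun a => -f a := PNeg.out.comp hf

@[fun_prop] theorem fp_pow [Pow β ℕ] [PPow β] {f : α → β} {g : α → ℕ} (hf : Primrec f)
    (hg : Primrec g) : Primrec fun a => f a ^ g a := PPow.out.comp hf hg

@[fun_prop] theorem fp_natCast [NatCast β] [PNatCast β] {f : α → ℕ} (hf : Primrec f) :
    Primrec fun a => ((f a : ℕ) : β) := PNatCast.out.comp hf

@[fun_prop] theorem fp_nat_succ {f : α → ℕ} (hf : Primrec f) : Primrec fun a => (f a).succ :=
  Primrec.succ.comp hf

@[fun_prop] theorem fp_nat_pred {f : α → ℕ} (hf : Primrec f) : Primrec fun a => (f a).pred :=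
  Primrec.pred.comp hf

@[fun_prop] theorem fp_nat_mod {f g : α → ℕ} (hf : Primrec f) (hg : Primrec g) :
    Primrec fun a => f a % g a := Primrec.nat_mod.comp hf hg

@[fun_prop] theorem fp_nat_min {f g : α → ℕ} (hf : Primrec f) (hg : Primrec g) :
    Primrec fun a => min (f a) (g a) := Primrec.nat_min.comp hf hg

@[fun_prop] theorem fp_nat_max {f g : α → ℕ} (hf : Primrec f) (hg : Primrec g) :
    Primrec fun a => max (f a) (g a) := Primrec.nat_max.comp hf hg

@[fun_prop] theorem fp_int_toNat {f : α → ℤ} (hf : Primrec f) : Primrec fun a => (f a).toNat :=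
  int_toNat.comp hf

@[fun_prop] theorem fp_int_natAbs {f : α → ℤ} (hf : Primrec f) : Primrec fun a => (f a).natAbs :=
  int_natAbs.comp hf

@[fun_prop] theorem fp_rat_inv {f : α → ℚ} (hf : Primrec f) : Primrec fun a => (f a)⁻¹ :=
  rat_inv.comp hf

@[fun_prop] theorem fp_rat_intCast {f : α → ℤ} (hf : Primrec f) :
    Primrec fun a => ((f a : ℤ) : ℚ) := rat_intCast.comp hf

/-! ### Lists -/

@[fun_prop] theorem fp_cons {f : α → β} {g : α → List β} (hf : Primrec f) (hg : Primrec g) :
    Primrec fun a => f a :: g a := Primrec.list_cons.comp hf hg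

@[fun_prop] theorem fp_append {f g : α → List β} (hf : Primrec f) (hg : Primrec g) :
    Primrec fun a => f a ++ g a := Primrec.list_append.comp hf hg

@[fun_prop] theorem fp_map {f : α → List β} {g : α → β → σ} (hf : Primrec f)
    (hg : Primrec fun p : α × β => g p.1 p.2) : Primrec fun a => (f a).map (g a) :=
  Primrec.list_map hf hg

@[fun_prop] theorem fp_flatMap {f : α → List β} {g : α → β → List σ} (hf : Primrec f)
    (hg : Primrec fun p : α × β => g p.1 p.2) : Primrec fun a => (f a).flatMap (g a) :=
  Primrec.list_flatMap hf hg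

@[fun_prop] theorem fp_flatten {f : α → List (List β)} (hf : Primrec f) :
    Primrec fun a => (f a).flatten := Primrec.list_flatten.comp hf

@[fun_prop] theorem fp_filterMap {f : α → List β} {g : α → β → Option σ} (hf : Primrec f)
    (hg : Primrec fun p : α × β => g p.1 p.2) : Primrec fun a => (f a).filterMap (g a) :=
  Primrec.listFilterMap hf hg

@[fun_prop] theorem fp_filter {f : α → List β} {g : α → β → Bool} (hf : Primrec f)
    (hg : Primrec fun p : α × β => g p.1 p.2) : Primrec fun a => (f a).filter (g a) := by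
  have h : Primrec fun a => (f a).filterMap fun b => bif g a b then some b else none :=
    Primrec.listFilterMap hf
      (Primrec.cond hg (Primrec.option_some.comp Primrec.snd) (Primrec.const none))
  refine h.of_eq fun a => ?_
  induction f a with
  | nil => rfl
  | cons b l ih => cases hb : g a b <;> simp [hb, ih]

@[fun_prop] theorem fp_foldr {f : α → List β} {g : α → σ} {h : α → β → σ → σ} (hf : Primrec f)
    (hg : Primrec g) (hh : Primrec fun p : α × β × σ => h p.1 p.2.1 p.2.2) :
    Primrec fun a => (f a).foldr (h a) (g a) :=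
  Primrec.list_foldr (h := fun a p => h a p.1 p.2) hf hg hh

@[fun_prop] theorem fp_foldl {f : α → List β} {g : α → σ} {h : α → σ → β → σ} (hf : Primrec f)
    (hg : Primrec g) (hh : Primrec fun p : α × σ × β => h p.1 p.2.1 p.2.2) :
    Primrec fun a => (f a).foldl (h a) (g a) :=
  Primrec.list_foldl (h := fun a p => h a p.1 p.2) hf hg hh

@[fun_prop] theorem fp_range {f : α → ℕ} (hf : Primrec f) : Primrec fun a => List.range (f a) :=
  Primrec.list_range.comp hf

@[fun_prop] theorem fp_length {f : α → List β} (hf : Primrec f) :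
    Primrec fun a => (f a).length := Primrec.list_length.comp hf

@[fun_prop] theorem fp_tail {f : α → List β} (hf : Primrec f) :
    Primrec fun a => (f a).tail := Primrec.list_tail.comp hf

@[fun_prop] theorem fp_reverse {f : α → List β} (hf : Primrec f) :
    Primrec fun a => (f a).reverse := Primrec.list_reverse.comp hf

@[fun_prop] theorem fp_getD {f : α → List β} {g : α → ℕ} {d : α → β} (hf : Primrec f)
    (hg : Primrec g) (hd : Primrec d) : Primrec fun a => (f a).getD (g a) (d a) :=
  (Primrec.option_getD.comp (Primrec.list_getElem?.comp hf hg) hd).of_eq fun a => by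
    simp [List.getD]

@[fun_prop] theorem fp_headD {f : α → List β} {d : α → β} (hf : Primrec f)
    (hd : Primrec d) : Primrec fun a => (f a).headD (d a) :=
  (Primrec.option_getD.comp (Primrec.list_head?.comp hf) hd).of_eq fun a => by
    cases f a <;> rfl

@[fun_prop] theorem fp_take {f : α → ℕ} {g : α → List β} (hf : Primrec f) (hg : Primrec g) :
    Primrec fun a => (g a).take (f a) := Primrec.list_take.comp hf hg

@[fun_prop] theorem fp_drop {f : α → ℕ} {g : α → List β} (hf : Primrec f) (hg : Primrec g) :
    Primrec fun a => (g a).drop (f a) := Primrec.list_drop.comp hf hg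

@[fun_prop] theorem fp_isEmpty {f : α → List β} (hf : Primrec f) :
    Primrec fun a => (f a).isEmpty :=
  (Primrec.eq.comp (Primrec.list_length.comp hf) (Primrec.const 0)).decide.of_eq fun a => by
    cases f a <;> simp

@[fun_prop] theorem fp_zipIdx {f : α → List β} (hf : Primrec f) :
    Primrec fun a => (f a).zipIdx := by
  have h : Primrec fun a => (List.range (f a).length).filterMap
      fun i => ((f a)[i]?).map fun b => (b, i) :=
    Primrec.listFilterMap (Primrec.list_range.comp (Primrec.list_length.comp hf))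
      (Primrec.option_map (Primrec.list_getElem?.comp (hf.comp Primrec.fst) Primrec.snd)
        (Primrec.snd.pair (Primrec.snd.comp Primrec.fst)).to₂)
  refine h.of_eq fun a => ?_
  generalize f a = l
  have e : (List.range l.length).filterMap (fun i => (l[i]?).map fun b => (b, i)) =
      (List.finRange l.length).map fun i : Fin l.length => (l[i], (i : ℕ)) := by
    rw [← List.map_coe_finRange_eq_range, List.filterMap_map, ← List.filterMap_eq_map]
    refine List.filterMap_congr fun i _ => ?_
    simp
  rw [e]
  apply List.ext_getElem <;> simp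

@[fun_prop] theorem fp_vecCons {n : ℕ} {f : α → β} {g : α → Fin n → β} (hf : Primrec f)
    (hg : Primrec g) : Primrec fun a => Matrix.vecCons (f a) (g a) := by
  refine fp_pi fun i => ?_
  refine Fin.cases ?_ (fun j => ?_) i
  · simpa using hf
  · simpa using (fp_apply j).comp hg

@[fun_prop] theorem fp_update {n : ℕ} {f : α → Fin n → β} {g : α → β} (i : Fin n)
    (hf : Primrec f) (hg : Primrec g) : Primrec fun a => Function.update (f a) i (g a) := by
  refine fp_pi fun j => ?_
  by_cases h : j = i
  · subst h; simpa using hg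
  · simpa [Function.update_of_ne h] using (fp_apply j).comp hf

/-! ### Tests -/

example : Primrec fun p : ℕ × List (ℕ × ℚ) =>
    p.2.flatMap fun q => [((q.1 : ℚ) / (p.1 + 1) - q.2 ^ 2, q.1 + 3), (4 * q.2, p.1 ^ q.1)] := by
  fun_prop

example : Primrec fun p : ℕ × List (ℕ × ℚ) =>
    (List.range p.1).map fun i => if i < p.1 / 2 ∧ i ≠ 3 then ![p.2, [], p.2.tail]
      else fun _ => [] := by
  fun_prop

example : Primrec fun p : ℕ × List ℕ => p.2.foldr (fun (d : ℕ) (acc : ℚ) => (d + acc) / p.1) 0 := by
  fun_prop

end Vale.Agent.P113.Prim
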