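import Vale.Agent.P113.TermCalc
import Vale.Agent.P113.PrimFun

/-!
# P113: from a velocity compiler to a force compiler
-/

namespace Vale.Agent.P113

open Set

/-! ### The time factor of the derived terms -/

theorem time_of_mem_dx {τ τ' : Term} {i : Fin 3} (h : τ' ∈ τ.dx i) : τ'.2.1 = τ.2.1 := by
  obtain ⟨p, -, rfl⟩ := List.mem_map.1 h
  rfl

theorem time_of_mem_lap {τ τ' : Term} (h : τ' ∈ τ.lap) : τ'.2.1 = τ.2.1 := by
  simp only [Term.lap, List.mem_append, List.mem_flatMap] at h
  rcases h with (⟨σ, h1, h2⟩ | ⟨σ, h1, h2⟩) | ⟨σ, h1, h2⟩ <;>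
    rw [time_of_mem_dx h2, time_of_mem_dx h1]

theorem periodic_of_mem_ns {τ τ' : Term} (h : τ' ∈ τ.ns) : τ'.periodic = τ.periodic := by
  rcases List.mem_append.1 h with h | h
  · rcases List.mem_append.1 h with h | h
    · obtain ⟨p, hp, rfl⟩ := List.mem_map.1 h
      obtain ⟨h1, h2⟩ := ne_nil_of_mem_dList hp
      simp only [Term.periodic_def]
      rw [List.isEmpty_eq_false_iff.2 h1, List.isEmpty_eq_false_iff.2 h2]
    · obtain ⟨p, hp, rfl⟩ := List.mem_map.1 h
      rfl
  · obtain ⟨σ, h', rfl⟩ := List.mem_map.1 h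
    simp only [Term.periodic_def, Term.scale, time_of_mem_lap h']

theorem Term.Dead.ns {T : ℝ} {τ : Term} (hτ : τ.Dead T) : ∀ τ' ∈ τ.ns, τ'.Dead T := by
  intro τ' h
  rcases List.mem_append.1 h with h | h
  · rcases List.mem_append.1 h with h | h
    · obtain ⟨p, hp, rfl⟩ := List.mem_map.1 h
      exact dead_dList hτ p hp
    · obtain ⟨p, hp, rfl⟩ := List.mem_map.1 h
      exact hτ
  · obtain ⟨σ, h', rfl⟩ := List.mem_map.1 h
    unfold Term.Dead at hτ ⊢
    simpa only [Term.scale, time_of_mem_lap h'] using hτ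

theorem Term.Dead.eval_eq_zero {T : ℝ} {τ : Term} (hτ : τ.Dead T) (ν : ℝ) {t : ℝ} (ht : T ≤ t)
    (x : T3) : τ.eval ν t x = 0 := by
  obtain ⟨g, hg, hd⟩ := hτ
  have : (τ.2.1.1.map fun g => g.eval t).prod = 0 :=
    List.prod_eq_zero (List.mem_map.2 ⟨g, hg, hd.eval_eq_zero ht⟩)
  rw [Term.eval_def, this]
  simp

theorem filter_periodic_flatMap_ns (l : List Term) :
    (l.flatMap Term.ns).filter Term.periodic = (l.filter Term.periodic).flatMap Term.ns := by
  induction l with
  | nil => rfl
  | cons τ l ih =>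
    rw [List.flatMap_cons, List.filter_append, ih]
    cases hτ : τ.periodic
    · rw [List.filter_cons_of_neg (by simp [hτ]), List.filter_eq_nil_iff.2, List.nil_append]
      intro τ' h
      simp [periodic_of_mem_ns h, hτ]
    · rw [List.filter_cons_of_pos hτ, List.flatMap_cons, List.filter_eq_self.2]
      intro τ' h
      rw [periodic_of_mem_ns h, hτ]

/-! ### Computability -/

@[fun_prop] theorem primrec_bump_d : Primrec Bump.d := by
  unfold Bump.d
  fun_prop

theorem dList_eq_foldr (l : List Bump) : (l, dList l) = l.foldr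
    (fun g (acc : List Bump × List (ℚ × List Bump)) => (g :: acc.1,
      (g.d.map fun p => (p.1, p.2 :: acc.1)) ++ acc.2.map fun p => (p.1, g :: p.2))) ([], []) := by
  induction l with
  | nil => rfl
  | cons g l ih => rw [List.foldr_cons, ← ih, dList_cons]

@[fun_prop] theorem primrec_dList : Primrec dList := by
  have h : Primrec fun l : List Bump => (l.foldr
      (fun g (acc : List Bump × List (ℚ × List Bump)) => (g :: acc.1,
        (g.d.map fun p => (p.1, p.2 :: acc.1)) ++ acc.2.map fun p => (p.1, g :: p.2)))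
      ([], [])).2 := by
    fun_prop
  exact h.of_eq fun l => by rw [← dList_eq_foldr]

@[fun_prop] theorem primrec_term_scale (c : ℚ) (k : ℕ) : Primrec (Term.scale c k) := by
  unfold Term.scale
  fun_prop

@[fun_prop] theorem primrec_term_dx (i : Fin 3) : Primrec (Term.dx i) := by
  unfold Term.dx
  fun_prop

@[fun_prop] theorem primrec_term_dt : Primrec Term.dt := by
  unfold Term.dt
  fun_prop

@[fun_prop] theorem primrec_term_lap : Primrec Term.lap := by
  unfold Term.lap
  fun_prop

@[fun_prop] theorem primrec_term_ns : Primrec Term.ns := by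
  unfold Term.ns
  fun_prop

/-- The force compiler attached to a velocity compiler. -/
def forceOf (U : Code → Fin 3 → List Term) (c : Code) (i : Fin 3) : List Term :=
  (U c i).flatMap Term.ns

theorem primrec_forceOf {U : Code → Fin 3 → List Term} (hU : Primrec U) :
    Primrec (forceOf U) := by
  unfold forceOf
  fun_prop

theorem isForceCompiler_forceOf (ν : ℝ) {U : Code → Fin 3 → List Term} (hU : Primrec U)
    (hv : ∀ (M : Machine) (w : List (Fin M.nA)) (i : Fin 3), ∀ τ ∈ U (M.code w) i, τ.Valid)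
    {T₀ : ℝ} (hd : ∀ (M : Machine) (w : List (Fin M.nA)) (i : Fin 3), ∀ τ ∈ U (M.code w) i,
      τ.periodic = false → τ.Dead T₀)
    (hp : ∀ (M : Machine) (w w' : List (Fin M.nA)) (i : Fin 3),
      (U (M.code w) i).filter Term.periodic = (U (M.code w') i).filter Term.periodic) :
    IsForceCompiler ν (forceOf U) where
  computable := (primrec_forceOf hU).to_comp
  valid := fun M w i => valid_flatMap_ns (hv M w i)
  vanish := ⟨T₀, fun M w i τ hτ hper t ht x => by
    obtain ⟨σ, h1, h2⟩ := List.mem_flatMap.1 hτ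
    exact ((hd M w i σ h1 (by rw [← periodic_of_mem_ns h2, hper])).ns τ h2).eval_eq_zero ν ht x⟩
  periodic_indep := fun M w w' i => by
    simp only [forceOf, filter_periodic_flatMap_ns, hp M w w' i]

/-- Everything the problem asks of the solution, for a velocity field given by term lists in which
the component `i` does not depend on `x_i`, with vanishing convective term. -/
theorem solution_package_evalL {ν : ℝ} (hν : 0 ≤ ν) {U : Fin 3 → List Term}
    (hv : ∀ i, ∀ τ ∈ U i, τ.Valid) (hi : ∀ i, ∀ τ ∈ U i, τ.2.2 i = [])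
    (h0 : ∀ i x, evalL ν (U i) 0 x = 0)
    (hconv : ∀ i, ∀ t ≥ (0 : ℝ), ∀ x, ∑ j, evalL ν (U j) t x * pd j (evalL ν (U i) t) x = 0)
    {Y : ℝ → Fin 3 → ℝ}
    (hY : ∀ t ≥ (0 : ℝ), HasDerivWithinAt Y (fun i => evalL ν (U i) t (proj (Y t))) (Ici 0) t) :
    IsGlobalSmooth ν (fun i => evalL ν ((U i).flatMap Term.ns)) (fun i => evalL ν (U i))
        (fun _ _ => 0) ∧
      (∀ T > 0, ∀ v q, IsClassical ν (fun i => evalL ν ((U i).flatMap Term.ns)) T v q →
        ∀ t ∈ Icc 0 T, (∀ i, v i t = evalL ν (U i) t) ∧ q t = fun _ => 0) ∧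
      IsTrajectory (fun i => evalL ν (U i)) (proj (Y 0)) (fun t => proj (Y t)) ∧
      ∀ X', IsTrajectory (fun i => evalL ν (U i)) (proj (Y 0)) X' →
        ∀ t ≥ (0 : ℝ), X' t = proj (Y t) :=
  solution_package hν (fun i => sm_evalL (hv i) ν) h0
    (fun t _ x => Finset.sum_eq_zero fun i _ => pd_evalL_eq_zero (hv i) (hi i) ν t x)
    (fun i t ht x => by rw [evalL_flatMap_ns (hv i), hconv i t ht x, add_zero]) hY

end Vale.Agent.P113
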