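import Vale.Agent.P113.Constr
import Vale.Agent.P113.TermComp

/-! T7 Compiler -/

namespace Vale.Agent.P113

open Set

/-! ### Validity -/

theorem bmp_valid (k c : ℕ) {A : ℕ} (hA : 0 < A) : (bmp k A c).Valid := by
  refine ⟨?_, by norm_num⟩
  have : (0 : ℚ) < A := by exact_mod_cast hA
  positivity

theorem tb_valid (j : ℕ) : (tb j).Valid := by
  show (10 : ℚ) ≠ 0
  norm_num

theorem mkTerm_valid (j : ℕ) (q : ℚ) {h : Fin 3 → List Bump} (hh : ∀ i, ∀ g ∈ h i, g.Valid) :
    (mkTerm j q h).Valid := by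
  refine ⟨by simp, by simp, ?_, hh⟩
  intro g hg
  rw [List.mem_singleton.1 hg]
  exact tb_valid j

theorem inTerm_valid (q : ℚ) : (inTerm q).Valid := by
  refine ⟨by simp, ?_, by simp, ?_⟩
  · intro g hg
    rw [List.mem_singleton.1 hg]
    exact tb_valid 0
  · intro i
    fin_cases i <;> simp

theorem Patch.termsZ_valid (j : ℕ) {P : Patch} (h1 : 0 < P.1.1) (h2 : 0 < P.1.2.2.1) :
    ∀ τ ∈ P.termsZ j, τ.Valid := by
  intro τ hτ
  simp only [Patch.termsZ, List.mem_cons, List.not_mem_nil, or_false] at hτ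
  rcases hτ with rfl | rfl | rfl <;>
  · refine mkTerm_valid _ _ fun i => ?_
    fin_cases i <;> simp [bmp_valid _ _ h1, bmp_valid _ _ h2]

theorem Patch.termsX_valid (j : ℕ) {P : Patch} (h1 : 0 < P.1.1) (h2 : 0 < P.1.2.2.1) :
    ∀ τ ∈ P.termsX j, τ.Valid := by
  intro τ hτ
  simp only [Patch.termsX, List.mem_cons, List.not_mem_nil, or_false] at hτ
  rcases hτ with rfl | rfl | rfl <;>
  · refine mkTerm_valid _ _ fun i => ?_
    fin_cases i <;> simp [bmp_valid _ _ h1, bmp_valid _ _ h2]

theorem Patch.termsY_valid (j : ℕ) {P : Patch} (h1 : 0 < P.1.1) (h2 : 0 < P.1.2.2.1) :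
    ∀ τ ∈ P.termsY j, τ.Valid := by
  intro τ hτ
  simp only [Patch.termsY, List.mem_cons, List.not_mem_nil, or_false] at hτ
  rcases hτ with rfl | rfl | rfl <;>
  · refine mkTerm_valid _ _ fun i => ?_
    fin_cases i <;> simp [bmp_valid _ _ h1, bmp_valid _ _ h2]

namespace MCode

theorem scale_N_pos (m : MCode) : 0 < m.N := by
  unfold N K nS
  positivity

theorem scale_pushD_pos (m : MCode) (a : ℕ) : 0 < m.pushD a := by
  have := m.scale_N_pos
  unfold pushD
  split_ifs <;> positivity

theorem scale_srcI_pos (m : MCode) (i : ℕ) : 0 < (m.srcI i).1 ∧ 0 < (m.srcI i).2.2.1 := by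
  have := m.scale_N_pos
  unfold srcI src
  split_ifs <;> constructor <;> dsimp only <;> positivity

theorem scale_tgtI_pos (m : MCode) (i : ℕ) : 0 < (m.tgtI i).1 ∧ 0 < (m.tgtI i).2.2.1 := by
  have := m.scale_N_pos
  have := m.scale_pushD_pos (i % m.K)
  unfold tgtI tgt
  split_ifs <;> constructor <;> dsimp only <;> positivity

theorem scale_H_pos {m : MCode} {i : ℕ} (hi : i ∈ List.range m.nR) : 0 < m.H := by
  have := List.mem_range.1 hi
  unfold H
  omega

theorem uPer_valid (m : MCode) (i : Fin 3) : ∀ τ ∈ m.uPer i, τ.Valid := by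
  intro τ hτ
  fin_cases i
  · obtain ⟨j, hj, h⟩ := List.mem_flatMap.1 hτ
    exact Patch.termsX_valid 2 (P := m.patch2 j) (m.scale_srcI_pos j).2 (scale_H_pos hj) τ h
  · obtain ⟨j, hj, h⟩ := List.mem_flatMap.1 hτ
    exact Patch.termsY_valid 3 (P := m.patch3 j) (m.scale_tgtI_pos j).1 (scale_H_pos hj) τ h
  · rcases List.mem_append.1 hτ with hτ | hτ
    · obtain ⟨j, -, h⟩ := List.mem_flatMap.1 hτ
      exact Patch.termsZ_valid 1 (P := m.patch1 j) (m.scale_srcI_pos j).1
        (m.scale_srcI_pos j).2 τ h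
    · obtain ⟨j, -, h⟩ := List.mem_flatMap.1 hτ
      exact Patch.termsZ_valid 4 (P := m.patch4 j) (m.scale_tgtI_pos j).1
        (m.scale_tgtI_pos j).2 τ h

theorem exists_of_mem_uIn {m : MCode} {w : List ℕ} {i : Fin 3} {τ : Term} (hτ : τ ∈ m.uIn w i) :
    ∃ q, τ = inTerm q := by
  fin_cases i
  · exact ⟨_, List.mem_singleton.1 hτ⟩
  · exact ⟨_, List.mem_singleton.1 hτ⟩
  · exact absurd hτ List.not_mem_nil

theorem uPer_periodic (m : MCode) (i : Fin 3) : ∀ τ ∈ m.uPer i, τ.periodic = true := by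
  intro τ hτ
  have hX : ∀ j (P : Patch), ∀ τ ∈ P.termsX j, τ.periodic = true := by
    intro j P τ h
    simp only [Patch.termsX, List.mem_cons, List.not_mem_nil, or_false] at h
    rcases h with rfl | rfl | rfl <;> rfl
  have hY : ∀ j (P : Patch), ∀ τ ∈ P.termsY j, τ.periodic = true := by
    intro j P τ h
    simp only [Patch.termsY, List.mem_cons, List.not_mem_nil, or_false] at h
    rcases h with rfl | rfl | rfl <;> rfl
  have hZ : ∀ j (P : Patch), ∀ τ ∈ P.termsZ j, τ.periodic = true := by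
    intro j P τ h
    simp only [Patch.termsZ, List.mem_cons, List.not_mem_nil, or_false] at h
    rcases h with rfl | rfl | rfl <;> rfl
  fin_cases i
  · obtain ⟨j, -, h⟩ := List.mem_flatMap.1 hτ
    exact hX _ _ τ h
  · obtain ⟨j, -, h⟩ := List.mem_flatMap.1 hτ
    exact hY _ _ τ h
  · rcases List.mem_append.1 hτ with hτ | hτ
    · obtain ⟨j, -, h⟩ := List.mem_flatMap.1 hτ
      exact hZ _ _ τ h
    · obtain ⟨j, -, h⟩ := List.mem_flatMap.1 hτ
      exact hZ _ _ τ h

theorem filter_periodic_vel (m : MCode) (w : List ℕ) (i : Fin 3) :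
    (m.vel w i).filter Term.periodic = m.uPer i := by
  rw [vel, List.filter_append, List.filter_eq_self.2 (m.uPer_periodic i),
    List.filter_eq_nil_iff.2, List.append_nil]
  intro τ hτ
  obtain ⟨q, rfl⟩ := exists_of_mem_uIn hτ
  simp [inTerm, Term.periodic]

end MCode

theorem MCode.vel_valid (m : MCode) (w : List ℕ) (i : Fin 3) : ∀ τ ∈ m.vel w i, τ.Valid := by
  intro τ hτ
  rcases List.mem_append.1 hτ with h | h
  · exact m.uPer_valid i τ h
  · obtain ⟨q, rfl⟩ := MCode.exists_of_mem_uIn h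
    exact inTerm_valid q

theorem inTerm_dead (q : ℚ) : (inTerm q).Dead 1 := by
  refine ⟨tb 0, List.mem_singleton.2 rfl, ?_⟩
  simp only [tb, Bump.Dead]
  norm_num

/-! ### The velocity terms are primitive recursive -/

section Prim

@[fun_prop] theorem primrec_kind : Primrec kind := by unfold kind; fun_prop

theorem val_eq_foldr (N : ℕ) (l : List ℕ) :
    val N l = l.foldr (fun (d : ℕ) (v : ℚ) => (d + v) / N) 0 := by
  induction l with
  | nil => rfl
  | cons a l ih => rw [List.foldr_cons, ← ih]; rfl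

@[fun_prop] theorem primrec_val : Primrec fun p : ℕ × List ℕ => val p.1 p.2 := by
  simp only [val_eq_foldr]; fun_prop

namespace MCode

@[fun_prop] theorem primrec_nQ : Primrec nQ := by unfold nQ; fun_prop
@[fun_prop] theorem primrec_nA : Primrec nA := by unfold nA; fun_prop
@[fun_prop] theorem primrec_start : Primrec start := by unfold start; fun_prop
@[fun_prop] theorem primrec_blank : Primrec blank := by unfold blank; fun_prop
@[fun_prop] theorem primrec_halt : Primrec fun p : MCode × ℕ => halt p.1 p.2 := by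
  unfold halt; fun_prop
@[fun_prop] theorem primrec_tbl : Primrec fun p : MCode × ℕ × ℕ => tbl p.1 p.2.1 p.2.2 := by
  unfold tbl; fun_prop
@[fun_prop] theorem primrec_nS : Primrec nS := by unfold nS; fun_prop
@[fun_prop] theorem primrec_nC : Primrec nC := by unfold nC; fun_prop
@[fun_prop] theorem primrec_K : Primrec K := by unfold K; fun_prop
@[fun_prop] theorem primrec_N : Primrec N := by unfold N; fun_prop
@[fun_prop] theorem primrec_nR : Primrec nR := by unfold nR; fun_prop
@[fun_prop] theorem primrec_H : Primrec H := by unfold H; fun_prop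
@[fun_prop] theorem primrec_dec : Primrec fun p : MCode × ℕ => dec p.1 p.2 := by
  unfold dec; fun_prop
@[fun_prop] theorem primrec_garb : Primrec fun p : MCode × ℕ × ℕ => garb p.1 p.2.1 p.2.2 := by
  unfold garb; fun_prop
@[fun_prop] theorem primrec_act : Primrec fun p : MCode × ℕ × ℕ => act p.1 p.2.1 p.2.2 := by
  unfold act; fun_prop
@[fun_prop] theorem primrec_newSt : Primrec fun p : MCode × ℕ × ℕ => newSt p.1 p.2.1 p.2.2 := by
  unfold newSt; fun_prop
@[fun_prop] theorem primrec_pushD : Primrec fun p : MCode × ℕ => pushD p.1 p.2 := by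
  unfold pushD; fun_prop
@[fun_prop] theorem primrec_pushV : Primrec fun p : MCode × ℕ × ℕ => pushV p.1 p.2.1 p.2.2 := by
  unfold pushV; fun_prop
@[fun_prop] theorem primrec_src : Primrec fun p : MCode × ℕ × ℕ => src p.1 p.2.1 p.2.2 := by
  unfold src; fun_prop
@[fun_prop] theorem primrec_tgt : Primrec fun p : MCode × ℕ × ℕ => tgt p.1 p.2.1 p.2.2 := by
  unfold tgt; fun_prop
@[fun_prop] theorem primrec_srcI : Primrec fun p : MCode × ℕ => srcI p.1 p.2 := by
  unfold srcI; fun_prop
@[fun_prop] theorem primrec_tgtI : Primrec fun p : MCode × ℕ => tgtI p.1 p.2 := by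
  unfold tgtI; fun_prop
@[fun_prop] theorem primrec_patch1 : Primrec fun p : MCode × ℕ => patch1 p.1 p.2 := by
  unfold patch1; fun_prop
@[fun_prop] theorem primrec_patch2 : Primrec fun p : MCode × ℕ => patch2 p.1 p.2 := by
  unfold patch2; fun_prop
@[fun_prop] theorem primrec_patch3 : Primrec fun p : MCode × ℕ => patch3 p.1 p.2 := by
  unfold patch3; fun_prop
@[fun_prop] theorem primrec_patch4 : Primrec fun p : MCode × ℕ => patch4 p.1 p.2 := by
  unfold patch4; fun_prop

end MCode

@[fun_prop] theorem primrec_bmp : Primrec fun p : ℕ × ℕ × ℕ => bmp p.1 p.2.1 p.2.2 := by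
  unfold bmp; fun_prop
@[fun_prop] theorem primrec_c0 : Primrec Patch.c0 := by unfold Patch.c0; fun_prop
@[fun_prop] theorem primrec_c1 : Primrec Patch.c1 := by unfold Patch.c1; fun_prop
@[fun_prop] theorem primrec_c2 : Primrec Patch.c2 := by unfold Patch.c2; fun_prop
@[fun_prop] theorem primrec_mkTerm (j : ℕ) :
    Primrec fun p : ℚ × (Fin 3 → List Bump) => mkTerm j p.1 p.2 := by
  unfold mkTerm; fun_prop
@[fun_prop] theorem primrec_termsZ (j : ℕ) : Primrec (Patch.termsZ j) := by
  unfold Patch.termsZ; fun_prop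
@[fun_prop] theorem primrec_termsX (j : ℕ) : Primrec (Patch.termsX j) := by
  unfold Patch.termsX; fun_prop
@[fun_prop] theorem primrec_termsY (j : ℕ) : Primrec (Patch.termsY j) := by
  unfold Patch.termsY; fun_prop
@[fun_prop] theorem primrec_inTerm : Primrec inTerm := by unfold inTerm; fun_prop

@[fun_prop] theorem MCode.primrec_uPer : Primrec MCode.uPer := by unfold MCode.uPer; fun_prop
@[fun_prop] theorem MCode.primrec_uIn :
    Primrec fun p : MCode × List ℕ => MCode.uIn p.1 p.2 := by
  unfold MCode.uIn; fun_prop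

end Prim

theorem primrec_velo : Primrec velo := by
  refine Prim.fp_pi (f := velo) fun i => ?_
  have h1 : Primrec fun c : Code => MCode.uPer c.1 i :=
    (Prim.fp_apply i).comp (MCode.primrec_uPer.comp Primrec.fst)
  have h2 : Primrec fun c : Code => MCode.uIn c.1 c.2 i :=
    (Prim.fp_apply i).comp MCode.primrec_uIn
  exact Prim.fp_append h1 h2

theorem isForceCompiler_compile (ν : ℝ) : IsForceCompiler ν compile := by
  refine isForceCompiler_forceOf ν primrec_velo (T₀ := 1) (fun M w i => MCode.vel_valid _ _ i)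
    (fun M w i τ hτ hp => ?_) (fun M w w' i => ?_)
  · rcases List.mem_append.1 hτ with h | h
    · rw [MCode.uPer_periodic _ i τ h] at hp
      exact absurd hp (by simp)
    · obtain ⟨q, rfl⟩ := MCode.exists_of_mem_uIn h
      exact inTerm_dead q
  · simp only [velo, MCode.filter_periodic_vel, Machine.code_eq]

end Vale.Agent.P113
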