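import Vale.Agent.P113.CField

/-! T6 NS side conditions -/

namespace Vale.Agent.P113

open Set

/-- In each direction, either the component of the window field vanishes or the field does not
depend on that coordinate. -/
theorem MCode.W_dir (m : MCode) (w : List ℕ) (n : ℕ) (j : Fin 3) :
    (∀ y, m.W w n y j = 0) ∨ ∀ y (s : ℝ), m.W w n (y + s • Pi.single j 1) = m.W w n y := by
  unfold MCode.W
  split_ifs
  · exact Or.inr fun _ _ => rfl
  · fin_cases j
    · exact Or.inl fun y => rfl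
    · exact Or.inl fun y => rfl
    · exact Or.inr fun y s => by simp
  · fin_cases j
    · exact Or.inr fun y s => by simp
    · exact Or.inl fun y => rfl
    · exact Or.inl fun y => rfl
  · fin_cases j
    · exact Or.inl fun y => rfl
    · exact Or.inr fun y s => by simp
    · exact Or.inl fun y => rfl
  · fin_cases j
    · exact Or.inl fun y => rfl
    · exact Or.inl fun y => rfl
    · exact Or.inr fun y s => by simp
  · exact Or.inl fun y => rfl

theorem MCode.vel_eval_apply (ν : ℝ) (m : MCode) (w : List ℕ) {t : ℝ} (ht : 0 ≤ t)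
    (y : Fin 3 → ℝ) (i : Fin 3) :
    evalL ν (m.vel w i) t (proj y) =
      (5 * winB (5 * t - ⌊(5 : ℝ) * t⌋₊)) * m.W w ⌊(5 : ℝ) * t⌋₊ y i :=
  congrFun (MCode.vel_eval ν m w ht y) i

theorem MCode.pd_vel_eq_zero (ν : ℝ) (m : MCode) (w : List ℕ) {t : ℝ} (ht : 0 ≤ t) {i j : Fin 3}
    (h : ∀ y (s : ℝ), m.W w ⌊(5 : ℝ) * t⌋₊ (y + s • Pi.single j 1) i = m.W w ⌊(5 : ℝ) * t⌋₊ y i)
    (x : T3) : pd j (evalL ν (m.vel w i) t) x = 0 := by
  refine pd_eq_zero_of_indep (fun x s => ?_) x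
  obtain ⟨y, rfl⟩ := proj_surjective x
  obtain ⟨s, rfl⟩ := QuotientAddGroup.mk_surjective s
  have e := proj_add_smul_single y j s
  rw [← e, MCode.vel_eval_apply ν m w ht, MCode.vel_eval_apply ν m w ht, h]

theorem MCode.vel_init (ν : ℝ) (m : MCode) (w : List ℕ) (i : Fin 3) (x : T3) :
    evalL ν (m.vel w i) 0 x = 0 := by
  obtain ⟨y, rfl⟩ := proj_surjective x
  have hB0 : winB 0 = 0 := Chain.deriv_zero_left hasDerivAt_winS winS_of_nonpos le_rfl
  rw [MCode.vel_eval_apply ν m w le_rfl]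
  simp [hB0]

theorem MCode.vel_div (ν : ℝ) (m : MCode) (w : List ℕ) {t : ℝ} (ht : 0 ≤ t) (x : T3) :
    ∑ i, pd i (evalL ν (m.vel w i) t) x = 0 := by
  refine Finset.sum_eq_zero fun i _ => MCode.pd_vel_eq_zero ν m w ht (fun y s => ?_) x
  rcases m.W_dir w ⌊(5 : ℝ) * t⌋₊ i with h | h
  · rw [h, h]
  · rw [h]

theorem MCode.vel_adv (ν : ℝ) (m : MCode) (w : List ℕ) {t : ℝ} (ht : 0 ≤ t) (i : Fin 3) (x : T3) :
    ∑ j, evalL ν (m.vel w j) t x * pd j (evalL ν (m.vel w i) t) x = 0 := by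
  refine Finset.sum_eq_zero fun j _ => ?_
  rcases m.W_dir w ⌊(5 : ℝ) * t⌋₊ j with h | h
  · obtain ⟨y, rfl⟩ := proj_surjective x
    rw [MCode.vel_eval_apply ν m w ht, h, mul_zero, zero_mul]
  · rw [MCode.pd_vel_eq_zero ν m w ht (fun y s => by rw [h]) x, mul_zero]

end Vale.Agent.P113
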