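import Vale.Agent.P113.Constr

/-! T3 Cyl: combinatorics of cylinders -/

namespace Vale.Agent.P113

open Set

/-- `(p, r)` lies in the cylinder `C` with local coordinates `(ξ, η)`. -/
def Cyl.In (C : Cyl) (p r ξ η : ℝ) : Prop :=
  C.2.1 < C.1 ∧ C.2.2.2 < C.2.2.1 ∧ ξ ∈ Icc (0 : ℝ) (1 / 4) ∧ η ∈ Icc (0 : ℝ) (1 / 4) ∧
    C.1 * p - C.2.1 = ξ ∧ C.2.2.1 * r - C.2.2.2 = η
/-- `(p, r)` is away from the cylinder `C`. -/
def Cyl.Out (C : Cyl) (p r : ℝ) : Prop :=
  (C.2.1 < C.1 ∧ ∃ n, n ≠ C.2.1 ∧ Dig C.1 n p) ∨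
    (C.2.2.2 < C.2.2.1 ∧ ∃ n, n ≠ C.2.2.2 ∧ Dig C.2.2.1 n r)
/-- The index of the rule that applies. -/
def MCode.idx (m : MCode) (c : Cfg) : ℕ := c.1 * m.K + c.top

namespace CCyl

/-! ### Values of digit lists -/

theorem val_cons (N d : ℕ) (l : List ℕ) :
    (val N (d :: l) : ℝ) = ((d : ℝ) + (val N l : ℝ)) / N := by
  simp [val]

theorem val_nil (N : ℕ) : (val N [] : ℝ) = 0 := by simp [val]

theorem mul_val {N : ℕ} (hN : 0 < N) (l : List ℕ) :
    (N : ℝ) * (val N l : ℝ) = (l.headD 0 : ℕ) + (val N l.tail : ℝ) := by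
  have h : (N : ℝ) ≠ 0 := by positivity
  cases l with
  | nil => simp [val_nil]
  | cons d l => rw [val_cons]; simp only [List.headD_cons, List.tail_cons]; field_simp

theorem val_mem {K : ℕ} (hK : 0 < K) {l : List ℕ} (hl : ∀ d ∈ l, d < K) :
    (val (4 * K) l : ℝ) ∈ Icc (0 : ℝ) (1 / 4) := by
  induction l with
  | nil => rw [val_nil]; constructor <;> norm_num
  | cons d l ih =>
    have h1 := ih fun e he => hl e (List.mem_cons_of_mem _ he)
    have h2 : (d : ℝ) + 1 ≤ K := by exact_mod_cast hl d List.mem_cons_self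
    have h3 : (0 : ℝ) < K := by exact_mod_cast hK
    have h4 : (0 : ℝ) ≤ d := Nat.cast_nonneg d
    rw [val_cons]
    push_cast
    refine ⟨div_nonneg (by linarith [h1.1]) (by linarith), ?_⟩
    rw [div_le_iff₀ (by linarith)]
    linarith [h1.2]

theorem tail_lt {K : ℕ} {l : List ℕ} (hl : ∀ d ∈ l, d < K) : ∀ d ∈ l.tail, d < K :=
  fun d hd => hl d (List.mem_of_mem_tail hd)

theorem headD_lt {K : ℕ} (hK : 0 < K) {l : List ℕ} (hl : ∀ d ∈ l, d < K) : l.headD 0 < K := by
  cases l with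
  | nil => exact hK
  | cons d l => exact hl d List.mem_cons_self

theorem two_digit_lt {A B a b : ℕ} (ha : a < A) (hb : b < B) : a * B + b < A * B := by
  have : (a + 1) * B ≤ A * B := Nat.mul_le_mul_right _ ha
  nlinarith

theorem two_digit_inj {B a b a' b' : ℕ} (hb : b < B) (hb' : b' < B)
    (h : a * B + b = a' * B + b') : a = a' ∧ b = b' := by
  have hB : 0 < B := by omega
  have h1 : (a * B + b) / B = (a' * B + b') / B := by rw [h]
  rw [mul_comm a, mul_comm a', Nat.mul_add_div hB, Nat.mul_add_div hB, Nat.div_eq_of_lt hb,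
    Nat.div_eq_of_lt hb'] at h1
  have h2 : a = a' := by omega
  subst h2
  exact ⟨rfl, by omega⟩

/-! ### Sizes -/

variable {m : MCode}

theorem nS_pos (m : MCode) : 0 < m.nS := Nat.succ_pos _

theorem K_pos (m : MCode) : 0 < m.K := Nat.mul_pos (nS_pos m) (Nat.succ_pos _)

theorem nC_lt_K (m : MCode) : m.nC < m.K := by
  have := nS_pos m
  unfold MCode.K
  nlinarith

theorem nS_le_K (m : MCode) : m.nS ≤ m.K := by
  unfold MCode.K
  nlinarith [Nat.zero_le (m.nS * m.nC)]

theorem K_lt_N (m : MCode) : m.K < m.N := by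
  have := K_pos m
  unfold MCode.N
  omega

theorem N_pos (m : MCode) : 0 < m.N := lt_trans (K_pos m) (K_lt_N m)

theorem valN_mem {l : List ℕ} (hl : ∀ d ∈ l, d < m.K) :
    (val m.N l : ℝ) ∈ Icc (0 : ℝ) (1 / 4) := val_mem (K_pos m) hl

theorem top_lt {c : Cfg} (hc : m.Good c) : c.top < m.K := by
  unfold Cfg.top
  split_ifs
  · exact headD_lt (K_pos m) hc.left_lt
  · exact headD_lt (K_pos m) hc.right_lt

theorem popL_lt {c : Cfg} (hc : m.Good c) : ∀ d ∈ c.popL, d < m.K := by
  unfold Cfg.popL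
  split_ifs
  · exact tail_lt hc.left_lt
  · exact hc.left_lt

theorem popR_lt {c : Cfg} (hc : m.Good c) : ∀ d ∈ c.popR, d < m.K := by
  unfold Cfg.popR
  split_ifs
  · exact hc.right_lt
  · exact tail_lt hc.right_lt

theorem act_lt (hm : m.WF) {st a : ℕ} (hst : st < m.nC) (ha : a < m.nS) :
    (m.act st a).1 < m.nQ ∧ (m.act st a).2.1 < m.nA := by
  refine hm.tbl_lt _ (by unfold MCode.nC at hst; omega) _ ?_
  have := hm.blank_lt
  unfold MCode.nS at ha
  unfold MCode.dec
  split_ifs <;> omega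

theorem kind_lt (d : ℤ) : kind d < 3 := by
  unfold kind
  split_ifs <;> omega

theorem newSt_lt (hm : m.WF) {st : ℕ} (hst : st < m.nC) (a : ℕ) : m.newSt st a < m.nC := by
  unfold MCode.newSt
  split_ifs with ha
  · have h1 := (act_lt hm hst ha).1
    have h2 := kind_lt (m.act st a).2.2
    unfold MCode.nC
    omega
  · exact hst

theorem garb_lt {st a : ℕ} (hst : st < m.nC) (ha : a < m.nS) : m.garb st a < m.K := by
  unfold MCode.garb MCode.K
  have : m.nS * (st + 1 + 1) ≤ m.nS * (m.nC + 1) := Nat.mul_le_mul_left _ (by omega)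
  nlinarith

theorem garb_inj {st a st' a' : ℕ} (ha : a < m.nS) (ha' : a' < m.nS)
    (h : m.garb st a = m.garb st' a') : st = st' ∧ a = a' := by
  unfold MCode.garb at h
  rw [mul_comm m.nS, mul_comm m.nS] at h
  have := two_digit_inj ha ha' h
  omega

theorem sym_lt (hm : m.WF) {st a : ℕ} (hst : st < m.nC) (ha : a < m.nS) :
    (m.act st a).2.1 + 1 < m.nS := by
  have := (act_lt hm hst ha).2
  unfold MCode.nS
  omega

theorem pushed_lt (hm : m.WF) {st a : ℕ} (hst : st < m.nC) (ha : a < m.K) :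
    ∀ d ∈ m.pushed st a, d < m.K := by
  unfold MCode.pushed
  split_ifs with h
  · intro d hd
    simp only [List.mem_cons, List.not_mem_nil, or_false] at hd
    rcases hd with rfl | rfl
    · exact lt_of_lt_of_le (sym_lt hm hst h) (nS_le_K m)
    · exact garb_lt hst h
  · intro d hd
    rw [List.mem_singleton.1 hd]
    exact ha

theorem append_lt {K : ℕ} {l l' : List ℕ} (h : ∀ d ∈ l, d < K) (h' : ∀ d ∈ l', d < K) :
    ∀ d ∈ l ++ l', d < K := fun d hd => (List.mem_append.1 hd).elim (h d) (h' d)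

/-! ### The top block of a stack -/

/-- The integer formed by the first one or two digits. -/
def topV (m : MCode) (a : ℕ) (l : List ℕ) : ℕ :=
  if a < m.nS then l.headD 0 * m.N + l.tail.headD 0 else l.headD 0

/-- The rest of the stack. -/
def topR (m : MCode) (a : ℕ) (l : List ℕ) : List ℕ :=
  if a < m.nS then l.tail.tail else l.tail

theorem pushD_mul_val (a : ℕ) (l : List ℕ) :
    (m.pushD a : ℝ) * (val m.N l : ℝ) - (topV m a l : ℕ) = val m.N (topR m a l) := by
  have h1 := mul_val (N_pos m) l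
  have h2 := mul_val (N_pos m) l.tail
  unfold MCode.pushD topV topR
  split_ifs
  · push_cast
    linear_combination (m.N : ℝ) * h1 + h2
  · linear_combination h1

theorem topV_lt (a : ℕ) {l : List ℕ} (hl : ∀ d ∈ l, d < m.K) : topV m a l < m.pushD a := by
  have h1 := lt_trans (headD_lt (K_pos m) hl) (K_lt_N m)
  have h2 := lt_trans (headD_lt (K_pos m) (tail_lt hl)) (K_lt_N m)
  unfold MCode.pushD topV
  split_ifs
  · exact two_digit_lt h1 h2
  · exact h1

theorem topR_lt (a : ℕ) {l : List ℕ} (hl : ∀ d ∈ l, d < m.K) : ∀ d ∈ topR m a l, d < m.K := by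
  unfold topR
  split_ifs
  · exact tail_lt (tail_lt hl)
  · exact tail_lt hl

theorem topV_pushed (st a : ℕ) (l : List ℕ) : topV m a (m.pushed st a ++ l) = m.pushV st a := by
  unfold topV MCode.pushed MCode.pushV
  split_ifs <;> rfl

theorem topR_pushed (st a : ℕ) (l : List ℕ) : topR m a (m.pushed st a ++ l) = l := by
  unfold topR MCode.pushed
  split_ifs <;> rfl

theorem pushV_lt (hm : m.WF) {st a : ℕ} (hst : st < m.nC) (ha : a < m.K) :
    m.pushV st a < m.pushD a := by
  rw [← topV_pushed st a []]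
  exact topV_lt a (append_lt (pushed_lt hm hst ha) (by simp))

/-- Reversibility: the new control digit and the pushed block determine the rule. -/
theorem rule_eq (hm : m.WF) {st a st' a' : ℕ} (hst : st < m.nC) (hst' : st' < m.nC)
    {l : List ℕ} (hl : ∀ d ∈ l, d < m.K) (h1 : m.newSt st' a' = m.newSt st a)
    (h2 : topV m a (m.pushed st' a' ++ l) = m.pushV st a) : st' = st ∧ a' = a := by
  have hKN := K_lt_N m
  unfold topV MCode.pushed MCode.pushV at h2
  unfold MCode.newSt at h1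
  by_cases ha : a < m.nS <;> by_cases hb : a' < m.nS
  · simp only [if_pos ha, if_pos hb, List.cons_append, List.headD_cons, List.tail_cons] at h2
    have := two_digit_inj (lt_trans (garb_lt hst' hb) hKN) (lt_trans (garb_lt hst ha) hKN) h2
    exact garb_inj hb ha this.2
  · simp only [if_pos ha, if_neg hb, List.cons_append, List.nil_append, List.headD_cons,
      List.tail_cons] at h2
    have := two_digit_inj (lt_trans (headD_lt (K_pos m) hl) hKN)
      (lt_trans (garb_lt hst ha) hKN) h2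
    have := sym_lt hm hst ha
    omega
  · simp only [if_neg ha, if_pos hb, List.cons_append, List.headD_cons] at h2
    have := sym_lt hm hst' hb
    omega
  · simp only [if_neg ha, if_neg hb, List.cons_append, List.headD_cons] at h2
    simp only [if_neg ha, if_neg hb] at h1
    exact ⟨h1, h2⟩

/-! ### Digits of points -/

theorem dig_one {s : ℕ} (hs : s < m.K) {l : List ℕ} (hl : ∀ d ∈ l, d < m.K) :
    Dig m.N s (val m.N (s :: l)) := by
  have h := mul_val (N_pos m) (s :: l)
  simp only [List.headD_cons, List.tail_cons] at h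
  have h2 := valN_mem hl
  exact ⟨lt_trans hs (K_lt_N m), by linarith [h2.1], by linarith [h2.2]⟩

theorem dig_head {l : List ℕ} (hl : ∀ d ∈ l, d < m.K) : Dig m.N (l.headD 0) (val m.N l) := by
  have h := mul_val (N_pos m) l
  have h2 := valN_mem (tail_lt hl)
  exact ⟨lt_trans (headD_lt (K_pos m) hl) (K_lt_N m), by linarith [h2.1], by linarith [h2.2]⟩

theorem two_eq (s : ℕ) (l : List ℕ) :
    ((m.N * m.N : ℕ) : ℝ) * (val m.N (s :: l) : ℝ) - ((s * m.N + l.headD 0 : ℕ) : ℝ) =
      val m.N l.tail := by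
  have h := mul_val (N_pos m) (s :: l)
  simp only [List.headD_cons, List.tail_cons] at h
  have h2 := mul_val (N_pos m) l
  push_cast
  linear_combination (m.N : ℝ) * h + h2

theorem dig_two {s : ℕ} (hs : s < m.K) {l : List ℕ} (hl : ∀ d ∈ l, d < m.K) :
    Dig (m.N * m.N) (s * m.N + l.headD 0) (val m.N (s :: l)) := by
  have h := two_eq (m := m) s l
  have h2 := valN_mem (tail_lt hl)
  exact ⟨two_digit_lt (lt_trans hs (K_lt_N m)) (lt_trans (headD_lt (K_pos m) hl) (K_lt_N m)),
    by linarith [h2.1], by linarith [h2.2]⟩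

theorem block_eq (a s : ℕ) (l : List ℕ) :
    ((m.N * m.pushD a : ℕ) : ℝ) * (val m.N (s :: l) : ℝ) -
      ((s * m.pushD a + topV m a l : ℕ) : ℝ) = val m.N (topR m a l) := by
  have h := mul_val (N_pos m) (s :: l)
  simp only [List.headD_cons, List.tail_cons] at h
  have h2 := pushD_mul_val (m := m) a l
  push_cast
  linear_combination (m.pushD a : ℝ) * h + h2

theorem dig_block (a : ℕ) {s : ℕ} (hs : s < m.K) {l : List ℕ} (hl : ∀ d ∈ l, d < m.K) :
    Dig (m.N * m.pushD a) (s * m.pushD a + topV m a l) (val m.N (s :: l)) := by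
  have h := block_eq (m := m) a s l
  have h2 := valN_mem (topR_lt a hl)
  exact ⟨two_digit_lt (lt_trans hs (K_lt_N m)) (topV_lt a hl), by linarith [h2.1],
    by linarith [h2.2]⟩

theorem dig_top (a : ℕ) {l : List ℕ} (hl : ∀ d ∈ l, d < m.K) :
    Dig (m.pushD a) (topV m a l) (val m.N l) := by
  have h := pushD_mul_val (m := m) a l
  have h2 := valN_mem (topR_lt a hl)
  exact ⟨topV_lt a hl, by linarith [h2.1], by linarith [h2.2]⟩

theorem pt_zero (c : Cfg) : m.pt c 0 = val m.N (c.1 :: c.2.1) := rfl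

theorem pt_one (c : Cfg) : m.pt c 1 = val m.N c.2.2 := rfl

theorem idx_mod {c : Cfg} (hc : m.Good c) : m.idx c % m.K = c.top := by
  unfold MCode.idx
  rw [mul_comm, Nat.mul_add_mod, Nat.mod_eq_of_lt (top_lt hc)]

theorem div_lt {j : ℕ} (hj : j < m.nR) : j / m.K < m.nC :=
  (Nat.div_lt_iff_lt_mul (K_pos m)).2 hj

theorem ne_idx {c : Cfg} {j : ℕ} (hne : j ≠ m.idx c) (h1 : c.1 = j / m.K) (h2 : c.top = j % m.K) :
    False := by
  apply hne
  unfold MCode.idx
  rw [h1, h2, mul_comm, Nat.div_add_mod]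

end CCyl

open CCyl

theorem MCode.idx_lt {m : MCode} {c : Cfg} (hc : m.Good c) : m.idx c < m.nR :=
  two_digit_lt hc.st_lt (top_lt hc)

theorem MCode.idx_div {m : MCode} {c : Cfg} (hc : m.Good c) : m.idx c / m.K = c.1 := by
  unfold MCode.idx
  rw [mul_comm, Nat.mul_add_div (K_pos m), Nat.div_eq_of_lt (top_lt hc), add_zero]

theorem MCode.pt_mem {m : MCode} {c : Cfg} (hc : m.Good c) :
    m.pt c 0 ∈ Icc (0 : ℝ) (1 / 4) ∧ m.pt c 1 ∈ Icc (0 : ℝ) (1 / 4) := by
  refine ⟨valN_mem (l := c.1 :: c.2.1) fun d hd => ?_, valN_mem hc.right_lt⟩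
  rcases List.mem_cons.1 hd with rfl | hd
  · exact lt_trans hc.st_lt (nC_lt_K m)
  · exact hc.left_lt d hd

theorem MCode.src_in {m : MCode} {c : Cfg} (hc : m.Good c) :
    (m.srcI (m.idx c)).In (m.pt c 0) (m.pt c 1) (val m.N c.popL) (val m.N c.popR) := by
  have hs := lt_trans hc.st_lt (nC_lt_K m)
  have hL := valN_mem (popL_lt hc)
  have hR := valN_mem (popR_lt hc)
  unfold MCode.srcI
  rw [MCode.idx_div hc, idx_mod hc, pt_zero, pt_one]
  unfold MCode.src Cfg.top
  unfold Cfg.popL at hL ⊢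
  unfold Cfg.popR at hR ⊢
  split_ifs at hL hR ⊢
  · exact ⟨(dig_two hs hc.left_lt).1, Nat.one_pos, hL, hR, two_eq _ _, by simp⟩
  · have h := mul_val (N_pos m) (c.1 :: c.2.1)
    simp only [List.headD_cons, List.tail_cons] at h
    have h2 := mul_val (N_pos m) c.2.2
    exact ⟨(dig_one hs hc.left_lt).1, (dig_head hc.right_lt).1, hL, hR, by linarith, by linarith⟩

theorem MCode.src_out {m : MCode} {c : Cfg} (hc : m.Good c) {j : ℕ} (hj : j < m.nR)
    (hne : j ≠ m.idx c) : (m.srcI j).Out (m.pt c 0) (m.pt c 1) := by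
  have hs := lt_trans hc.st_lt (nC_lt_K m)
  have hKN := K_lt_N m
  have h1 : j / m.K < m.N := lt_trans (lt_trans (div_lt hj) (nC_lt_K m)) hKN
  have h2 : j % m.K < m.N := lt_trans (Nat.mod_lt _ (K_pos m)) hKN
  unfold MCode.srcI
  rw [pt_zero, pt_one]
  unfold MCode.src
  split_ifs with h
  · refine Or.inl ⟨two_digit_lt h1 h2, _, fun he => ?_, dig_two hs hc.left_lt⟩
    have := two_digit_inj (lt_trans (headD_lt (K_pos m) hc.left_lt) hKN) h2 he
    refine ne_idx hne this.1 ?_
    unfold Cfg.top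
    rw [if_pos (by rw [this.1]; exact h)]
    exact this.2
  · by_cases he : c.1 = j / m.K
    · refine Or.inr ⟨h2, _, fun he2 => ?_, dig_head hc.right_lt⟩
      refine ne_idx hne he ?_
      unfold Cfg.top
      rw [if_neg (by rw [he]; exact h)]
      exact he2
    · exact Or.inl ⟨h1, _, he, dig_one hs hc.left_lt⟩

theorem MCode.tgt_in {m : MCode} (hm : m.WF) {c : Cfg} (hc : m.Good c) :
    (m.tgtI (m.idx c)).In (m.pt (m.step c) 0) (m.pt (m.step c) 1)
      (val m.N c.popL) (val m.N c.popR) := by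
  have hs := lt_trans (lt_trans (newSt_lt hm hc.st_lt c.top) (nC_lt_K m)) (K_lt_N m)
  have hL := valN_mem (popL_lt hc)
  have hR := valN_mem (popR_lt hc)
  have hV := pushV_lt hm hc.st_lt (top_lt hc)
  unfold MCode.tgtI
  rw [MCode.idx_div hc, idx_mod hc, pt_zero, pt_one]
  unfold MCode.tgt MCode.step
  split_ifs
  · have h := block_eq (m := m) c.top (m.newSt c.1 c.top) (m.pushed c.1 c.top ++ c.popL)
    rw [topV_pushed, topR_pushed] at h
    exact ⟨two_digit_lt hs hV, Nat.one_pos, hL, hR, h, by simp⟩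
  · have h := mul_val (N_pos m) (m.newSt c.1 c.top :: c.popL)
    simp only [List.headD_cons, List.tail_cons] at h
    have h2 := pushD_mul_val (m := m) c.top (m.pushed c.1 c.top ++ c.popR)
    rw [topV_pushed, topR_pushed] at h2
    exact ⟨hs, hV, hL, hR, by linarith, h2⟩

theorem MCode.tgt_out {m : MCode} (hm : m.WF) {c : Cfg} (hc : m.Good c) {j : ℕ} (hj : j < m.nR)
    (hne : j ≠ m.idx c) : (m.tgtI j).Out (m.pt (m.step c) 0) (m.pt (m.step c) 1) := by
  have hKN := K_lt_N m
  have hst := div_lt hj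
  have ha : j % m.K < m.K := Nat.mod_lt _ (K_pos m)
  have hs := lt_trans (newSt_lt hm hc.st_lt c.top) (nC_lt_K m)
  have ht := lt_trans (lt_trans (newSt_lt hm hst (j % m.K)) (nC_lt_K m)) hKN
  have hV := pushV_lt hm hst ha
  have hP := pushed_lt hm hc.st_lt (top_lt hc)
  have hL := popL_lt hc
  have hR := popR_lt hc
  unfold MCode.tgtI
  rw [pt_zero, pt_one]
  unfold MCode.tgt MCode.step
  split_ifs with h1 h2 h2
  · refine Or.inl ⟨two_digit_lt ht hV, _, fun he => ?_, dig_block _ hs (append_lt hP hL)⟩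
    have h3 := two_digit_inj (topV_lt _ (append_lt hP hL)) hV he
    have h4 := rule_eq hm hst hc.st_lt hL h3.1 h3.2
    exact ne_idx hne h4.1 h4.2
  · refine Or.inl ⟨two_digit_lt ht hV, _, fun he => ?_, dig_block _ hs hL⟩
    have h3 := two_digit_inj (topV_lt _ hL) hV he
    exact h2 (by rw [h3.1]; exact h1)
  · refine Or.inl ⟨ht, _, fun he => ?_, dig_one hs (append_lt hP hL)⟩
    have he' : m.newSt c.1 c.top = m.newSt (j / m.K) (j % m.K) := he
    exact h1 (he' ▸ h2)
  · by_cases he : m.newSt c.1 c.top = m.newSt (j / m.K) (j % m.K)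
    · refine Or.inr ⟨hV, _, fun he2 => ?_, dig_top _ (append_lt hP hR)⟩
      have h4 := rule_eq hm hst hc.st_lt hR he he2
      exact ne_idx hne h4.1 h4.2
    · exact Or.inl ⟨ht, _, he, dig_one hs hL⟩

end Vale.Agent.P113
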