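import Vale.Agent.P113.Constr

/-!
# P113: the two-stack machine simulates the Turing machine
-/

namespace Vale.Agent.P113

open Set

theorem CSim.kind_lt (d : ℤ) : kind d < 3 := by
  unfold kind; split_ifs <;> omega

theorem CSim.mcode_halt (M : Machine) (q : Fin M.nQ) : M.mcode.halt q = M.halting q := by
  change (List.ofFn M.halting).getD q false = _
  simp [List.getD]

theorem CSim.mcode_tbl (M : Machine) (q : Fin M.nQ) (a : Fin M.nA) :
    M.mcode.tbl q a = (((M.δ q a).1 : ℕ), ((M.δ q a).2.1 : ℕ), ((M.δ q a).2.2 : ℤ)) := by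
  change ((List.ofFn fun q => List.ofFn fun a =>
      (((M.δ q a).1 : ℕ), ((M.δ q a).2.1 : ℕ), ((M.δ q a).2.2 : ℤ))).getD q []).getD a _ = _
  simp [List.getD]

theorem Machine.mcode_wf (M : Machine) : M.mcode.WF := by
  refine ⟨M.start.2, M.blank.2, fun q hq a ha => ?_⟩
  rw [CSim.mcode_tbl M ⟨q, hq⟩ ⟨a, ha⟩]
  exact ⟨Fin.is_lt _, Fin.is_lt _⟩

theorem CSim.nS_le_K (m : MCode) : m.nS ≤ m.K := by
  unfold MCode.K; nlinarith

theorem CSim.K_pos (m : MCode) : 0 < m.K :=
  lt_of_lt_of_le (Nat.succ_pos _) (CSim.nS_le_K m)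

theorem CSim.dec_lt {m : MCode} (hm : m.WF) {s : ℕ} (hs : s < m.nS) : m.dec s < m.nA := by
  have := hm.blank_lt
  unfold MCode.dec
  unfold MCode.nS at hs
  split_ifs <;> omega

theorem MCode.WF.good_init {m : MCode} (hm : m.WF) {w : List ℕ} (hw : ∀ a ∈ w, a < m.nA) :
    m.Good (m.init w) := by
  have := hm.start_lt
  refine ⟨?_, by simp [MCode.init], fun d hd => ?_⟩
  · change 3 * m.start < 3 * m.nQ
    omega
  · obtain ⟨a, ha, rfl⟩ := List.mem_map.1 hd
    exact lt_of_lt_of_le (Nat.succ_lt_succ (hw a ha)) (CSim.nS_le_K m)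

theorem CSim.headD_lt {K : ℕ} (hK : 0 < K) {l : List ℕ} (hl : ∀ d ∈ l, d < K) : l.headD 0 < K := by
  cases l with
  | nil => exact hK
  | cons a l => exact hl a List.mem_cons_self

theorem CSim.top_lt {m : MCode} {c : Cfg} (hc : m.Good c) : c.top < m.K := by
  unfold Cfg.top
  split_ifs
  exacts [CSim.headD_lt (CSim.K_pos m) hc.left_lt, CSim.headD_lt (CSim.K_pos m) hc.right_lt]

theorem CSim.act_lt {m : MCode} (hm : m.WF) {st a : ℕ} (hst : st < m.nC) (ha : a < m.nS) :
    (m.act st a).1 < m.nQ ∧ (m.act st a).2.1 < m.nA :=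
  hm.tbl_lt _ (by unfold MCode.nC at hst; omega) _ (CSim.dec_lt hm ha)

theorem MCode.WF.good_step {m : MCode} (hm : m.WF) {c : Cfg} (hc : m.Good c) :
    m.Good (m.step c) := by
  have hst := hc.st_lt
  have h1 : m.newSt c.1 c.top < m.nC := by
    unfold MCode.newSt
    split_ifs with h
    · have := (CSim.act_lt hm hst h).1
      have := CSim.kind_lt (m.act c.1 c.top).2.2
      unfold MCode.nC
      omega
    · exact hst
  have h2 : ∀ d ∈ m.pushed c.1 c.top, d < m.K := by
    unfold MCode.pushed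
    split_ifs with h
    · intro d hd
      simp only [List.mem_cons, List.not_mem_nil, or_false] at hd
      rcases hd with rfl | rfl
      · exact lt_of_lt_of_le (Nat.succ_lt_succ (CSim.act_lt hm hst h).2) (CSim.nS_le_K m)
      · unfold MCode.garb MCode.K
        nlinarith
    · simpa using CSim.top_lt hc
  have hL : ∀ d ∈ c.popL, d < m.K := by
    unfold Cfg.popL
    split_ifs
    exacts [fun d hd => hc.left_lt d (List.mem_of_mem_tail hd), hc.left_lt]
  have hR : ∀ d ∈ c.popR, d < m.K := by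
    unfold Cfg.popR
    split_ifs
    exacts [hc.right_lt, fun d hd => hc.right_lt d (List.mem_of_mem_tail hd)]
  unfold MCode.step
  split_ifs
  · exact ⟨h1, fun d hd => (List.mem_append.1 hd).elim (h2 d) (hL d), hR⟩
  · exact ⟨h1, hL, fun d hd => (List.mem_append.1 hd).elim (h2 d) (hR d)⟩

namespace CSim

/-- The `k`-th tape symbol stored in a stack. -/
def cell (m : MCode) (l : List ℕ) (k : ℕ) : ℕ :=
  m.dec ((l.filter fun d => decide (d < m.nS)).getD k 0)

theorem cell_cons_garb {m : MCode} {s : ℕ} (hs : ¬ s < m.nS) (l : List ℕ) (k : ℕ) :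
    cell m (s :: l) k = cell m l k := by
  simp [cell, hs]

theorem cell_cons_zero {m : MCode} {s : ℕ} (hs : s < m.nS) (l : List ℕ) :
    cell m (s :: l) 0 = m.dec s := by
  simp [cell, hs]

theorem cell_cons_succ {m : MCode} {s : ℕ} (hs : s < m.nS) (l : List ℕ) (k : ℕ) :
    cell m (s :: l) (k + 1) = cell m l k := by
  simp [cell, hs]

theorem cell_zero {m : MCode} {l : List ℕ} (hs : l.headD 0 < m.nS) :
    cell m l 0 = m.dec (l.headD 0) := by
  cases l with
  | nil => rfl
  | cons s l => exact cell_cons_zero hs l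

theorem cell_tail {m : MCode} {l : List ℕ} (hs : l.headD 0 < m.nS) (k : ℕ) :
    cell m l.tail k = cell m l (k + 1) := by
  cases l with
  | nil => rfl
  | cons s l => exact (cell_cons_succ hs l k).symm

theorem cell_tail_garb {m : MCode} {l : List ℕ} (hs : ¬ l.headD 0 < m.nS) (k : ℕ) :
    cell m l.tail k = cell m l k := by
  cases l with
  | nil => rfl
  | cons s l => exact (cell_cons_garb hs l k).symm

theorem length_tail_lt {m : MCode} {l : List ℕ} (hs : ¬ l.headD 0 < m.nS) :
    l.tail.length < l.length := by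
  cases l with
  | nil => exact absurd (Nat.succ_pos _) hs
  | cons s l => simp

/-- The two-stack configuration represents the configuration of the machine. -/
def Sim (M : Machine) (x : M.Config) (c : Cfg) : Prop :=
  ∃ e : ℕ, e < 3 ∧ c.1 = 3 * x.1 + e ∧
    (∀ k : ℕ, cell M.mcode c.2.1 k = x.2.1 (x.2.2 + (if e = 1 then 1 else 0) - 1 - k)) ∧
    (∀ k : ℕ, cell M.mcode c.2.2 k = x.2.1 (x.2.2 + (if e = 1 then 1 else 0) + k)) ∧
    (e = 2 → c.2.2.headD 0 < M.mcode.nS)

/-- The length of the stack that is read. -/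
def rlen (c : Cfg) : ℕ := if c.1 % 3 = 1 then c.2.1.length else c.2.2.length

variable {M : Machine}

theorem Sim.halt {x : M.Config} {c : Cfg} (h : Sim M x c) :
    M.mcode.halt (c.1 / 3) = M.halting x.1 := by
  obtain ⟨e, he, h1, -⟩ := h
  have : c.1 / 3 = x.1 := by omega
  rw [this, CSim.mcode_halt M]

/-- A step that moves a garbage digit. -/
theorem Sim.skip {x : M.Config} {c : Cfg} (h : Sim M x c) (hs : ¬ c.top < M.mcode.nS) :
    Sim M x (M.mcode.step c) ∧ rlen (M.mcode.step c) < rlen c := by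
  obtain ⟨e, he, h1, hl, hr, h2⟩ := h
  have hS : M.mcode.newSt c.1 c.top = c.1 := if_neg hs
  have hW : M.mcode.pushed c.1 c.top = [c.top] := if_neg hs
  have hm : c.1 % 3 = e := by omega
  unfold MCode.step
  rw [hS, hW]
  simp only [Cfg.top, Cfg.popL, Cfg.popR, hm] at hs ⊢
  obtain rfl | rfl | rfl : e = 0 ∨ e = 1 ∨ e = 2 := by omega
  · simp only [zero_ne_one, if_false, if_true, List.singleton_append] at hs hl hr ⊢
    refine ⟨⟨0, he, h1, fun k => ?_, fun k => ?_, by simp⟩, ?_⟩
    · rw [cell_cons_garb hs, hl]; simp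
    · rw [cell_tail_garb hs, hr]; simp
    · simpa [rlen, hm] using length_tail_lt hs
  · simp only [one_ne_zero, if_false, if_true, List.singleton_append] at hs hl hr ⊢
    refine ⟨⟨1, he, h1, fun k => ?_, fun k => ?_, by simp⟩, ?_⟩
    · rw [cell_tail_garb hs, hl]; simp
    · rw [cell_cons_garb hs, hr]; simp
    · simpa [rlen, hm] using length_tail_lt hs
  · exact absurd (h2 rfl) (by simpa using hs)

/-- Writing and moving, from the two stacks with the head cell removed. -/
theorem sim_write {x : M.Config} {L R : List ℕ} (q : Fin M.nQ) (b : Fin M.nA) (d : SignType)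
    {g : ℕ} (hg : ¬ g < M.mcode.nS) (hL : ∀ k : ℕ, cell M.mcode L k = x.2.1 (x.2.2 - 1 - k))
    (hR : ∀ k : ℕ, cell M.mcode R k = x.2.1 (x.2.2 + 1 + k)) :
    Sim M (q, Function.update x.2.1 x.2.2 b, x.2.2 + (d : ℤ))
      (if (3 * q + kind d) % 3 = 0 then (3 * q + kind d, [(b : ℕ) + 1, g] ++ L, R)
        else (3 * q + kind d, L, [(b : ℕ) + 1, g] ++ R)) := by
  have hb : (b : ℕ) + 1 < M.mcode.nS := Nat.succ_lt_succ b.2
  have hdec : M.mcode.dec (b + 1) = b := by simp [MCode.dec]
  have push : ∀ (S : List ℕ) (φ : ℕ → ℤ), φ 0 = x.2.2 → (∀ k, φ (k + 1) ≠ x.2.2) →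
      (∀ k, cell M.mcode S k = x.2.1 (φ (k + 1))) → ∀ k,
      cell M.mcode ([(b : ℕ) + 1, g] ++ S) k = Function.update x.2.1 x.2.2 b (φ k) := by
    intro S φ h0 h1 h2 k
    cases k with
    | zero =>
      simp only [List.cons_append, List.nil_append]
      rw [cell_cons_zero hb, hdec, h0, Function.update_self]
    | succ k =>
      simp only [List.cons_append, List.nil_append]
      rw [cell_cons_succ hb, cell_cons_garb hg, h2, Function.update_of_ne (h1 k)]
  have hm : (3 * (q : ℕ) + kind d) % 3 = kind d := by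
    have := CSim.kind_lt d; omega
  rw [hm]
  have hRp := push R (fun k => x.2.2 + k) (by simp) (fun k => by push_cast; omega)
    (fun k => by rw [hR]; congr 2; push_cast; ring_nf)
  have hLp := push L (fun k => x.2.2 - k) (by simp) (fun k => by push_cast; omega)
    (fun k => by rw [hL]; congr 2; push_cast; ring_nf)
  have keep : ∀ (S : List ℕ) (k : ℕ) (i j : ℤ), cell M.mcode S k = x.2.1 i → i = j → i ≠ x.2.2 →
      cell M.mcode S k = Function.update x.2.1 x.2.2 b j := by
    rintro S k i j h1 rfl h2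
    rw [h1, Function.update_of_ne h2]
  cases d with
  | zero =>
    have e : kind ((SignType.zero : SignType) : ℤ) = 2 := rfl
    rw [e, if_neg (by norm_num)]
    refine ⟨2, by norm_num, rfl, fun k => ?_, fun k => ?_, fun _ => hb⟩
    · exact keep L k _ _ (hL k) (by simp) (by omega)
    · rw [hRp]; simp
  | neg =>
    have e : kind ((SignType.neg : SignType) : ℤ) = 1 := rfl
    rw [e, if_neg (by norm_num)]
    refine ⟨1, by norm_num, rfl, fun k => ?_, fun k => ?_, by simp⟩
    · exact keep L k _ _ (hL k) (by simp) (by omega)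
    · rw [hRp]; simp
  | pos =>
    have e : kind ((SignType.pos : SignType) : ℤ) = 0 := rfl
    rw [e, if_pos rfl]
    refine ⟨0, by norm_num, rfl, fun k => ?_, fun k => ?_, by simp⟩
    · rw [hLp]; simp
    · exact keep R k _ _ (hR k) (by simp) (by omega)

/-- A step that reads a tape symbol. -/
theorem Sim.real {x : M.Config} {c : Cfg} (h : Sim M x c) (hx : M.halting x.1 = false)
    (hs : c.top < M.mcode.nS) : Sim M (M.next x) (M.mcode.step c) := by
  obtain ⟨e, he, h1, hl, hr, -⟩ := h
  have hm : c.1 % 3 = e := by omega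
  have key : M.mcode.dec c.top = x.2.1 x.2.2 ∧
      (∀ k : ℕ, cell M.mcode c.popL k = x.2.1 (x.2.2 - 1 - k)) ∧
      ∀ k : ℕ, cell M.mcode c.popR k = x.2.1 (x.2.2 + 1 + k) := by
    simp only [Cfg.top, Cfg.popL, Cfg.popR, hm] at hs ⊢
    by_cases h0 : e = 1
    · simp only [h0, if_true] at hs hl hr ⊢
      refine ⟨?_, fun k => ?_, hr⟩
      · rw [← cell_zero hs, hl]; simp
      · rw [cell_tail hs, hl]; congr 2; push_cast; ring_nf
    · simp only [h0, if_false] at hs hl hr ⊢
      refine ⟨?_, fun k => ?_, fun k => ?_⟩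
      · rw [← cell_zero hs, hr]; simp
      · rw [hl]; simp
      · rw [cell_tail hs, hr]; congr 2; push_cast; ring_nf
  obtain ⟨k1, k2, k3⟩ := key
  have hq : c.1 / 3 = x.1 := by omega
  have ht := CSim.mcode_tbl M x.1 (x.2.1 x.2.2)
  rw [← hq, ← k1] at ht
  change M.mcode.act c.1 c.top = _ at ht
  unfold Machine.next MCode.step MCode.newSt MCode.pushed
  rw [hx]
  simp only [Bool.false_eq_true, if_false]
  rw [if_pos hs, if_pos hs, ht]
  refine sim_write _ _ _ ?_ k2 k3
  unfold MCode.garb
  nlinarith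

theorem sim_init (M : Machine) (w : List (Fin M.nA)) :
    Sim M (M.init w) (M.mcode.init (w.map Fin.val)) := by
  refine ⟨0, by norm_num, rfl, fun k => ?_, fun k => ?_, by simp⟩
  · have h : ¬ (k : ℤ) ≤ -1 := by omega
    simp [Machine.init, MCode.init, cell, MCode.dec, MCode.blank, Machine.mcode, h]
  · have hf : ((w.map Fin.val).map fun a => a + 1).filter (fun d => decide (d < M.mcode.nS)) =
        (w.map Fin.val).map fun a => a + 1 := by
      refine List.filter_eq_self.2 fun d hd => ?_
      simp only [List.map_map, List.mem_map, Function.comp_apply] at hd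
      obtain ⟨a, -, rfl⟩ := hd
      exact decide_eq_true (Nat.succ_lt_succ a.2)
    change M.mcode.dec ((((w.map Fin.val).map fun a => a + 1).filter
      fun d => decide (d < M.mcode.nS)).getD k 0) = _
    rw [hf]
    simp only [Machine.init, zero_ne_one, if_false, add_zero, zero_add, Nat.cast_nonneg,
      if_true, Int.toNat_natCast, List.map_map, List.getD_eq_getElem?_getD, List.getElem?_map]
    cases w[k]? with
    | none => rfl
    | some a => simp [MCode.dec]

theorem Sim.reach {x : M.Config} {c : Cfg} (h : Sim M x c) :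
    ∃ n, Sim M (M.next x) (M.mcode.step^[n] c) := by
  cases hx : M.halting x.1 with
  | true =>
    refine ⟨0, ?_⟩
    unfold Machine.next
    rw [if_pos hx]
    exact h
  | false =>
    induction hn : rlen c using Nat.strong_induction_on generalizing c with
    | _ n ih =>
      by_cases hs : c.top < M.mcode.nS
      · exact ⟨1, h.real hx hs⟩
      · obtain ⟨h1, h2⟩ := h.skip hs
        obtain ⟨k, hk⟩ := ih _ (hn ▸ h2) h1 rfl
        exact ⟨k + 1, hk⟩

theorem sim_orbit (w : List (Fin M.nA)) (k : ℕ) :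
    ∃ n, Sim M (M.next^[k] (M.init w)) (M.mcode.step^[n] (M.mcode.init (w.map Fin.val))) := by
  induction k with
  | zero => exact ⟨0, sim_init M w⟩
  | succ k ih =>
    obtain ⟨n, hn⟩ := ih
    obtain ⟨j, hj⟩ := hn.reach
    refine ⟨j + n, ?_⟩
    rwa [Function.iterate_succ_apply', Function.iterate_add_apply]

theorem orbit_sim (w : List (Fin M.nA)) (hw : ¬ M.Halts w) (n : ℕ) :
    ∃ k, Sim M (M.next^[k] (M.init w)) (M.mcode.step^[n] (M.mcode.init (w.map Fin.val))) := by
  induction n with
  | zero => exact ⟨0, sim_init M w⟩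
  | succ n ih =>
    obtain ⟨k, hk⟩ := ih
    rw [Function.iterate_succ_apply']
    have hx : M.halting (M.next^[k] (M.init w)).1 = false :=
      Bool.eq_false_iff.2 fun h => hw ⟨k, h⟩
    by_cases hs : (M.mcode.step^[n] (M.mcode.init (w.map Fin.val))).top < M.mcode.nS
    · exact ⟨k + 1, by rw [Function.iterate_succ_apply']; exact hk.real hx hs⟩
    · exact ⟨k, (hk.skip hs).1⟩

end CSim

theorem Machine.halts_iff (M : Machine) (w : List (Fin M.nA)) :
    M.Halts w ↔
      ∃ n, M.mcode.halt ((M.mcode.step^[n] (M.mcode.init (w.map Fin.val))).1 / 3) = true := by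
  constructor
  · rintro ⟨k, hk⟩
    obtain ⟨n, hn⟩ := CSim.sim_orbit w k
    exact ⟨n, hn.halt.trans hk⟩
  · rintro ⟨n, hn⟩
    by_contra hw
    obtain ⟨k, hk⟩ := CSim.orbit_sim w hw n
    exact hw ⟨k, hk.halt.symm.trans hn⟩

end Vale.Agent.P113
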