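import Mathlib

/-!
A chain of shears acting in consecutive time windows: the explicit trajectory.
-/

open Set Filter Topology

namespace Vale.Agent.P113.Chain

variable {E : Type*} [NormedAddCommGroup E] [NormedSpace ℝ E]

/-- The positions at the ends of the windows. -/
def pt (W : ℕ → E → E) (a : E) : ℕ → E
  | 0 => a
  | m + 1 => pt W a m + W m (pt W a m)

omit [NormedSpace ℝ E] in
theorem pt_eq_sum (W : ℕ → E → E) (a : E) (m : ℕ) :
    pt W a m = a + ∑ k ∈ Finset.range m, W k (pt W a k) := by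
  induction m with
  | zero => simp [pt]
  | succ m ih => rw [Finset.sum_range_succ, ← add_assoc, ← ih, pt]

/-- The trajectory: in the window `m ≤ N t < m + 1` it runs along the segment from `pt W a m` to
`pt W a (m + 1)`. -/
noncomputable def path (N : ℝ) (S : ℝ → ℝ) (W : ℕ → E → E) (a : E) (t : ℝ) : E :=
  pt W a ⌊N * t⌋₊ + S (N * t - ⌊N * t⌋₊) • W ⌊N * t⌋₊ (pt W a ⌊N * t⌋₊)

variable {N : ℝ} {S β : ℝ → ℝ} {W : ℕ → E → E} {a : E}

theorem path_eq_sum (h0 : ∀ r ≤ 0, S r = 0) (h1 : ∀ r ≥ 1, S r = 1) {t : ℝ} (ht : 0 ≤ N * t)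
    {K : ℕ} (hK : N * t < K) :
    path N S W a t = a + ∑ k ∈ Finset.range K, S (N * t - k) • W k (pt W a k) := by
  have hm : ⌊N * t⌋₊ + 1 ≤ K := (Nat.floor_lt ht).2 hK
  rw [← Finset.sum_range_add_sum_Ico _ hm, Finset.sum_range_succ, path, pt_eq_sum W a ⌊N * t⌋₊]
  have e1 : ∑ k ∈ Finset.Ico (⌊N * t⌋₊ + 1) K, S (N * t - k) • W k (pt W a k) = 0 := by
    refine Finset.sum_eq_zero fun k hk => ?_
    have h2 : ((⌊N * t⌋₊ + 1 : ℕ) : ℝ) ≤ k := by exact_mod_cast (Finset.mem_Ico.1 hk).1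
    have h3 := Nat.lt_floor_add_one (N * t)
    push_cast at h2
    rw [h0 _ (by linarith), zero_smul]
  have e2 : ∑ k ∈ Finset.range ⌊N * t⌋₊, S (N * t - k) • W k (pt W a k) =
      ∑ k ∈ Finset.range ⌊N * t⌋₊, W k (pt W a k) := by
    refine Finset.sum_congr rfl fun k hk => ?_
    have h2 : ((k + 1 : ℕ) : ℝ) ≤ ⌊N * t⌋₊ := by exact_mod_cast Finset.mem_range.1 hk
    have h3 := Nat.floor_le ht
    push_cast at h2
    rw [h1 _ (by linarith), one_smul]
  rw [e1, e2, add_zero, ← pt_eq_sum, ← add_assoc, ← pt_eq_sum]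

theorem deriv_zero_left (hS : ∀ r, HasDerivAt S (β r) r) (h0 : ∀ r ≤ 0, S r = 0) {r : ℝ}
    (hr : r ≤ 0) : β r = 0 := by
  have h1 : HasDerivWithinAt S (β r) (Iic r) r := (hS r).hasDerivWithinAt
  have h2 : HasDerivWithinAt S 0 (Iic r) r :=
    (hasDerivWithinAt_const r (Iic r) (0 : ℝ)).congr (fun s hs => h0 s (le_trans hs hr)) (h0 r hr)
  exact (uniqueDiffWithinAt_Iic r).eq_deriv _ h1 h2

theorem deriv_zero_right (hS : ∀ r, HasDerivAt S (β r) r) (h1 : ∀ r ≥ 1, S r = 1) {r : ℝ}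
    (hr : 1 ≤ r) : β r = 0 := by
  have h2 : HasDerivWithinAt S (β r) (Ici r) r := (hS r).hasDerivWithinAt
  have h3 : HasDerivWithinAt S 0 (Ici r) r :=
    (hasDerivWithinAt_const r (Ici r) (1 : ℝ)).congr (fun s hs => h1 s (le_trans hr hs)) (h1 r hr)
  exact (uniqueDiffWithinAt_Ici r).eq_deriv _ h2 h3

/-- The velocity of the path. -/
theorem hasDerivWithinAt_path (hN : 0 < N) (hS : ∀ r, HasDerivAt S (β r) r)
    (h0 : ∀ r ≤ 0, S r = 0) (h1 : ∀ r ≥ 1, S r = 1) {t : ℝ} (ht : 0 ≤ t) :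
    HasDerivWithinAt (path N S W a)
      ((N * β (N * t - ⌊N * t⌋₊)) • W ⌊N * t⌋₊ (pt W a ⌊N * t⌋₊)) (Ici 0) t := by
  have hNt : 0 ≤ N * t := mul_nonneg hN.le ht
  have hlt := Nat.lt_floor_add_one (N * t)
  have hd : HasDerivAt
      (fun s => a + ∑ k ∈ Finset.range (⌊N * t⌋₊ + 1), S (N * s - k) • W k (pt W a k))
      (∑ k ∈ Finset.range (⌊N * t⌋₊ + 1), (β (N * t - k) * N) • W k (pt W a k)) t := by
    refine HasDerivAt.const_add a (HasDerivAt.fun_sum fun k _ => ?_)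
    have h2 : HasDerivAt (fun s => N * s - k) N t := by
      simpa using ((hasDerivAt_id t).const_mul N).sub_const (k : ℝ)
    exact (HasDerivAt.comp t (hS (N * t - k)) h2).smul_const _
  have he : ∑ k ∈ Finset.range (⌊N * t⌋₊ + 1), (β (N * t - k) * N) • W k (pt W a k) =
      (N * β (N * t - ⌊N * t⌋₊)) • W ⌊N * t⌋₊ (pt W a ⌊N * t⌋₊) := by
    rw [Finset.sum_range_succ, Finset.sum_eq_zero, zero_add, mul_comm]
    intro k hk
    have h2 : ((k + 1 : ℕ) : ℝ) ≤ ⌊N * t⌋₊ := by exact_mod_cast Finset.mem_range.1 hk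
    have h3 := Nat.floor_le hNt
    push_cast at h2
    rw [deriv_zero_right hS h1 (by linarith), zero_mul, zero_smul]
  rw [he] at hd
  have hev : ∀ᶠ s in 𝓝[Ici 0] t, path N S W a s =
      a + ∑ k ∈ Finset.range (⌊N * t⌋₊ + 1), S (N * s - k) • W k (pt W a k) := by
    have hc : ∀ᶠ s in 𝓝 t, N * s < (⌊N * t⌋₊ : ℝ) + 1 :=
      (continuous_const.mul continuous_id).continuousAt.eventually_lt continuousAt_const hlt
    filter_upwards [nhdsWithin_le_nhds hc, self_mem_nhdsWithin] with s hs hs0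
    exact path_eq_sum h0 h1 (mul_nonneg hN.le hs0) (by push_cast; exact hs)
  exact hd.hasDerivWithinAt.congr_of_eventuallyEq hev
    (path_eq_sum h0 h1 hNt (by push_cast; exact hlt))

/-- The path solves the differential equation of a field that equals, in each window, a time
profile times a shear. -/
theorem hasDerivWithinAt_path_field (hN : 0 < N) (hS : ∀ r, HasDerivAt S (β r) r)
    (h0 : ∀ r ≤ 0, S r = 0) (h1 : ∀ r ≥ 1, S r = 1)
    (hW : ∀ m x (s : ℝ), W m (x + s • W m x) = W m x) {U : ℝ → E → E}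
    (hU : ∀ t ≥ (0 : ℝ), ∀ x, U t x = (N * β (N * t - ⌊N * t⌋₊)) • W ⌊N * t⌋₊ x) :
    ∀ t ≥ (0 : ℝ), HasDerivWithinAt (path N S W a) (U t (path N S W a t)) (Ici 0) t := by
  intro t ht
  rw [hU t ht]
  have : W ⌊N * t⌋₊ (path N S W a t) = W ⌊N * t⌋₊ (pt W a ⌊N * t⌋₊) := hW _ _ _
  rw [this]
  exact hasDerivWithinAt_path hN hS h0 h1 ht

theorem path_nat (hN : 0 < N) (h0 : S 0 = 0) (m : ℕ) : path N S W a (m / N) = pt W a m := by
  have : N * (m / N) = m := by field_simp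
  simp [path, this, h0]

theorem path_zero (h0 : S 0 = 0) : path N S W a 0 = a := by
  simp [path, h0, pt]

/-- The path stays on the segments between consecutive window ends. -/
theorem path_mem_segment (hS : ∀ r, S r ∈ Icc (0 : ℝ) 1) (t : ℝ) :
    path N S W a t ∈ segment ℝ (pt W a ⌊N * t⌋₊) (pt W a (⌊N * t⌋₊ + 1)) := by
  rw [segment_eq_image']
  exact ⟨S (N * t - ⌊N * t⌋₊), hS _, by simp [path, pt]⟩

/-- If all window ends lie in a convex set, so does the path. -/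
theorem path_mem_convex (hS : ∀ r, S r ∈ Icc (0 : ℝ) 1) {C : Set E} (hC : Convex ℝ C)
    (h : ∀ m, pt W a m ∈ C) (t : ℝ) : path N S W a t ∈ C :=
  hC.segment_subset (h _) (h _) (path_mem_segment hS t)

end Vale.Agent.P113.Chain
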