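import Vale.Agent.P113.Unique

/-!
Uniqueness of trajectories of a smooth velocity field on the torus.
-/

open MeasureTheory Set Filter Topology

namespace Vale.Agent.P113

theorem proj_add (x y : Fin 3 → ℝ) : proj (x + y) = proj x + proj y := by
  funext i
  simp [proj]

theorem proj_sub (x y : Fin 3 → ℝ) : proj (x - y) = proj x - proj y := by
  funext i
  simp [proj]

theorem proj_zero : proj 0 = 0 := by
  funext i
  simp [proj]

/-- Uniqueness for the lifted equation `Y' = V(t, Y)` on `[0, ∞)` when `V` is `C¹`. -/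
theorem ode_unique {V : ℝ → (Fin 3 → ℝ) → Fin 3 → ℝ}
    (hV : ContDiffOn ℝ 1 (fun z : ℝ × (Fin 3 → ℝ) => V z.1 z.2) (Ici 0 ×ˢ univ))
    {Y Z : ℝ → Fin 3 → ℝ} (hY : ∀ t ≥ (0 : ℝ), HasDerivWithinAt Y (V t (Y t)) (Ici 0) t)
    (hZ : ∀ t ≥ (0 : ℝ), HasDerivWithinAt Z (V t (Z t)) (Ici 0) t) (h0 : Y 0 = Z 0) :
    ∀ t ≥ (0 : ℝ), Y t = Z t := by
  intro T hT
  have cY : ContinuousOn Y (Icc 0 T) := fun t ht =>
    (hY t ht.1).continuousWithinAt.mono Icc_subset_Ici_self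
  have cZ : ContinuousOn Z (Icc 0 T) := fun t ht =>
    (hZ t ht.1).continuousWithinAt.mono Icc_subset_Ici_self
  obtain ⟨A, hA⟩ := isCompact_Icc.exists_bound_of_continuousOn cY
  obtain ⟨B, hB⟩ := isCompact_Icc.exists_bound_of_continuousOn cZ
  have hsub : Icc (0 : ℝ) T ×ˢ Metric.closedBall (0 : Fin 3 → ℝ) (max A B) ⊆ Ici 0 ×ˢ univ :=
    prod_mono Icc_subset_Ici_self (subset_univ _)
  obtain ⟨K, hK⟩ := (hV.mono hsub).exists_lipschitzOnWith one_ne_zero
    ((convex_Icc 0 T).prod (convex_closedBall _ _))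
    (isCompact_Icc.prod (isCompact_closedBall _ _))
  refine ODE_solution_unique_of_mem_Icc_right (v := V) (K := K)
    (s := fun _ => Metric.closedBall (0 : Fin 3 → ℝ) (max A B)) (a := 0) (b := T)
    (fun t ht => ?_) cY (fun t ht => (hY t ht.1).mono (Ici_subset_Ici.2 ht.1))
    (fun t ht => ?_) cZ (fun t ht => (hZ t ht.1).mono (Ici_subset_Ici.2 ht.1))
    (fun t ht => ?_) h0 (right_mem_Icc.2 hT)
  · refine LipschitzOnWith.of_dist_le_mul fun x hx y hy => ?_
    have h := hK.dist_le_mul (t, x) ⟨Ico_subset_Icc_self ht, hx⟩ (t, y)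
      ⟨Ico_subset_Icc_self ht, hy⟩
    simpa using h
  · rw [mem_closedBall_zero_iff]
    exact (hA t (Ico_subset_Icc_self ht)).trans (le_max_left _ _)
  · rw [mem_closedBall_zero_iff]
    exact (hB t (Ico_subset_Icc_self ht)).trans (le_max_right _ _)

/-- Trajectories of a field that is smooth on `[0, ∞) × 𝕋³` are unique. -/
theorem IsTrajectory.unique {u : Fin 3 → ℝ → T3 → ℝ} (hu : ∀ i, SmoothOn0 (u i)) {a : T3}
    {X X' : ℝ → T3} (hX : IsTrajectory u a X) (hX' : IsTrajectory u a X') :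
    ∀ t ≥ (0 : ℝ), X' t = X t := by
  obtain ⟨hX0, Y, hY⟩ := hX
  obtain ⟨hX0', Z, hZ⟩ := hX'
  have hc : proj (Y 0 - Z 0) = 0 := by
    rw [proj_sub, ← (hY 0 le_rfl).1, ← (hZ 0 le_rfl).1, hX0, hX0', sub_self]
  have hp : ∀ t, proj (Z t + (Y 0 - Z 0)) = proj (Z t) := fun t => by
    rw [proj_add, hc, add_zero]
  have hV : ContDiffOn ℝ 1 (fun z : ℝ × (Fin 3 → ℝ) => fun i => u i z.1 (proj z.2))
      (Ici 0 ×ˢ univ) :=
    contDiffOn_pi.2 fun i => (hu i).of_le (by exact_mod_cast le_top)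
  have key := ode_unique (V := fun t x i => u i t (proj x)) hV (Y := Y)
    (Z := fun t => Z t + (Y 0 - Z 0))
    (fun t ht => by
      have h := (hY t ht).2
      rwa [(hY t ht).1] at h)
    (fun t ht => by
      have h := ((hZ t ht).2).add_const (Y 0 - Z 0)
      rw [(hZ t ht).1] at h
      simpa only [hp] using h)
    (by simp)
  intro t ht
  rw [(hZ t ht).1, (hY t ht).1, key t ht, hp]

/-- A solution of the lifted equation projects to a trajectory. -/
theorem isTrajectory_of_lift {u : Fin 3 → ℝ → T3 → ℝ} {Y : ℝ → Fin 3 → ℝ}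
    (hY : ∀ t ≥ (0 : ℝ), HasDerivWithinAt Y (fun i => u i t (proj (Y t))) (Ici 0) t) :
    IsTrajectory u (proj (Y 0)) (fun t => proj (Y t)) :=
  ⟨rfl, Y, fun t ht => ⟨rfl, hY t ht⟩⟩

end Vale.Agent.P113
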