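import Vale.Agent.P113.BumpPer
import Vale.Agent.P113.Chain

/-!
Time windows: the profile `S(r) = σ(2r - 1) / κ`, its derivative `β(r) = 2 ρ(2r - 1) / κ`, and the
values of the window bumps `ρ(2 N t - (2k + 1))` and of their periodizations.
-/

open Set Filter Topology

namespace Vale.Agent.P113

/-- The profile of the motion in one window. -/
noncomputable def winS (r : ℝ) : ℝ := sigma (2 * r - 1) / kappa

/-- The speed profile in one window. -/
noncomputable def winB (r : ℝ) : ℝ := 2 * rho (2 * r - 1) / kappa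

theorem hasDerivAt_winS (r : ℝ) : HasDerivAt winS (winB r) r := by
  have h1 : HasDerivAt (fun r : ℝ => 2 * r - 1) 2 r := by
    simpa using ((hasDerivAt_id r).const_mul 2).sub_const (1 : ℝ)
  have h2 := ((hasDerivAt_sigma (2 * r - 1)).comp r h1).div_const kappa
  refine HasDerivAt.congr_deriv h2 ?_
  unfold winB
  ring

theorem winS_of_nonpos (r : ℝ) (hr : r ≤ 0) : winS r = 0 := by
  rw [winS, sigma_of_le_neg_one (by linarith), zero_div]

theorem winS_of_one_le (r : ℝ) (hr : r ≥ 1) : winS r = 1 := by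
  rw [winS, sigma_of_one_le (by linarith), div_self kappa_ne_zero]

theorem winS_zero : winS 0 = 0 := winS_of_nonpos 0 le_rfl

theorem winS_mem (r : ℝ) : winS r ∈ Icc (0 : ℝ) 1 := sigma_div_kappa_mem _

/-- The bump of the window number `k` acts only while `⌊N t⌋ = k`. -/
theorem rho_window {N t : ℝ} (ht : 0 ≤ N * t) (k : ℕ) :
    rho (2 * N * t - (2 * k + 1)) =
      if ⌊N * t⌋₊ = k then rho (2 * (N * t - ⌊N * t⌋₊) - 1) else 0 := by
  have h1 := Nat.floor_le ht
  have h2 := Nat.lt_floor_add_one (N * t)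
  split_ifs with h
  · rw [h]
    congr 1
    ring
  · rcases lt_or_gt_of_ne h with h | h
    · have h3 : ((⌊N * t⌋₊ + 1 : ℕ) : ℝ) ≤ k := by exact_mod_cast h
      push_cast at h3
      exact rho_of_le_neg_one (by nlinarith)
    · have h3 : ((k + 1 : ℕ) : ℝ) ≤ ⌊N * t⌋₊ := by exact_mod_cast h
      push_cast at h3
      exact rho_of_one_le (by nlinarith)

/-- The periodized bump of the window number `k` acts only while `⌊N t⌋ ≡ k` modulo `N`. -/
theorem per_rho_window {N k : ℕ} (hk : k < N) {t : ℝ} (ht : 0 ≤ t) :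
    per (fun s => rho (2 * (N : ℝ) * s - (2 * k + 1))) t =
      if ⌊(N : ℝ) * t⌋₊ % N = k then rho (2 * (N * t - ⌊(N : ℝ) * t⌋₊) - 1) else 0 := by
  have hN : 0 < N := lt_of_le_of_lt (Nat.zero_le k) hk
  have hN' : (0 : ℝ) < N := by exact_mod_cast hN
  have hk' : (k : ℝ) + 1 ≤ N := by exact_mod_cast hk
  have hk0 : (0 : ℝ) ≤ k := Nat.cast_nonneg k
  have hNt : 0 ≤ (N : ℝ) * t := mul_nonneg hN'.le ht
  set m := ⌊(N : ℝ) * t⌋₊ with hm
  have h1 : (m : ℝ) ≤ N * t := Nat.floor_le hNt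
  have h2 : (N : ℝ) * t < m + 1 := Nat.lt_floor_add_one _
  have hdm : (m : ℝ) = N * (m / N : ℕ) + (m % N : ℕ) := by
    exact_mod_cast (Nat.div_add_mod m N).symm
  have hr : ((m % N : ℕ) : ℝ) + 1 ≤ N := by exact_mod_cast Nat.mod_lt m hN
  have hr0 : (0 : ℝ) ≤ (m % N : ℕ) := Nat.cast_nonneg _
  have e0 : 0 ≤ t - (m / N : ℕ) := by
    by_contra h
    push Not at h
    nlinarith
  have e1 : t - (m / N : ℕ) ≤ 1 := by
    by_contra h
    push Not at h
    nlinarith
  have hp := per_eq_sub_int (g := fun s => rho (2 * (N : ℝ) * s - (2 * k + 1))) (a := 0) (b := 1)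
    (y := t) (fun s hs => rho_of_le_neg_one (by nlinarith))
    (fun s hs => rho_of_one_le (by nlinarith)) ((m / N : ℕ) : ℤ)
    (by rw [Int.cast_natCast]; linarith) (by rw [Int.cast_natCast]; linarith)
  rw [hp]
  simp only [Int.cast_natCast]
  have hs : (N : ℝ) * (t - (m / N : ℕ)) = N * t - m + (m % N : ℕ) := by
    rw [mul_sub]
    linarith
  have hfl : ⌊(N : ℝ) * (t - (m / N : ℕ))⌋₊ = m % N := by
    rw [Nat.floor_eq_iff (mul_nonneg hN'.le e0), hs]
    constructor <;> linarith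
  rw [rho_window (mul_nonneg hN'.le e0), hfl, hs, add_sub_cancel_right]

end Vale.Agent.P113
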