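import Vale.Agent.P113.CPeriod
import Vale.Agent.P113.CSim
import Vale.Agent.P113.Chain
import Vale.Agent.P113.Window
import Vale.Agent.P113.Traj

/-! The trajectory enters the box if and only if the two-stack machine halts. -/

namespace Vale.Agent.P113

open Set

namespace MCode

variable {m : MCode} {w : List ℕ}

theorem W_one (k : ℕ) (y : Fin 3 → ℝ) : m.W w (5 * k + 1) y = ![0, 0, m.F1 (y 0) (y 1)] := by
  have h1 : (5 * k + 1) % 5 = 1 := by omega
  simp [W, h1]

theorem W_two (k : ℕ) (y : Fin 3 → ℝ) : m.W w (5 * k + 2) y = ![m.F2 (y 1) (y 2), 0, 0] := by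
  have h1 : (5 * k + 2) % 5 = 2 := by omega
  simp [W, h1]

theorem W_three (k : ℕ) (y : Fin 3 → ℝ) : m.W w (5 * k + 3) y = ![0, m.F3 (y 0) (y 2), 0] := by
  have h1 : (5 * k + 3) % 5 = 3 := by omega
  simp [W, h1]

theorem W_four (k : ℕ) (y : Fin 3 → ℝ) : m.W w (5 * k + 4) y = ![0, 0, m.F4 (y 0) (y 1)] := by
  have h1 : (5 * k + 4) % 5 = 4 := by omega
  simp [W, h1]

theorem W_five (k : ℕ) (y : Fin 3 → ℝ) : m.W w (5 * k + 5) y = 0 := by
  have h1 : (5 * k + 5) % 5 = 0 := by omega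
  simp [W, h1]

theorem pt_two (c : Cfg) : m.pt c 2 = 0 := by simp [pt]

theorem chain_one : Chain.pt (m.W w) 0 1 = m.pt (m.init w) := by
  simp [Chain.pt, W]

/-- One period, starting from the point of a non-halting configuration. -/
theorem chain_period (hm : m.WF) {c : Cfg} (hc : m.Good c) (hh : m.halt (c.1 / 3) = false)
    {k : ℕ} (hk : Chain.pt (m.W w) 0 (5 * k + 1) = m.pt c) :
    (∀ r < 5, Chain.pt (m.W w) 0 (5 * k + 1 + r) 2 ∈ Icc (0 : ℝ) (1 / 4)) ∧
      Chain.pt (m.W w) 0 (5 * (k + 1) + 1) = m.pt (m.step c) := by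
  obtain ⟨z, hz, h1, h2, h3, h4⟩ := MCode.period hm hc hh
  have e2 : Chain.pt (m.W w) 0 (5 * k + 2) = ![m.pt c 0, m.pt c 1, z] := by
    rw [Chain.pt, hk, W_one, h1]
    ext i; fin_cases i <;> simp [pt_two]
  have e3 : Chain.pt (m.W w) 0 (5 * k + 3) = ![m.pt (m.step c) 0, m.pt c 1, z] := by
    rw [Chain.pt, e2, W_two, ← h2]
    ext i; fin_cases i <;> simp
  have e4 : Chain.pt (m.W w) 0 (5 * k + 4) = ![m.pt (m.step c) 0, m.pt (m.step c) 1, z] := by
    rw [Chain.pt, e3, W_three, ← h3]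
    ext i; fin_cases i <;> simp
  have e5 : Chain.pt (m.W w) 0 (5 * k + 5) = m.pt (m.step c) := by
    rw [Chain.pt, e4, W_four]
    ext i; fin_cases i
    · simp
    · simp
    · simpa [pt_two] using h4
  have e6 : Chain.pt (m.W w) 0 (5 * k + 6) = m.pt (m.step c) := by
    rw [Chain.pt, e5, W_five, add_zero]
  refine ⟨fun r hr => ?_, e6⟩
  have h0 : (0 : ℝ) ∈ Icc (0 : ℝ) (1 / 4) := ⟨le_rfl, by norm_num⟩
  interval_cases r
  · rw [hk, pt_two]; exact h0
  · rw [e2]; simpa using hz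
  · rw [e3]; simpa using hz
  · rw [e4]; simpa using hz
  · rw [e5, pt_two]; exact h0

theorem good_iterate (hm : m.WF) (hw : ∀ a ∈ w, a < m.nA) (k : ℕ) :
    m.Good (m.step^[k] (m.init w)) := by
  induction k with
  | zero => exact hm.good_init hw
  | succ k ih => rw [Function.iterate_succ_apply']; exact hm.good_step ih

theorem chain_orbit (hm : m.WF) (hw : ∀ a ∈ w, a < m.nA) (k : ℕ)
    (hk : ∀ j < k, m.halt ((m.step^[j] (m.init w)).1 / 3) = false) :
    Chain.pt (m.W w) 0 (5 * k + 1) = m.pt (m.step^[k] (m.init w)) := by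
  induction k with
  | zero => exact chain_one
  | succ k ih =>
    rw [Function.iterate_succ_apply']
    exact (chain_period hm (good_iterate hm hw k) (hk k k.lt_succ_self)
      (ih fun j hj => hk j (hj.trans k.lt_succ_self))).2

end MCode

theorem not_mem_boxImage {y : Fin 3 → ℝ} (hy : y 2 ∈ Icc (0 : ℝ) (1 / 4)) :
    proj y ∉ boxImage boxLo boxHi := by
  rintro ⟨x, hx, hxy⟩
  have h2 : ((3 / 8 : ℚ) : ℝ) < x 2 ∧ x 2 < ((7 / 8 : ℚ) : ℝ) := hx 2
  have e : ((x 2 : ℝ) : UnitAddCircle) = ((y 2 : ℝ) : UnitAddCircle) := congrFun hxy 2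
  norm_num at h2
  have := (AddCircle.coe_eq_coe_iff_of_mem_Ico (p := (1 : ℝ)) (a := 0)
    ⟨by linarith [h2.1], by linarith [h2.2]⟩ ⟨hy.1, by linarith [hy.2]⟩).1 e
  linarith [h2.1, hy.2]

theorem MCode.detect {m : MCode} (hm : m.WF) {w : List ℕ} (hw : ∀ a ∈ w, a < m.nA) :
    (∃ t ≥ (0 : ℝ), proj (Chain.path 5 winS (m.W w) 0 t) ∈ boxImage boxLo boxHi) ↔
      ∃ n, m.halt ((m.step^[n] (m.init w)).1 / 3) = true := by
  constructor
  · rintro ⟨t, -, ht⟩
    by_contra hn
    have hall : ∀ j, m.halt ((m.step^[j] (m.init w)).1 / 3) = false := fun j => by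
      simpa using fun h => hn ⟨j, h⟩
    refine not_mem_boxImage ?_ ht
    have hC : Convex ℝ {y : Fin 3 → ℝ | y 2 ∈ Icc (0 : ℝ) (1 / 4)} :=
      (convex_Icc (0 : ℝ) (1 / 4)).is_linear_preimage (LinearMap.proj (2 : Fin 3)).isLinear
    refine Chain.path_mem_convex winS_mem hC (fun n => ?_) t
    rcases Nat.eq_zero_or_pos n with rfl | hn0
    · simp [Chain.pt]
    · have e : n = 5 * ((n - 1) / 5) + 1 + (n - 1) % 5 := by omega
      rw [e]
      exact (MCode.chain_period hm (MCode.good_iterate hm hw _) (hall _)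
        (MCode.chain_orbit hm hw _ fun j _ => hall j)).1 _ (Nat.mod_lt _ (by norm_num))
  · intro h
    classical
    let k := Nat.find h
    have hk : m.halt ((m.step^[k] (m.init w)).1 / 3) = true := Nat.find_spec h
    have hlt : ∀ j < k, m.halt ((m.step^[j] (m.init w)).1 / 3) = false := fun j hj => by
      simpa using Nat.find_min h hj
    have hg := MCode.good_iterate hm hw k
    have e1 := MCode.chain_orbit hm hw k hlt
    refine ⟨((5 * k + 2 : ℕ) : ℝ) / 5, by positivity, ?_⟩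
    rw [Chain.path_nat (by norm_num) winS_zero, Chain.pt, e1, MCode.W_one]
    refine ⟨_, fun i => ?_, rfl⟩
    have hz := MCode.F1_halt hg hk
    have hp := MCode.pt_mem hg
    fin_cases i
    · simp only [boxLo, boxHi]
      norm_num
      constructor <;> linarith [hp.1.1, hp.1.2]
    · simp only [boxLo, boxHi]
      norm_num
      constructor <;> linarith [hp.2.1, hp.2.2]
    · have h0 : m.pt (m.step^[k] (m.init w)) ⟨2, by norm_num⟩ = 0 := MCode.pt_two _
      simp only [boxLo, boxHi]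
      norm_num
      constructor <;> linarith [hz.1, hz.2]

end Vale.Agent.P113
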