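import Vale.Agent.P113.Constr

/-! T2 Digit: analytic digit lemmas -/

namespace Vale.Agent.P113

open Set

theorem bmp_eval (k A c : ℕ) (s : ℝ) :
    (bmp k A c).eval s = s ^ k * plateau 3 (4 * (A * s - c) + 1) := by
  unfold bmp
  rw [Bump.eval_inr]
  push_cast
  congr 2
  ring

/-- The plateau `π_3 (4 (ε + j) + 1)` vanishes for `ε ∈ [0, 1/4]` and a nonzero integer `j`. -/
theorem plateau_int_ne {e : ℝ} (h0 : 0 ≤ e) (h1 : e ≤ 1 / 4) {j : ℤ} (hj : j ≠ 0) :
    plateau 3 (4 * (e + j) + 1) = 0 := by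
  rcases lt_or_gt_of_ne hj with hj | hj
  · have : (j : ℝ) ≤ -1 := by exact_mod_cast (show j ≤ -1 by omega)
    exact plateau_of_le_neg_one (by norm_num) (by linarith)
  · have : (1 : ℝ) ≤ j := by exact_mod_cast (show 1 ≤ j by omega)
    exact plateau_of_le (by norm_num) (by linarith)

theorem chi_of_dig {A n c : ℕ} {s : ℝ} (h : Dig A n s) (hc : c < A) (k : ℕ) :
    chi k A c s = if n = c then s ^ k else 0 := by
  obtain ⟨hn, h0, h1⟩ := h
  have key : ∀ m : ℤ, (bmp k A c).eval (s + m) =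
      (s + m) ^ k * plateau 3 (4 * ((A * s - n) + (((n : ℤ) + A * m - c : ℤ) : ℝ)) + 1) := by
    intro m
    rw [bmp_eval]
    congr 2
    push_cast
    ring
  have hne : ∀ m : ℤ, m ≠ 0 → (n : ℤ) + A * m - c ≠ 0 := by
    intro m hm h
    have hn' : (n : ℤ) < A := by exact_mod_cast hn
    have hc' : (c : ℤ) < A := by exact_mod_cast hc
    have hn0 : (0 : ℤ) ≤ n := Int.natCast_nonneg n
    have hc0 : (0 : ℤ) ≤ c := Int.natCast_nonneg c
    rcases lt_or_gt_of_ne hm with hm | hm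
    · nlinarith
    · nlinarith
  unfold chi per
  rw [tsum_eq_single 0 (fun m hm => by rw [key m, plateau_int_ne h0 h1 (hne m hm), mul_zero]),
    key 0]
  split_ifs with hnc
  · subst hnc
    simp only [Int.cast_zero, add_zero, mul_zero, sub_self]
    rw [plateau_eq_kappa (by linarith) (by linarith), mul_div_assoc, div_self kappa_ne_zero,
      mul_one]
  · rw [plateau_int_ne h0 h1 (by omega), mul_zero, zero_div]

theorem Patch.fn_of_match (P : Patch) {p r : ℝ} (h1 : Dig P.1.1 P.1.2.1 p)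
    (h2 : Dig P.1.2.2.1 P.1.2.2.2 r) :
    P.fn p r = P.2.1 + P.2.2.1 * (P.1.1 * p - P.1.2.1) + P.2.2.2 * (P.1.2.2.1 * r - P.1.2.2.2) := by
  unfold Patch.fn Patch.c0 Patch.c1 Patch.c2
  simp only [chi_of_dig h1 h1.1, chi_of_dig h2 h2.1, if_true]
  push_cast
  ring

theorem Patch.fn_of_left (P : Patch) {p : ℝ} {n : ℕ} (h1 : Dig P.1.1 n p) (hc : P.1.2.1 < P.1.1)
    (hn : n ≠ P.1.2.1) (r : ℝ) : P.fn p r = 0 := by
  unfold Patch.fn
  simp only [chi_of_dig h1 hc, if_neg hn]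
  ring

theorem Patch.fn_of_right (P : Patch) {r : ℝ} {n : ℕ} (h2 : Dig P.1.2.2.1 n r)
    (hc : P.1.2.2.2 < P.1.2.2.1) (hn : n ≠ P.1.2.2.2) (p : ℝ) : P.fn p r = 0 := by
  unfold Patch.fn
  simp only [chi_of_dig h2 hc, if_neg hn]
  ring

end Vale.Agent.P113
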