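import Vale.Agent.P113.Traj

/-!
Fields whose lift to `ℝ × ℝ³` is smooth: closure properties, and the global smooth solution with
zero pressure determined by a smooth divergence-free field vanishing at time `0`.
-/

open MeasureTheory Set Filter Topology

namespace Vale.Agent.P113

/-- The lift of `F` to `ℝ × ℝ³` is smooth. -/
def Sm (F : ℝ → T3 → ℝ) : Prop :=
  ContDiff ℝ (⊤ : ℕ∞) (fun z : ℝ × (Fin 3 → ℝ) => F z.1 (proj z.2))

theorem isOpenQuotientMap_proj : IsOpenQuotientMap proj :=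
  IsOpenQuotientMap.piMap (f := fun (_ : Fin 3) (r : ℝ) => (r : UnitAddCircle))
    fun _ => QuotientAddGroup.isOpenQuotientMap_mk

theorem continuous_of_lift {F : ℝ → T3 → ℝ}
    (h : Continuous (fun z : ℝ × (Fin 3 → ℝ) => F z.1 (proj z.2))) :
    Continuous (fun z : ℝ × T3 => F z.1 z.2) :=
  ((IsOpenQuotientMap.id (X := ℝ)).prodMap isOpenQuotientMap_proj).continuous_comp_iff.1 h

theorem Sm.smoothOn0 {F : ℝ → T3 → ℝ} (h : Sm F) : SmoothOn0 F := ContDiff.contDiffOn h

theorem Sm.continuous {F : ℝ → T3 → ℝ} (h : Sm F) : Continuous (fun z : ℝ × T3 => F z.1 z.2) :=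
  continuous_of_lift (ContDiff.continuous h)

theorem Sm.contOn {F : ℝ → T3 → ℝ} (h : Sm F) (T : ℝ) : ContOn T F :=
  h.continuous.continuousOn

theorem Sm.differentiable {F : ℝ → T3 → ℝ} (h : Sm F) :
    Differentiable ℝ (fun z : ℝ × (Fin 3 → ℝ) => F z.1 (proj z.2)) :=
  ContDiff.differentiable h (by simp)

theorem Sm.hasDerivAt_along {F : ℝ → T3 → ℝ} (h : Sm F) (j : Fin 3) (t : ℝ) (x : Fin 3 → ℝ) :
    HasDerivAt (along j (F t) (proj x))
      (fderiv ℝ (fun z : ℝ × (Fin 3 → ℝ) => F z.1 (proj z.2)) (t, x) (0, Pi.single j 1)) 0 := by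
  have h1 := (h.differentiable (t, x)).hasFDerivAt.hasLineDerivAt (0, Pi.single j 1)
  unfold HasLineDerivAt at h1
  simp only [Prod.smul_mk, smul_zero, Prod.mk_add_mk, add_zero, proj_add_smul_single] at h1
  exact h1

theorem Sm.hasPd {F : ℝ → T3 → ℝ} (h : Sm F) (j : Fin 3) (t : ℝ) : HasPd j (F t) := by
  intro x
  obtain ⟨x, rfl⟩ := proj_surjective x
  exact (h.hasDerivAt_along j t x).differentiableAt

theorem Sm.pd_eq {F : ℝ → T3 → ℝ} (h : Sm F) (j : Fin 3) (t : ℝ) (x : Fin 3 → ℝ) :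
    pd j (F t) (proj x) =
      fderiv ℝ (fun z : ℝ × (Fin 3 → ℝ) => F z.1 (proj z.2)) (t, x) (0, Pi.single j 1) :=
  (h.hasDerivAt_along j t x).deriv

theorem Sm.pd {F : ℝ → T3 → ℝ} (h : Sm F) (j : Fin 3) : Sm fun t => pd j (F t) := by
  unfold Sm
  simp only [h.pd_eq]
  exact (ContDiff.fderiv_right (m := (⊤ : ℕ∞)) h (by simp)).clm_apply contDiff_const

theorem Sm.hasDerivAt_time' {F : ℝ → T3 → ℝ} (h : Sm F) (t : ℝ) (x : Fin 3 → ℝ) :
    HasDerivAt (fun s => F s (proj x))
      (fderiv ℝ (fun z : ℝ × (Fin 3 → ℝ) => F z.1 (proj z.2)) (t, x) (1, 0)) t := by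
  have h1 := (h.differentiable (t, x)).hasFDerivAt
  have h2 : HasDerivAt (fun s : ℝ => ((s, x) : ℝ × (Fin 3 → ℝ))) (1, 0) t :=
    (hasDerivAt_id t).prodMk (hasDerivAt_const t x)
  exact h1.comp_hasDerivAt t h2

theorem Sm.differentiable_time {F : ℝ → T3 → ℝ} (h : Sm F) (x : T3) :
    Differentiable ℝ (fun s => F s x) := by
  intro t
  obtain ⟨x, rfl⟩ := proj_surjective x
  exact (h.hasDerivAt_time' t x).differentiableAt

theorem Sm.deriv_time {F : ℝ → T3 → ℝ} (h : Sm F) :
    Sm fun t x => deriv (fun s => F s x) t := by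
  unfold Sm
  simp only [fun t x => (h.hasDerivAt_time' t x).deriv]
  exact (ContDiff.fderiv_right (m := (⊤ : ℕ∞)) h (by simp)).clm_apply contDiff_const

theorem Sm.dt_eq {F : ℝ → T3 → ℝ} (h : Sm F) {T t : ℝ} (hT : 0 < T) (ht : t ∈ Icc 0 T)
    (x : T3) : dt T F t x = deriv (fun s => F s x) t :=
  (h.differentiable_time x t).derivWithin (uniqueDiffOn_Icc hT t ht)

theorem Sm.const (c : ℝ) : Sm fun _ _ => c := contDiff_const

theorem Sm.add {F G : ℝ → T3 → ℝ} (hF : Sm F) (hG : Sm G) : Sm fun t x => F t x + G t x :=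
  ContDiff.add hF hG

theorem Sm.sub {F G : ℝ → T3 → ℝ} (hF : Sm F) (hG : Sm G) : Sm fun t x => F t x - G t x :=
  ContDiff.sub hF hG

theorem Sm.mul {F G : ℝ → T3 → ℝ} (hF : Sm F) (hG : Sm G) : Sm fun t x => F t x * G t x :=
  ContDiff.mul hF hG

theorem Sm.list_sum {α : Type*} (l : List α) {F : α → ℝ → T3 → ℝ} (h : ∀ a ∈ l, Sm (F a)) :
    Sm fun t x => (l.map fun a => F a t x).sum := by
  induction l with
  | nil => simpa using Sm.const 0
  | cons a l ih =>
    simp only [List.map_cons, List.sum_cons]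
    exact (h a (by simp)).add (ih fun b hb => h b (by simp [hb]))

theorem Sm.list_prod {α : Type*} (l : List α) {F : α → ℝ → T3 → ℝ} (h : ∀ a ∈ l, Sm (F a)) :
    Sm fun t x => (l.map fun a => F a t x).prod := by
  induction l with
  | nil => simpa using Sm.const 1
  | cons a l ih =>
    simp only [List.map_cons, List.prod_cons]
    exact (h a (by simp)).mul (ih fun b hb => h b (by simp [hb]))

theorem Sm.finset_sum {α : Type*} (s : Finset α) {F : α → ℝ → T3 → ℝ}
    (h : ∀ a ∈ s, Sm (F a)) : Sm fun t x => ∑ a ∈ s, F a t x :=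
  ContDiff.sum h

theorem Sm.finset_prod {α : Type*} (s : Finset α) {F : α → ℝ → T3 → ℝ}
    (h : ∀ a ∈ s, Sm (F a)) : Sm fun t x => ∏ a ∈ s, F a t x :=
  contDiff_prod h

/-- A smooth function of time alone. -/
theorem Sm.time {g : ℝ → ℝ} (hg : ContDiff ℝ (⊤ : ℕ∞) g) : Sm fun t _ => g t :=
  hg.comp contDiff_fst

/-- A function of one space coordinate whose lift is smooth. -/
theorem Sm.coord {g : UnitAddCircle → ℝ} (i : Fin 3)
    (hg : ContDiff ℝ (⊤ : ℕ∞) fun r : ℝ => g (r : UnitAddCircle)) : Sm fun _ x => g (x i) :=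
  hg.comp ((contDiff_apply ℝ ℝ i).comp contDiff_snd)

theorem pd_const (j : Fin 3) (c : ℝ) : pd j (fun _ => c) = fun _ => 0 := by
  funext x
  exact deriv_const 0 c

/-- A function that does not depend on the coordinate `j` has zero partial derivative. -/
theorem pd_eq_zero_of_indep {j : Fin 3} {F : T3 → ℝ}
    (h : ∀ x (s : UnitAddCircle), F (x + Pi.single j s) = F x) (x : T3) : pd j F x = 0 := by
  have : along j F x = fun _ => F x := funext fun s => h x s
  rw [pd, this]
  exact deriv_const 0 _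

/-- A smooth divergence-free field vanishing at time `0` is the global smooth solution, with zero
pressure, for the force it determines. -/
theorem isGlobalSmooth_of_sm {ν : ℝ} {f u : Fin 3 → ℝ → T3 → ℝ} (hu : ∀ i, Sm (u i))
    (h0 : ∀ i x, u i 0 x = 0) (hdiv : ∀ t ≥ (0 : ℝ), ∀ x, ∑ i, pd i (u i t) x = 0)
    (hf : ∀ i, ∀ t ≥ (0 : ℝ), ∀ x, f i t x = deriv (fun s => u i s x) t +
      ∑ j, u j t x * pd j (u i t) x - ν * ∑ j, pd j (pd j (u i t)) x) :
    IsGlobalSmooth ν f u (fun _ _ => 0) where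
  smooth_u := fun i => (hu i).smoothOn0
  smooth_p := (Sm.const 0).smoothOn0
  classical := fun T hT =>
    { has_dt := fun i x => ((hu i).differentiable_time x).differentiableOn
      has_pd := fun i j t _ => (hu i).hasPd j t
      has_pd_pd := fun i j k t _ => ((hu i).pd j).hasPd k t
      has_pd_p := fun j t _ => (Sm.const 0).hasPd j t
      cont_u := fun i => (hu i).contOn T
      cont_dt := fun i => ((hu i).deriv_time.contOn T).congr
        (fun z hz => (hu i).dt_eq hT hz.1 z.2)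
      cont_pd := fun i j => ((hu i).pd j).contOn T
      cont_pd_pd := fun i j k => (((hu i).pd j).pd k).contOn T
      cont_p := (Sm.const 0).contOn T
      cont_pd_p := fun j => ((Sm.const 0).pd j).contOn T
      mean_p := fun t _ => integral_zero _ _
      momentum := fun i t ht x => by
        rw [(hu i).dt_eq hT ht, hf i t ht.1 x, pd_const]
        ring
      div_free := fun t ht x => hdiv t ht.1 x
      init := h0 }

/-- Everything the problem asks of the solution, from a smooth divergence-free field and a lifted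
trajectory. -/
theorem solution_package {ν : ℝ} (hν : 0 ≤ ν) {f u : Fin 3 → ℝ → T3 → ℝ} (hu : ∀ i, Sm (u i))
    (h0 : ∀ i x, u i 0 x = 0) (hdiv : ∀ t ≥ (0 : ℝ), ∀ x, ∑ i, pd i (u i t) x = 0)
    (hf : ∀ i, ∀ t ≥ (0 : ℝ), ∀ x, f i t x = deriv (fun s => u i s x) t +
      ∑ j, u j t x * pd j (u i t) x - ν * ∑ j, pd j (pd j (u i t)) x)
    {Y : ℝ → Fin 3 → ℝ}
    (hY : ∀ t ≥ (0 : ℝ), HasDerivWithinAt Y (fun i => u i t (proj (Y t))) (Ici 0) t) :
    IsGlobalSmooth ν f u (fun _ _ => 0) ∧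
      (∀ T > 0, ∀ v q, IsClassical ν f T v q →
        ∀ t ∈ Icc 0 T, (∀ i, v i t = u i t) ∧ q t = fun _ => 0) ∧
      IsTrajectory u (proj (Y 0)) (fun t => proj (Y t)) ∧
      ∀ X', IsTrajectory u (proj (Y 0)) X' → ∀ t ≥ (0 : ℝ), X' t = proj (Y t) := by
  have hg := isGlobalSmooth_of_sm hu h0 hdiv hf
  exact ⟨hg, fun T hT v q hv => (hg.classical T hT).unique hν hT hv, isTrajectory_of_lift hY,
    fun X' hX' => (isTrajectory_of_lift hY).unique hg.smooth_u hX'⟩

end Vale.Agent.P113
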