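import Vale.Agent.P113.TermDefs
import Vale.Agent.P113.Smooth

/-!
# P113: smoothness of terms and correctness of their symbolic derivatives
-/

namespace Vale.Agent.P113

open Set

theorem Term.eval_def (ν : ℝ) (τ : Term) (t : ℝ) (x : T3) :
    τ.eval ν t x = τ.1.1 * ν ^ τ.1.2.1 * kappa ^ τ.1.2.2.1
      * (τ.1.2.2.2.map fun a : ℚ => Real.log a).prod
      * ((τ.2.1.1.map fun g => g.eval t).prod * (τ.2.1.2.map fun g => per g.eval t).prod)
      * ∏ i, ((τ.2.2 i).map fun g => perC g.eval (x i)).prod := rfl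

theorem Term.valid_def (τ : Term) : τ.Valid ↔ (∀ a ∈ τ.1.2.2.2, 0 < a) ∧
    (∀ g ∈ τ.2.1.1, g.Valid) ∧ (∀ g ∈ τ.2.1.2, g.Valid) ∧ ∀ i, ∀ g ∈ τ.2.2 i, g.Valid := Iff.rfl

theorem Term.periodic_def (τ : Term) : τ.periodic = τ.2.1.1.isEmpty := rfl

@[simp] theorem evalL_nil (ν t : ℝ) (x : T3) : evalL ν [] t x = 0 := rfl

@[simp] theorem evalL_cons (ν : ℝ) (τ : Term) (l : List Term) (t : ℝ) (x : T3) :
    evalL ν (τ :: l) t x = τ.eval ν t x + evalL ν l t x := by
  simp [evalL]

@[simp] theorem evalL_append (ν : ℝ) (l l' : List Term) (t : ℝ) (x : T3) :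
    evalL ν (l ++ l') t x = evalL ν l t x + evalL ν l' t x := by
  simp [evalL]

theorem evalL_flatMap {α : Type*} (ν : ℝ) (l : List α) (F : α → List Term) (t : ℝ) (x : T3) :
    evalL ν (l.flatMap F) t x = (l.map fun a => evalL ν (F a) t x).sum := by
  induction l with
  | nil => simp
  | cons a l ih => simp [ih]

theorem evalL_map {α : Type*} (ν : ℝ) (l : List α) (F : α → Term) (t : ℝ) (x : T3) :
    evalL ν (l.map F) t x = (l.map fun a => (F a).eval ν t x).sum := by
  simp [evalL, Function.comp_def]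

theorem force_eq_evalL (ν : ℝ) (C : Code → Fin 3 → List Term) (M : Machine)
    (w : List (Fin M.nA)) (i : Fin 3) : force ν C M w i = evalL ν (C (M.code w) i) := rfl

/-! ### Smoothness -/

theorem Bump.Valid.contDiff_perC {g : Bump} (hg : g.Valid) :
    ContDiff ℝ (⊤ : ℕ∞) fun r : ℝ => perC g.eval (r : UnitAddCircle) := by
  simp only [perC_coe]
  exact hg.contDiff_per

theorem Term.Valid.sm {τ : Term} (hτ : τ.Valid) (ν : ℝ) : Sm (τ.eval ν) := by
  obtain ⟨-, -, h1, h2⟩ := (Term.valid_def τ).1 hτ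
  have : τ.eval ν = fun t x => _ := funext fun t => funext fun x => τ.eval_def ν t x
  rw [this]
  refine ((Sm.const _).mul (Sm.mul ?_ ?_)).mul ?_
  · exact Sm.list_prod _ (F := fun g t _ => Bump.eval g t) fun g _ => Sm.time g.contDiff
  · exact Sm.list_prod _ (F := fun g t _ => per (Bump.eval g) t) fun g hg =>
      Sm.time (h1 g hg).contDiff_per
  · refine Sm.finset_prod _ (F := fun i _ x => ((τ.2.2 i).map fun g => perC g.eval (x i)).prod)
      fun i _ => ?_
    exact Sm.list_prod _ (F := fun g _ x => perC (Bump.eval g) (x i)) fun g hg =>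
      Sm.coord i (h2 i g hg).contDiff_perC

theorem sm_evalL {l : List Term} (hl : ∀ τ ∈ l, τ.Valid) (ν : ℝ) : Sm (evalL ν l) :=
  Sm.list_sum l (F := fun τ => τ.eval ν) fun τ hτ => (hl τ hτ).sm ν

/-! ### Scaling -/

theorem Term.eval_scale (ν : ℝ) (c : ℚ) (k : ℕ) (τ : Term) (t : ℝ) (x : T3) :
    (τ.scale c k).eval ν t x = c * ν ^ k * τ.eval ν t x := by
  simp only [Term.eval_def, Term.scale, Rat.cast_mul]
  ring

theorem evalL_map_scale (ν : ℝ) (c : ℚ) (k : ℕ) (l : List Term) (t : ℝ) (x : T3) :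
    evalL ν (l.map (Term.scale c k)) t x = c * ν ^ k * evalL ν l t x := by
  induction l with
  | nil => simp
  | cons τ l ih => simp only [List.map_cons, evalL_cons, ih, Term.eval_scale, mul_add]

/-! ### Time derivative -/

theorem Term.Valid.hasDerivAt_time {τ : Term} (hτ : τ.Valid) (ν t : ℝ) (x : T3) :
    HasDerivAt (fun s => τ.eval ν s x) (evalL ν τ.dt t x) t := by
  obtain ⟨-, -, h1, -⟩ := (Term.valid_def τ).1 hτ
  have d0 := hasDerivAt_list_prod (ev := Bump.eval) (s := t) τ.2.1.1 fun g _ => g.hasDerivAt t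
  have d1 := hasDerivAt_list_prod (ev := fun g => per g.eval) (s := t) τ.2.1.2
    fun g hg => (h1 g hg).hasDerivAt_per t
  simp only [Term.eval_def]
  refine HasDerivAt.congr_deriv (((d0.fun_mul d1).const_mul _).mul_const _) ?_
  simp only [Term.dt, evalL_append, evalL_map, Term.eval_def, Rat.cast_mul]
  rw [mul_add, add_mul]
  congr 1
  · rw [← List.sum_map_mul_right, ← List.sum_map_mul_left, ← List.sum_map_mul_right]
    congr 1
    exact List.map_congr_left fun p _ => by ring
  · rw [← List.sum_map_mul_left, ← List.sum_map_mul_left, ← List.sum_map_mul_right]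
    congr 1
    exact List.map_congr_left fun p _ => by ring

theorem hasDerivAt_evalL_time {l : List Term} (hl : ∀ τ ∈ l, τ.Valid) (ν t : ℝ) (x : T3) :
    HasDerivAt (fun s => evalL ν l s x) (evalL ν (l.flatMap Term.dt) t x) t := by
  induction l with
  | nil => simpa using hasDerivAt_const t (0 : ℝ)
  | cons τ l ih =>
    simp only [evalL_cons, List.flatMap_cons, evalL_append]
    exact ((hl τ (by simp)).hasDerivAt_time ν t x).add (ih fun τ' h => hl τ' (by simp [h]))

/-! ### Space derivatives -/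

theorem prod_update_eq (h : Fin 3 → List Bump) (i : Fin 3) (l : List Bump) (x : T3) :
    ∏ j, ((Function.update h i l j).map fun g => perC g.eval (x j)).prod
      = (l.map fun g => perC g.eval (x i)).prod
        * ∏ j ∈ Finset.univ.erase i, ((h j).map fun g => perC g.eval (x j)).prod := by
  rw [← Finset.mul_prod_erase Finset.univ _ (Finset.mem_univ i), Function.update_self]
  congr 1
  exact Finset.prod_congr rfl fun j hj => by
    rw [Function.update_of_ne (Finset.ne_of_mem_erase hj)]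

theorem Term.Valid.hasDerivAt_along {τ : Term} (hτ : τ.Valid) (ν : ℝ) (i : Fin 3) (t : ℝ)
    (x : T3) : HasDerivAt (along i (τ.eval ν t) x) (evalL ν (τ.dx i) t x) 0 := by
  obtain ⟨-, -, -, h2⟩ := (Term.valid_def τ).1 hτ
  obtain ⟨y, hy⟩ := QuotientAddGroup.mk_surjective (x i)
  have hy' : x i = ((y : ℝ) : UnitAddCircle) := hy.symm
  have d := hasDerivAt_list_prod (ev := fun g => per g.eval) (s := y + 0) (τ.2.2 i)
    fun g hg => (h2 i g hg).hasDerivAt_per (y + 0)
  have d' := d.comp_const_add y 0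
  have e : along i (τ.eval ν t) x = fun s => τ.1.1 * ν ^ τ.1.2.1 * kappa ^ τ.1.2.2.1
      * (τ.1.2.2.2.map fun a : ℚ => Real.log a).prod
      * ((τ.2.1.1.map fun g => g.eval t).prod * (τ.2.1.2.map fun g => per g.eval t).prod)
      * (((τ.2.2 i).map fun g => per g.eval (y + s)).prod
        * ∏ j ∈ Finset.univ.erase i, ((τ.2.2 j).map fun g => perC g.eval (x j)).prod) := by
    funext s
    rw [along, Term.eval_def, ← Finset.mul_prod_erase Finset.univ _ (Finset.mem_univ i)]
    congr 2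
    · simp only [Pi.add_apply, Pi.single_eq_same, hy', ← AddCircle.coe_add, perC_coe]
    · exact Finset.prod_congr rfl fun j hj => by
        rw [Pi.add_apply, Pi.single_eq_of_ne (Finset.ne_of_mem_erase hj), add_zero]
  rw [e]
  refine HasDerivAt.congr_deriv ((d'.mul_const _).const_mul _) ?_
  simp only [Term.dx, evalL_map, Term.eval_def, Rat.cast_mul, prod_update_eq, hy', perC_coe,
    add_zero]
  rw [← List.sum_map_mul_right, ← List.sum_map_mul_left]
  congr 1
  exact List.map_congr_left fun p _ => by ring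

theorem hasDerivAt_along_evalL {l : List Term} (hl : ∀ τ ∈ l, τ.Valid) (ν : ℝ) (i : Fin 3)
    (t : ℝ) (x : T3) :
    HasDerivAt (along i (evalL ν l t) x) (evalL ν (l.flatMap (Term.dx i)) t x) 0 := by
  induction l with
  | nil => exact hasDerivAt_const (0 : ℝ) (0 : ℝ)
  | cons τ l ih =>
    have e : along i (evalL ν (τ :: l) t) x
        = fun s => along i (τ.eval ν t) x s + along i (evalL ν l t) x s := by
      funext s
      simp [along]
    rw [e, List.flatMap_cons, evalL_append]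
    exact ((hl τ (by simp)).hasDerivAt_along ν i t x).add (ih fun τ' h => hl τ' (by simp [h]))

theorem pd_evalL {l : List Term} (hl : ∀ τ ∈ l, τ.Valid) (ν : ℝ) (i : Fin 3) (t : ℝ) :
    pd i (evalL ν l t) = evalL ν (l.flatMap (Term.dx i)) t :=
  funext fun x => (hasDerivAt_along_evalL hl ν i t x).deriv

/-- If no term of the list has a factor in the variable `x_i`, then `∂_i` of the sum vanishes. -/
theorem pd_evalL_eq_zero {l : List Term} (hl : ∀ τ ∈ l, τ.Valid) {i : Fin 3}
    (hi : ∀ τ ∈ l, τ.2.2 i = []) (ν t : ℝ) (x : T3) : pd i (evalL ν l t) x = 0 := by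
  rw [pd_evalL hl, List.flatMap_eq_nil_iff.2 fun τ hτ => by simp [Term.dx, hi τ hτ]]
  rfl

/-! ### Validity is preserved -/

theorem Term.Valid.scale {τ : Term} (hτ : τ.Valid) (c : ℚ) (k : ℕ) : (τ.scale c k).Valid := hτ

theorem Term.Valid.dx {τ : Term} (hτ : τ.Valid) (i : Fin 3) : ∀ τ' ∈ τ.dx i, τ'.Valid := by
  obtain ⟨h0, h1, h2, h3⟩ := (Term.valid_def τ).1 hτ
  intro τ' h
  obtain ⟨p, hp, rfl⟩ := List.mem_map.1 h
  refine (Term.valid_def _).2 ⟨h0, h1, h2, fun j => ?_⟩
  by_cases hj : j = i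
  · subst hj
    simpa using valid_dList (h3 j) p hp
  · simpa [Function.update_of_ne hj] using h3 j

theorem Term.Valid.dt {τ : Term} (hτ : τ.Valid) : ∀ τ' ∈ τ.dt, τ'.Valid := by
  obtain ⟨h0, h1, h2, h3⟩ := (Term.valid_def τ).1 hτ
  intro τ' h
  rcases List.mem_append.1 h with h | h
  · obtain ⟨p, hp, rfl⟩ := List.mem_map.1 h
    exact (Term.valid_def _).2 ⟨h0, valid_dList h1 p hp, h2, h3⟩
  · obtain ⟨p, hp, rfl⟩ := List.mem_map.1 h
    exact (Term.valid_def _).2 ⟨h0, h1, valid_dList h2 p hp, h3⟩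

theorem valid_flatMap_dx {l : List Term} (hl : ∀ τ ∈ l, τ.Valid) (i : Fin 3) :
    ∀ τ ∈ l.flatMap (Term.dx i), τ.Valid := by
  intro τ h
  obtain ⟨τ', h1, h2⟩ := List.mem_flatMap.1 h
  exact (hl τ' h1).dx i τ h2

theorem Term.Valid.lap {τ : Term} (hτ : τ.Valid) : ∀ τ' ∈ τ.lap, τ'.Valid := by
  intro τ' h
  simp only [Term.lap, List.mem_append] at h
  rcases h with (h | h) | h <;> exact valid_flatMap_dx (hτ.dx _) _ τ' h

theorem Term.Valid.ns {τ : Term} (hτ : τ.Valid) : ∀ τ' ∈ τ.ns, τ'.Valid := by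
  intro τ' h
  rcases List.mem_append.1 h with h | h
  · exact hτ.dt τ' h
  · obtain ⟨τ'', h', rfl⟩ := List.mem_map.1 h
    exact (hτ.lap τ'' h').scale _ _

theorem valid_flatMap_ns {l : List Term} (hl : ∀ τ ∈ l, τ.Valid) :
    ∀ τ ∈ l.flatMap Term.ns, τ.Valid := by
  intro τ h
  obtain ⟨τ', h1, h2⟩ := List.mem_flatMap.1 h
  exact (hl τ' h1).ns τ h2

/-! ### The heat operator -/

theorem evalL_flatMap_lap {l : List Term} (hl : ∀ τ ∈ l, τ.Valid) (ν t : ℝ) (x : T3) :
    evalL ν (l.flatMap Term.lap) t x = ∑ j, pd j (pd j (evalL ν l t)) x := by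
  have h : ∀ j, pd j (pd j (evalL ν l t)) x
      = (l.map fun τ => evalL ν ((τ.dx j).flatMap (Term.dx j)) t x).sum := fun j => by
    rw [pd_evalL hl, pd_evalL (valid_flatMap_dx hl j), List.flatMap_assoc, evalL_flatMap]
  simp only [h, Fin.sum_univ_three, evalL_flatMap ν l, Term.lap, evalL_append, List.sum_map_add]

theorem evalL_flatMap_ns {l : List Term} (hl : ∀ τ ∈ l, τ.Valid) (ν t : ℝ) (x : T3) :
    evalL ν (l.flatMap Term.ns) t x
      = deriv (fun s => evalL ν l s x) t - ν * ∑ j, pd j (pd j (evalL ν l t)) x := by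
  rw [(hasDerivAt_evalL_time hl ν t x).deriv, ← evalL_flatMap_lap hl]
  simp only [evalL_flatMap ν l, Term.ns, evalL_append, List.sum_map_add, evalL_map_scale,
    List.sum_map_mul_left]
  push_cast
  ring

end Vale.Agent.P113
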