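import Vale.Agent.P113.Constr
import Vale.Agent.P113.Window
import Vale.Agent.P113.TermCalc

/-! T5 Field: the velocity terms evaluate to the time profile times the window shear. -/

namespace Vale.Agent.P113

open Set

/-- The time factor of window `j`. -/
noncomputable def tf (j : ℕ) (t : ℝ) : ℝ := 10 * per (tb j).eval t / kappa

theorem tb_eval (j : ℕ) : (tb j).eval = fun s => rho (2 * ((5 : ℕ) : ℝ) * s - (2 * j + 1)) := by
  funext s
  simp only [tb, Bump.eval, pow_zero, one_mul, iteratedDeriv_zero]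
  congr 1
  push_cast
  ring

theorem tf_eq {j : ℕ} (hj : j < 5) {t : ℝ} (ht : 0 ≤ t) :
    tf j t = if ⌊(5 : ℝ) * t⌋₊ % 5 = j then 5 * winB (5 * t - ⌊(5 : ℝ) * t⌋₊) else 0 := by
  rw [tf, tb_eval, per_rho_window hj ht]
  simp only [Nat.cast_ofNat]
  split_ifs
  · rw [winB]
    ring
  · simp

theorem inTerm_eval (ν : ℝ) (q : ℚ) {t : ℝ} (ht : 0 ≤ t) (x : T3) :
    (inTerm q).eval ν t x =
      (if ⌊(5 : ℝ) * t⌋₊ = 0 then 5 * winB (5 * t - ⌊(5 : ℝ) * t⌋₊) else 0) * q := by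
  have h := rho_window (N := 5) (t := t) (by linarith) 0
  simp only [Term.eval_def, inTerm, tb_eval, Fin.prod_univ_three, List.map_cons, List.map_nil,
    List.prod_cons, List.prod_nil, Nat.cast_ofNat, h]
  split_ifs
  · simp [winB]
    ring
  · simp

theorem mkTerm_eval (ν : ℝ) (j : ℕ) (q : ℚ) (h : Fin 3 → List Bump) (t : ℝ) (y : Fin 3 → ℝ) :
    (mkTerm j q h).eval ν t (proj y) =
      tf j t * q * ((((h 0).map fun g => per g.eval (y 0)).prod *
        ((h 1).map fun g => per g.eval (y 1)).prod *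
        ((h 2).map fun g => per g.eval (y 2)).prod) / kappa ^ 2) := by
  simp only [Term.eval_def, mkTerm, Fin.prod_univ_three, proj, perC_coe, List.map_cons,
    List.map_nil, List.prod_cons, List.prod_nil, tf]
  have hk := kappa_ne_zero
  push_cast
  rw [zpow_neg, show ((3 : ℤ)) = ((3 : ℕ) : ℤ) from rfl, zpow_natCast]
  field_simp

theorem Patch.termsZ_eval (ν : ℝ) (j : ℕ) (P : Patch) (t : ℝ) (y : Fin 3 → ℝ) :
    evalL ν (P.termsZ j) t (proj y) = tf j t * P.fn (y 0) (y 1) := by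
  simp [Patch.termsZ, mkTerm_eval, Patch.fn, chi]
  ring

theorem Patch.termsX_eval (ν : ℝ) (j : ℕ) (P : Patch) (t : ℝ) (y : Fin 3 → ℝ) :
    evalL ν (P.termsX j) t (proj y) = tf j t * P.fn (y 1) (y 2) := by
  simp [Patch.termsX, mkTerm_eval, Patch.fn, chi]
  ring

theorem Patch.termsY_eval (ν : ℝ) (j : ℕ) (P : Patch) (t : ℝ) (y : Fin 3 → ℝ) :
    evalL ν (P.termsY j) t (proj y) = tf j t * P.fn (y 0) (y 2) := by
  simp [Patch.termsY, mkTerm_eval, Patch.fn, chi]
  ring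

theorem sum_map_range_mul (n : ℕ) (c : ℝ) (g : ℕ → ℝ) :
    ((List.range n).map fun i => c * g i).sum = c * ∑ i ∈ Finset.range n, g i := by
  induction n with
  | zero => simp
  | succ n ih => simp [List.range_succ, Finset.sum_range_succ, ih, mul_add]

theorem MCode.vel_eval (ν : ℝ) (m : MCode) (w : List ℕ) {t : ℝ} (ht : 0 ≤ t) (y : Fin 3 → ℝ) :
    (fun i => evalL ν (m.vel w i) t (proj y)) =
      (5 * winB (5 * t - ⌊(5 : ℝ) * t⌋₊)) • m.W w ⌊(5 : ℝ) * t⌋₊ y := by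
  have e0 : evalL ν (m.vel w 0) t (proj y) = tf 2 t * m.F2 (y 1) (y 2) +
      (inTerm (val m.N [3 * m.start])).eval ν t (proj y) := by
    simp [MCode.vel, MCode.uPer, MCode.uIn, evalL_flatMap, Patch.termsX_eval, sum_map_range_mul,
      MCode.F2]
  have e1 : evalL ν (m.vel w 1) t (proj y) = tf 3 t * m.F3 (y 0) (y 2) +
      (inTerm (val m.N (w.map fun a => a + 1))).eval ν t (proj y) := by
    simp [MCode.vel, MCode.uPer, MCode.uIn, evalL_flatMap, Patch.termsY_eval, sum_map_range_mul,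
      MCode.F3]
  have e2 : evalL ν (m.vel w 2) t (proj y) = tf 1 t * m.F1 (y 0) (y 1) +
      tf 4 t * m.F4 (y 0) (y 1) := by
    simp [MCode.vel, MCode.uPer, MCode.uIn, evalL_flatMap, Patch.termsZ_eval, sum_map_range_mul,
      MCode.F1, MCode.F4]
  rw [inTerm_eval ν _ ht] at e0 e1
  rw [tf_eq (by norm_num) ht] at e0 e1 e2
  rw [tf_eq (j := 4) (by norm_num) ht] at e2
  generalize ⌊(5 : ℝ) * t⌋₊ = n at e0 e1 e2 ⊢
  generalize 5 * winB (5 * t - n) = B at e0 e1 e2 ⊢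
  have hn : n = 0 ∨ (n ≠ 0 ∧ (n % 5 = 0 ∨ n % 5 = 1 ∨ n % 5 = 2 ∨ n % 5 = 3 ∨ n % 5 = 4)) := by
    omega
  funext i
  fin_cases i
  · simp only [Fin.zero_eta, e0]
    rcases hn with h | ⟨h0, h | h | h | h | h⟩ <;> simp [MCode.W, MCode.pt, MCode.init, *]
  · simp only [Fin.mk_one, e1]
    rcases hn with h | ⟨h0, h | h | h | h | h⟩ <;> simp [MCode.W, MCode.pt, MCode.init, *]
  · simp only [Fin.reduceFinMk, e2]
    rcases hn with h | ⟨h0, h | h | h | h | h⟩ <;> simp [MCode.W, MCode.pt, MCode.init, *]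

theorem MCode.W_shear (m : MCode) (w : List ℕ) (n : ℕ) (y : Fin 3 → ℝ) (s : ℝ) :
    m.W w n (y + s • m.W w n y) = m.W w n y := by
  unfold MCode.W
  split_ifs <;> simp

end Vale.Agent.P113
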