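import Vale.Agent.P113.TermCalc
import Vale.Agent.P113.CComp
import Vale.Agent.P113.CCond
import Vale.Agent.P113.CDetect

/-!
# P113: the final theorem
-/

namespace Vale.Agent.P113

open Set

theorem solution_compile {ν : ℝ} (hν : 0 ≤ ν) (M : Machine) (w : List (Fin M.nA)) :
    ∃ (u : Fin 3 → ℝ → T3 → ℝ) (p : ℝ → T3 → ℝ),
      IsGlobalSmooth ν (force ν compile M w) u p ∧
      (∀ T > 0, ∀ v q, IsClassical ν (force ν compile M w) T v q →
        ∀ t ∈ Icc 0 T, (∀ i, v i t = u i t) ∧ q t = p t) ∧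
      ∃ X : ℝ → T3, IsTrajectory u (proj 0) X ∧
        (∀ X', IsTrajectory u (proj 0) X' → ∀ t ≥ (0 : ℝ), X' t = X t) ∧
        ((∃ t ≥ (0 : ℝ), X t ∈ boxImage boxLo boxHi) ↔ M.Halts w) := by
  have hv := M.mcode.vel_valid (w.map Fin.val)
  have hY := Chain.hasDerivWithinAt_path_field (N := 5) (S := winS) (β := winB)
    (W := M.mcode.W (w.map Fin.val)) (a := 0) (by norm_num) hasDerivAt_winS winS_of_nonpos
    winS_of_one_le (M.mcode.W_shear (w.map Fin.val))
    (U := fun t y i => evalL ν (M.mcode.vel (w.map Fin.val) i) t (proj y))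
    (fun t ht y => M.mcode.vel_eval ν (w.map Fin.val) ht y)
  have h := solution_package (f := force ν compile M w)
    (u := fun i => evalL ν (M.mcode.vel (w.map Fin.val) i)) hν
    (fun i => sm_evalL (hv i) ν) (M.mcode.vel_init ν (w.map Fin.val))
    (fun t ht x => M.mcode.vel_div ν (w.map Fin.val) ht x)
    (fun i t ht x => by
      rw [M.mcode.vel_adv ν (w.map Fin.val) ht i x, add_zero, ← evalL_flatMap_ns (hv i)]
      rfl)
    hY
  rw [Chain.path_zero winS_zero] at h
  obtain ⟨h1, h2, h3, h4⟩ := h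
  refine ⟨_, _, h1, h2, _, h3, h4, ?_⟩
  rw [M.halts_iff w]
  refine MCode.detect M.mcode_wf fun a ha => ?_
  obtain ⟨b, -, rfl⟩ := List.mem_map.1 ha
  exact b.isLt

/-- One point, one box and one force compiler that work for every viscosity. -/
theorem main :
    ∃ (a lo hi : Fin 3 → ℚ) (C : Code → Fin 3 → List Term),
      (∀ i, lo i < hi i ∧ hi i < lo i + 1) ∧
      ∀ ν : ℝ, 0 < ν → IsForceCompiler ν C ∧
        ∀ (M : Machine) (w : List (Fin M.nA)),
          ∃ (u : Fin 3 → ℝ → T3 → ℝ) (p : ℝ → T3 → ℝ),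
            IsGlobalSmooth ν (force ν C M w) u p ∧
            (∀ T > 0, ∀ v q, IsClassical ν (force ν C M w) T v q →
              ∀ t ∈ Icc 0 T, (∀ i, v i t = u i t) ∧ q t = p t) ∧
            ∃ X : ℝ → T3, IsTrajectory u (proj fun i => a i) X ∧
              (∀ X', IsTrajectory u (proj fun i => a i) X' → ∀ t ≥ (0 : ℝ), X' t = X t) ∧
              ((∃ t ≥ (0 : ℝ), X t ∈ boxImage lo hi) ↔ M.Halts w) := by
  refine ⟨0, boxLo, boxHi, compile, fun i => ?_, fun ν hν => ⟨isForceCompiler_compile ν,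
    fun M w => ?_⟩⟩
  · fin_cases i <;> simp [boxLo, boxHi] <;> norm_num
  · have e : (fun i : Fin 3 => (((0 : Fin 3 → ℚ) i : ℚ) : ℝ)) = 0 := by
      funext i
      simp
    rw [e]
    exact solution_compile hν.le M w

theorem q1 : Q1 := fun ν hν => by
  obtain ⟨a, lo, hi, C, h1, h2⟩ := main
  exact ⟨a, lo, hi, C, fun i => (h1 i).1, (h2 ν hν).1, (h2 ν hν).2⟩

end Vale.Agent.P113
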