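import Vale.Agent.P113.CDigit
import Vale.Agent.P113.CCyl

/-! T4 Period: the period map -/

namespace Vale.Agent.P113

open Set

theorem Cyl.In.dig_left {C : Cyl} {p r ξ η : ℝ} (h : C.In p r ξ η) : Dig C.1 C.2.1 p := by
  obtain ⟨h1, -, h3, -, h5, -⟩ := h
  refine ⟨h1, ?_, ?_⟩
  · rw [h5]; exact h3.1
  · rw [h5]; exact h3.2

theorem Cyl.In.dig_right {C : Cyl} {p r ξ η : ℝ} (h : C.In p r ξ η) : Dig C.2.2.1 C.2.2.2 r := by
  obtain ⟨-, h2, -, h4, -, h6⟩ := h
  refine ⟨h2, ?_, ?_⟩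
  · rw [h6]; exact h4.1
  · rw [h6]; exact h4.2

theorem Cyl.In.left_pos {C : Cyl} {p r ξ η : ℝ} (h : C.In p r ξ η) : (0 : ℝ) < C.1 := by
  have : 0 < C.1 := lt_of_le_of_lt (Nat.zero_le _) h.1
  exact_mod_cast this

theorem Cyl.In.right_pos {C : Cyl} {p r ξ η : ℝ} (h : C.In p r ξ η) : (0 : ℝ) < C.2.2.1 := by
  have : 0 < C.2.2.1 := lt_of_le_of_lt (Nat.zero_le _) h.2.1
  exact_mod_cast this

theorem Patch.fn_of_out (P : Patch) {p r : ℝ} (h : Cyl.Out P.1 p r) : P.fn p r = 0 := by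
  rcases h with ⟨hc, n, hn, hd⟩ | ⟨hc, n, hn, hd⟩
  · exact P.fn_of_left hd hc hn r
  · exact P.fn_of_right hd hc hn p

theorem Patch.fn_of_in (P : Patch) {p r ξ η : ℝ} (h : Cyl.In P.1 p r ξ η) :
    P.fn p r = P.2.1 + P.2.2.1 * ξ + P.2.2.2 * η := by
  rw [P.fn_of_match h.dig_left h.dig_right, h.2.2.2.2.1, h.2.2.2.2.2]

/-- The height reached in phase 1 by a configuration in a state that is not halting. -/
noncomputable def MCode.hgt (m : MCode) (c : Cfg) : ℝ :=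
  (m.idx c + ((val m.N c.popL : ℝ) + (val m.N c.popR : ℝ)) / 2) / m.H

theorem MCode.nR_pos {m : MCode} {c : Cfg} (hc : m.Good c) : (0 : ℝ) < m.nR := by
  have : 0 < m.nR := lt_of_le_of_lt (Nat.zero_le _) (MCode.idx_lt hc)
  exact_mod_cast this

theorem MCode.H_cast (m : MCode) : (m.H : ℝ) = 4 * m.nR := by
  simp [MCode.H]

theorem MCode.H_pos {m : MCode} {c : Cfg} (hc : m.Good c) : (0 : ℝ) < m.H := by
  rw [MCode.H_cast]
  have := MCode.nR_pos hc
  positivity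

theorem MCode.lt_H {m : MCode} {j : ℕ} (hj : j < m.nR) : j < m.H := by
  unfold MCode.H
  omega

theorem MCode.H_mul_hgt {m : MCode} {c : Cfg} (hc : m.Good c) :
    (m.H : ℝ) * m.hgt c - m.idx c = ((val m.N c.popL : ℝ) + (val m.N c.popR : ℝ)) / 2 := by
  have h := (MCode.H_pos hc).ne'
  unfold MCode.hgt
  field_simp
  ring

theorem MCode.dig_hgt {m : MCode} {c : Cfg} (hc : m.Good c) : Dig m.H (m.idx c) (m.hgt c) := by
  obtain ⟨-, -, h3, h4, -, -⟩ := MCode.src_in hc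
  refine ⟨MCode.lt_H (MCode.idx_lt hc), ?_, ?_⟩
  · rw [MCode.H_mul_hgt hc]
    linarith [h3.1, h4.1]
  · rw [MCode.H_mul_hgt hc]
    linarith [h3.2, h4.2]

theorem MCode.hgt_mem {m : MCode} {c : Cfg} (hc : m.Good c) :
    m.hgt c ∈ Icc (0 : ℝ) (1 / 4) := by
  obtain ⟨-, -, h3, h4, -, -⟩ := MCode.src_in hc
  have hH := MCode.H_pos hc
  have hi : (m.idx c : ℝ) + 1 ≤ m.nR := by exact_mod_cast MCode.idx_lt hc
  have h0 : (0 : ℝ) ≤ m.idx c := Nat.cast_nonneg _
  unfold MCode.hgt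
  constructor
  · apply div_nonneg _ hH.le
    linarith [h3.1, h4.1]
  · rw [div_le_iff₀ hH, MCode.H_cast]
    linarith [h3.2, h4.2]

theorem MCode.F1_eq {m : MCode} {c : Cfg} (hc : m.Good c) :
    m.F1 (m.pt c 0) (m.pt c 1) = m.hgt c + if m.halt (c.1 / 3) = true then 1 / 2 else 0 := by
  have hH := (MCode.H_pos hc).ne'
  unfold MCode.F1
  rw [Finset.sum_eq_single (m.idx c)]
  · rw [Patch.fn_of_in (m.patch1 (m.idx c)) (MCode.src_in hc)]
    simp only [MCode.patch1, MCode.idx_div hc, MCode.hgt]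
    split_ifs
    · push_cast
      field_simp
      ring
    · push_cast
      field_simp
      ring
  · intro j hj hne
    exact Patch.fn_of_out _ (MCode.src_out hc (Finset.mem_range.1 hj) hne)
  · intro h
    exact absurd (Finset.mem_range.2 (MCode.idx_lt hc)) h

theorem MCode.F1_halt {m : MCode} {c : Cfg} (hc : m.Good c) (hh : m.halt (c.1 / 3) = true) :
    m.F1 (m.pt c 0) (m.pt c 1) ∈ Icc (1 / 2 : ℝ) (3 / 4) := by
  rw [MCode.F1_eq hc, if_pos hh]
  have h := MCode.hgt_mem hc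
  constructor
  · linarith [h.1]
  · linarith [h.2]

theorem MCode.F2_eq {m : MCode} (hm : m.WF) {c : Cfg} (hc : m.Good c) :
    m.pt c 0 + m.F2 (m.pt c 1) (m.hgt c) = m.pt (m.step c) 0 := by
  have hs := MCode.src_in hc
  have ht := MCode.tgt_in hm hc
  have hA := hs.left_pos.ne'
  have hA' := ht.left_pos.ne'
  unfold MCode.F2
  rw [Finset.sum_eq_single (m.idx c)]
  · rw [Patch.fn_of_match (m.patch2 (m.idx c)) hs.dig_right (MCode.dig_hgt hc)]
    simp only [MCode.patch2]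
    rw [hs.2.2.2.2.2, MCode.H_mul_hgt hc]
    have e1 : m.pt c 0 = ((m.srcI (m.idx c)).2.1 + (val m.N c.popL : ℝ)) / (m.srcI (m.idx c)).1 := by
      rw [← hs.2.2.2.2.1]
      field_simp
      ring
    have e2 : m.pt (m.step c) 0 =
        ((m.tgtI (m.idx c)).2.1 + (val m.N c.popL : ℝ)) / (m.tgtI (m.idx c)).1 := by
      rw [← ht.2.2.2.2.1]
      field_simp
      ring
    rw [e1, e2]
    push_cast
    field_simp
    ring
  · intro j hj hne
    exact Patch.fn_of_right (m.patch2 j) (MCode.dig_hgt hc)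
      (MCode.lt_H (Finset.mem_range.1 hj)) hne.symm _
  · intro h
    exact absurd (Finset.mem_range.2 (MCode.idx_lt hc)) h

theorem MCode.F3_eq {m : MCode} (hm : m.WF) {c : Cfg} (hc : m.Good c) :
    m.pt c 1 + m.F3 (m.pt (m.step c) 0) (m.hgt c) = m.pt (m.step c) 1 := by
  have hs := MCode.src_in hc
  have ht := MCode.tgt_in hm hc
  have hB := hs.right_pos.ne'
  have hB' := ht.right_pos.ne'
  unfold MCode.F3
  rw [Finset.sum_eq_single (m.idx c)]
  · rw [Patch.fn_of_match (m.patch3 (m.idx c)) ht.dig_left (MCode.dig_hgt hc)]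
    simp only [MCode.patch3]
    rw [ht.2.2.2.2.1, MCode.H_mul_hgt hc]
    have e1 : m.pt c 1 =
        ((m.srcI (m.idx c)).2.2.2 + (val m.N c.popR : ℝ)) / (m.srcI (m.idx c)).2.2.1 := by
      rw [← hs.2.2.2.2.2]
      field_simp
      ring
    have e2 : m.pt (m.step c) 1 =
        ((m.tgtI (m.idx c)).2.2.2 + (val m.N c.popR : ℝ)) / (m.tgtI (m.idx c)).2.2.1 := by
      rw [← ht.2.2.2.2.2]
      field_simp
      ring
    rw [e1, e2]
    push_cast
    field_simp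
    ring
  · intro j hj hne
    exact Patch.fn_of_right (m.patch3 j) (MCode.dig_hgt hc)
      (MCode.lt_H (Finset.mem_range.1 hj)) hne.symm _
  · intro h
    exact absurd (Finset.mem_range.2 (MCode.idx_lt hc)) h

theorem MCode.F4_eq {m : MCode} (hm : m.WF) {c : Cfg} (hc : m.Good c) :
    m.hgt c + m.F4 (m.pt (m.step c) 0) (m.pt (m.step c) 1) = 0 := by
  have hH := (MCode.H_pos hc).ne'
  unfold MCode.F4
  rw [Finset.sum_eq_single (m.idx c)]
  · rw [Patch.fn_of_in (m.patch4 (m.idx c)) (MCode.tgt_in hm hc)]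
    simp only [MCode.patch4, MCode.hgt]
    push_cast
    field_simp
    ring
  · intro j hj hne
    exact Patch.fn_of_out _ (MCode.tgt_out hm hc (Finset.mem_range.1 hj) hne)
  · intro h
    exact absurd (Finset.mem_range.2 (MCode.idx_lt hc)) h

theorem MCode.period {m : MCode} (hm : m.WF) {c : Cfg} (hc : m.Good c)
    (hh : m.halt (c.1 / 3) = false) :
    ∃ z ∈ Icc (0 : ℝ) (1 / 4), m.F1 (m.pt c 0) (m.pt c 1) = z ∧
      m.pt c 0 + m.F2 (m.pt c 1) z = m.pt (m.step c) 0 ∧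
      m.pt c 1 + m.F3 (m.pt (m.step c) 0) z = m.pt (m.step c) 1 ∧
      z + m.F4 (m.pt (m.step c) 0) (m.pt (m.step c) 1) = 0 := by
  refine ⟨m.hgt c, MCode.hgt_mem hc, ?_, MCode.F2_eq hm hc, MCode.F3_eq hm hc, MCode.F4_eq hm hc⟩
  rw [MCode.F1_eq hc, hh]
  simp

end Vale.Agent.P113
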