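import Vale.Agent.P113.TermDefs

/-!
# P113: the construction (definitions only)

Two-stack reversible machine, digit encodings, patches, velocity term lists and shear fields.
-/

namespace Vale.Agent.P113

open Set

/-- The machine part of a code. -/
abbrev MCode : Type := ℕ × ℕ × ℕ × ℕ × List Bool × List (List (ℕ × ℕ × ℤ))

/-- The machine part of `M.code w`. -/
def Machine.mcode (M : Machine) : MCode :=
  (M.nQ, M.nA, M.start, M.blank, List.ofFn M.halting,
    List.ofFn fun q => List.ofFn fun a =>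
      (((M.δ q a).1 : ℕ), ((M.δ q a).2.1 : ℕ), ((M.δ q a).2.2 : ℤ)))

theorem Machine.code_eq (M : Machine) (w : List (Fin M.nA)) :
    M.code w = (M.mcode, w.map Fin.val) := rfl

/-- Configurations of the two-stack machine: control digit `3 q + kind`, left and right stack
(finite lists, read as padded with zeros). Kind `0`: the head cell is the first tape digit of the
right stack; kind `1`: of the left stack; kind `2`: it is the top of the right stack. -/
abbrev Cfg : Type := ℕ × List ℕ × List ℕ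

/-- The digit that is read. -/
def Cfg.top (c : Cfg) : ℕ := if c.1 % 3 = 1 then c.2.1.headD 0 else c.2.2.headD 0

/-- The left stack after reading. -/
def Cfg.popL (c : Cfg) : List ℕ := if c.1 % 3 = 1 then c.2.1.tail else c.2.1

/-- The right stack after reading. -/
def Cfg.popR (c : Cfg) : List ℕ := if c.1 % 3 = 1 then c.2.2 else c.2.2.tail

/-- The kind of the next control digit for a head move `d`. -/
def kind (d : ℤ) : ℕ := if d = 1 then 0 else if d = -1 then 1 else 2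

/-- Base `N` value of a finite digit list. -/
def val (N : ℕ) (l : List ℕ) : ℚ := l.foldr (fun d v => ((d : ℚ) + v) / (N : ℚ)) 0

/-- A cylinder `(A, c, B, e)`: the rectangle `A p - c ∈ [0, 1/4]`, `B r - e ∈ [0, 1/4]`. -/
abbrev Cyl : Type := ℕ × ℕ × ℕ × ℕ

/-- A patch `((A, c, B, e), α, β, γ)`: the function `α + β (A p - c) + γ (B r - e)` cut off to the
cylinder. -/
abbrev Patch : Type := Cyl × ℚ × ℚ × ℚ

namespace MCode

def nQ (m : MCode) : ℕ := m.1
def nA (m : MCode) : ℕ := m.2.1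
def start (m : MCode) : ℕ := m.2.2.1
def blank (m : MCode) : ℕ := m.2.2.2.1
def halt (m : MCode) (q : ℕ) : Bool := m.2.2.2.2.1.getD q false
def tbl (m : MCode) (q a : ℕ) : ℕ × ℕ × ℤ := (m.2.2.2.2.2.getD q []).getD a (0, 0, 0)

/-- Number of tape digits: `0` is an unvisited blank cell, `a + 1` is the symbol `a`. -/
def nS (m : MCode) : ℕ := m.nA + 1
/-- Number of control digits. -/
def nC (m : MCode) : ℕ := 3 * m.nQ
/-- Bound on all digits. -/
def K (m : MCode) : ℕ := m.nS * (m.nC + 1)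
/-- The base. -/
def N (m : MCode) : ℕ := 4 * m.K
/-- Number of rules. -/
def nR (m : MCode) : ℕ := m.nC * m.K
/-- The base for heights. -/
def H (m : MCode) : ℕ := 4 * m.nR
/-- The symbol of a tape digit. -/
def dec (m : MCode) (r : ℕ) : ℕ := if r = 0 then m.blank else r - 1
/-- The garbage digit recording the control digit and the tape digit that was read. -/
def garb (m : MCode) (st a : ℕ) : ℕ := m.nS * (st + 1) + a
/-- The table entry used with control digit `st` and tape digit `a`. -/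
def act (m : MCode) (st a : ℕ) : ℕ × ℕ × ℤ := m.tbl (st / 3) (m.dec a)
/-- The next control digit. -/
def newSt (m : MCode) (st a : ℕ) : ℕ :=
  if a < m.nS then 3 * (m.act st a).1 + kind (m.act st a).2.2 else st
/-- The digits that are pushed. -/
def pushed (m : MCode) (st a : ℕ) : List ℕ :=
  if a < m.nS then [(m.act st a).2.1 + 1, m.garb st a] else [a]

/-- One step of the two-stack machine. -/
def step (m : MCode) (c : Cfg) : Cfg :=
  if m.newSt c.1 c.top % 3 = 0 then (m.newSt c.1 c.top, m.pushed c.1 c.top ++ c.popL, c.popR)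
  else (m.newSt c.1 c.top, c.popL, m.pushed c.1 c.top ++ c.popR)

/-- The initial configuration of the two-stack machine. -/
def init (m : MCode) (w : List ℕ) : Cfg := (3 * m.start, [], w.map fun a => a + 1)

/-- Well-formed machine codes. -/
structure WF (m : MCode) : Prop where
  start_lt : m.start < m.nQ
  blank_lt : m.blank < m.nA
  tbl_lt : ∀ q < m.nQ, ∀ a < m.nA, (m.tbl q a).1 < m.nQ ∧ (m.tbl q a).2.1 < m.nA

/-- Configurations with digits in range. -/
structure Good (m : MCode) (c : Cfg) : Prop where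
  st_lt : c.1 < m.nC
  left_lt : ∀ d ∈ c.2.1, d < m.K
  right_lt : ∀ d ∈ c.2.2, d < m.K

/-- The point of the plane `z = 0` that encodes a configuration. -/
noncomputable def pt (m : MCode) (c : Cfg) : Fin 3 → ℝ :=
  ![(val m.N (c.1 :: c.2.1) : ℝ), (val m.N c.2.2 : ℝ), 0]

/-- `N ^ (pushed st a).length`. -/
def pushD (m : MCode) (a : ℕ) : ℕ := if a < m.nS then m.N * m.N else m.N
/-- The integer with base `N` digits `pushed st a`. -/
def pushV (m : MCode) (st a : ℕ) : ℕ :=
  if a < m.nS then ((m.act st a).2.1 + 1) * m.N + m.garb st a else a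

/-- Source cylinder of the rule `(st, a)`. -/
def src (m : MCode) (st a : ℕ) : Cyl :=
  if st % 3 = 1 then (m.N * m.N, st * m.N + a, 1, 0) else (m.N, st, m.N, a)

/-- Target cylinder of the rule `(st, a)`. -/
def tgt (m : MCode) (st a : ℕ) : Cyl :=
  if m.newSt st a % 3 = 0 then
    (m.N * m.pushD a, m.newSt st a * m.pushD a + m.pushV st a, 1, 0)
  else (m.N, m.newSt st a, m.pushD a, m.pushV st a)

/-- Source cylinder of rule number `i`. -/
def srcI (m : MCode) (i : ℕ) : Cyl := m.src (i / m.K) (i % m.K)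
/-- Target cylinder of rule number `i`. -/
def tgtI (m : MCode) (i : ℕ) : Cyl := m.tgt (i / m.K) (i % m.K)

/-- Phase 1 (lift): `z += (i + (ξ + η) / 2) / H`, plus `1/2` in a halting state. -/
def patch1 (m : MCode) (i : ℕ) : Patch :=
  (m.srcI i, (i : ℚ) / m.H + (if m.halt (i / m.K / 3) = true then 1 / 2 else 0),
    1 / (2 * (m.H : ℚ)), 1 / (2 * (m.H : ℚ)))

/-- Phase 2 (move `x`, as a function of `y, z`). -/
def patch2 (m : MCode) (i : ℕ) : Patch :=
  (((m.srcI i).2.2.1, (m.srcI i).2.2.2, m.H, i),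
    ((m.tgtI i).2.1 : ℚ) / (m.tgtI i).1 - ((m.srcI i).2.1 : ℚ) / (m.srcI i).1,
    -(1 / ((m.tgtI i).1 : ℚ) - 1 / ((m.srcI i).1 : ℚ)),
    2 * (1 / ((m.tgtI i).1 : ℚ) - 1 / ((m.srcI i).1 : ℚ)))

/-- Phase 3 (move `y`, as a function of `x, z`). -/
def patch3 (m : MCode) (i : ℕ) : Patch :=
  (((m.tgtI i).1, (m.tgtI i).2.1, m.H, i),
    ((m.tgtI i).2.2.2 : ℚ) / (m.tgtI i).2.2.1 - ((m.srcI i).2.2.2 : ℚ) / (m.srcI i).2.2.1,
    -(1 / ((m.tgtI i).2.2.1 : ℚ) - 1 / ((m.srcI i).2.2.1 : ℚ)),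
    2 * (1 / ((m.tgtI i).2.2.1 : ℚ) - 1 / ((m.srcI i).2.2.1 : ℚ)))

/-- Phase 4 (lower). -/
def patch4 (m : MCode) (i : ℕ) : Patch :=
  (m.tgtI i, -((i : ℚ) / m.H), -(1 / (2 * (m.H : ℚ))), -(1 / (2 * (m.H : ℚ))))

end MCode

/-- The bump `s ^ k π_3 (4 A s - (4 c - 1))`. -/
def bmp (k A c : ℕ) : Bump := (k, 4 * (A : ℚ), 4 * (c : ℚ) - 1, Sum.inr 3)

/-- Its normalized periodization. -/
noncomputable def chi (k A c : ℕ) (s : ℝ) : ℝ := per (bmp k A c).eval s / kappa

/-- `n` is the integer part of `A s`, with fractional part at most `1/4`. -/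
def Dig (A n : ℕ) (s : ℝ) : Prop := n < A ∧ 0 ≤ A * s - n ∧ A * s - n ≤ 1 / 4

/-- First coefficient of a patch. -/
def Patch.c0 (P : Patch) : ℚ := P.2.1 - P.2.2.1 * P.1.2.1 - P.2.2.2 * P.1.2.2.2
/-- Second coefficient of a patch. -/
def Patch.c1 (P : Patch) : ℚ := P.2.2.1 * P.1.1
/-- Third coefficient of a patch. -/
def Patch.c2 (P : Patch) : ℚ := P.2.2.2 * P.1.2.2.1

/-- The function of a patch. -/
noncomputable def Patch.fn (P : Patch) (p r : ℝ) : ℝ :=
  P.c0 * (chi 0 P.1.1 P.1.2.1 p * chi 0 P.1.2.2.1 P.1.2.2.2 r)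
    + P.c1 * (chi 1 P.1.1 P.1.2.1 p * chi 0 P.1.2.2.1 P.1.2.2.2 r)
    + P.c2 * (chi 0 P.1.1 P.1.2.1 p * chi 1 P.1.2.2.1 P.1.2.2.2 r)

/-- The time bump `ρ (10 t - (2 j + 1))` of window `j`. -/
def tb (j : ℕ) : Bump := (0, 10, 2 * (j : ℚ) + 1, Sum.inl 0)

/-- Periodic term `10 q κ⁻³ P[tb j](t) ∏ P[h i](x i)`. -/
def mkTerm (j : ℕ) (q : ℚ) (h : Fin 3 → List Bump) : Term := ((10 * q, 0, -3, []), ([], [tb j]), h)

/-- Terms of a patch in window `j`, as a function of `(x, y)`. -/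
def Patch.termsZ (j : ℕ) (P : Patch) : List Term :=
  [mkTerm j P.c0 ![[bmp 0 P.1.1 P.1.2.1], [bmp 0 P.1.2.2.1 P.1.2.2.2], []],
    mkTerm j P.c1 ![[bmp 1 P.1.1 P.1.2.1], [bmp 0 P.1.2.2.1 P.1.2.2.2], []],
    mkTerm j P.c2 ![[bmp 0 P.1.1 P.1.2.1], [bmp 1 P.1.2.2.1 P.1.2.2.2], []]]

/-- Terms of a patch in window `j`, as a function of `(y, z)`. -/
def Patch.termsX (j : ℕ) (P : Patch) : List Term :=
  [mkTerm j P.c0 ![[], [bmp 0 P.1.1 P.1.2.1], [bmp 0 P.1.2.2.1 P.1.2.2.2]],
    mkTerm j P.c1 ![[], [bmp 1 P.1.1 P.1.2.1], [bmp 0 P.1.2.2.1 P.1.2.2.2]],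
    mkTerm j P.c2 ![[], [bmp 0 P.1.1 P.1.2.1], [bmp 1 P.1.2.2.1 P.1.2.2.2]]]

/-- Terms of a patch in window `j`, as a function of `(x, z)`. -/
def Patch.termsY (j : ℕ) (P : Patch) : List Term :=
  [mkTerm j P.c0 ![[bmp 0 P.1.1 P.1.2.1], [], [bmp 0 P.1.2.2.1 P.1.2.2.2]],
    mkTerm j P.c1 ![[bmp 1 P.1.1 P.1.2.1], [], [bmp 0 P.1.2.2.1 P.1.2.2.2]],
    mkTerm j P.c2 ![[bmp 0 P.1.1 P.1.2.1], [], [bmp 1 P.1.2.2.1 P.1.2.2.2]]]

/-- The input term `10 q κ⁻¹ ρ (10 t - 1)`. -/
def inTerm (q : ℚ) : Term := ((10 * q, 0, -1, []), ([tb 0], []), ![[], [], []])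

namespace MCode

/-- Periodic part of the velocity. -/
def uPer (m : MCode) : Fin 3 → List Term :=
  ![(List.range m.nR).flatMap fun i => (m.patch2 i).termsX 2,
    (List.range m.nR).flatMap fun i => (m.patch3 i).termsY 3,
    ((List.range m.nR).flatMap fun i => (m.patch1 i).termsZ 1) ++
      (List.range m.nR).flatMap fun i => (m.patch4 i).termsZ 4]

/-- Input part of the velocity. -/
def uIn (m : MCode) (w : List ℕ) : Fin 3 → List Term :=
  ![[inTerm (val m.N [3 * m.start])], [inTerm (val m.N (w.map fun a => a + 1))], []]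

/-- The velocity terms. -/
def vel (m : MCode) (w : List ℕ) (i : Fin 3) : List Term := m.uPer i ++ m.uIn w i

/-- The four shear profiles. -/
noncomputable def F1 (m : MCode) (p r : ℝ) : ℝ := ∑ i ∈ Finset.range m.nR, (m.patch1 i).fn p r
noncomputable def F2 (m : MCode) (p r : ℝ) : ℝ := ∑ i ∈ Finset.range m.nR, (m.patch2 i).fn p r
noncomputable def F3 (m : MCode) (p r : ℝ) : ℝ := ∑ i ∈ Finset.range m.nR, (m.patch3 i).fn p r
noncomputable def F4 (m : MCode) (p r : ℝ) : ℝ := ∑ i ∈ Finset.range m.nR, (m.patch4 i).fn p r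

/-- The displacement field of the time window `[n/5, (n+1)/5]`. -/
noncomputable def W (m : MCode) (w : List ℕ) (n : ℕ) (y : Fin 3 → ℝ) : Fin 3 → ℝ :=
  if n = 0 then m.pt (m.init w)
  else if n % 5 = 1 then ![0, 0, m.F1 (y 0) (y 1)]
  else if n % 5 = 2 then ![m.F2 (y 1) (y 2), 0, 0]
  else if n % 5 = 3 then ![0, m.F3 (y 0) (y 2), 0]
  else if n % 5 = 4 then ![0, 0, m.F4 (y 0) (y 1)]
  else 0

end MCode

/-- The velocity terms of a code. -/
def velo (c : Code) (i : Fin 3) : List Term := MCode.vel c.1 c.2 i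

/-- The force compiler. -/
def compile (c : Code) (i : Fin 3) : List Term := (velo c i).flatMap Term.ns

/-- Lower corner of the target box. -/
def boxLo : Fin 3 → ℚ := ![-1 / 8, -1 / 8, 3 / 8]
/-- Upper corner of the target box. -/
def boxHi : Fin 3 → ℚ := ![3 / 8, 3 / 8, 7 / 8]

end Vale.Agent.P113
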