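import Mathlib

/-!
# P113: definitions for the statement

Forced Navier-Stokes equations on the flat torus, admissible forces, Turing machines and force
compilers, following the problem file.
-/

namespace Vale.Agent.P113

open Set

/-! ## The torus and calculus on it -/

/-- The flat torus `(ℝ/ℤ)^3`. -/
abbrev T3 : Type := Fin 3 → UnitAddCircle

/-- The covering map `ℝ^3 → (ℝ/ℤ)^3`. -/
def proj (x : Fin 3 → ℝ) : T3 := fun i => (x i : UnitAddCircle)

/-- The function `s ↦ F (x + s e_i)` of the real variable `s`. -/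
def along (i : Fin 3) (F : T3 → ℝ) (x : T3) (s : ℝ) : ℝ :=
  F (x + Pi.single i (s : UnitAddCircle))

/-- The partial derivative `∂_i F (x)`. -/
noncomputable def pd (i : Fin 3) (F : T3 → ℝ) (x : T3) : ℝ := deriv (along i F x) 0

/-- The partial derivative `∂_i F` exists at every point of the torus. -/
def HasPd (i : Fin 3) (F : T3 → ℝ) : Prop := ∀ x, DifferentiableAt ℝ (along i F x) 0

/-- A function of `(t, x)` is continuous on `[0, T] × 𝕋³`. -/
def ContOn (T : ℝ) (F : ℝ → T3 → ℝ) : Prop :=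
  ContinuousOn (fun z : ℝ × T3 => F z.1 z.2) (Icc 0 T ×ˢ univ)

/-- A function of `(t, x)` is smooth on `[0, ∞) × 𝕋³` (its lift to `[0, ∞) × ℝ³` is `C^∞`). -/
def SmoothOn0 (F : ℝ → T3 → ℝ) : Prop :=
  ContDiffOn ℝ (⊤ : ℕ∞) (fun z : ℝ × (Fin 3 → ℝ) => F z.1 (proj z.2)) (Ici 0 ×ˢ univ)

/-- The time derivative `∂_t F (t, x)` on the time interval `[0, T]` (one-sided at the ends). -/
noncomputable def dt (T : ℝ) (F : ℝ → T3 → ℝ) (t : ℝ) (x : T3) : ℝ :=
  derivWithin (fun s => F s x) (Icc 0 T) t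

/-- `(u, p)` is a classical solution on `[0, T] × 𝕋³` of
`∂_t u + (u·∇)u = -∇p + ν Δu + f`, `div u = 0`, `u(0, ·) = 0`; here `u i` and `f i` are the
components of `u` and `f`. -/
structure IsClassical (ν : ℝ) (f : Fin 3 → ℝ → T3 → ℝ) (T : ℝ)
    (u : Fin 3 → ℝ → T3 → ℝ) (p : ℝ → T3 → ℝ) : Prop where
  has_dt : ∀ i x, DifferentiableOn ℝ (fun s => u i s x) (Icc 0 T)
  has_pd : ∀ i j, ∀ t ∈ Icc 0 T, HasPd j (u i t)
  has_pd_pd : ∀ i j k, ∀ t ∈ Icc 0 T, HasPd k (pd j (u i t))
  has_pd_p : ∀ j, ∀ t ∈ Icc 0 T, HasPd j (p t)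
  cont_u : ∀ i, ContOn T (u i)
  cont_dt : ∀ i, ContOn T (dt T (u i))
  cont_pd : ∀ i j, ContOn T fun t => pd j (u i t)
  cont_pd_pd : ∀ i j k, ContOn T fun t => pd k (pd j (u i t))
  cont_p : ContOn T p
  cont_pd_p : ∀ j, ContOn T fun t => pd j (p t)
  mean_p : ∀ t ∈ Icc 0 T, ∫ x, p t x = 0
  momentum : ∀ i, ∀ t ∈ Icc 0 T, ∀ x,
    dt T (u i) t x + ∑ j, u j t x * pd j (u i t) x
      = -pd i (p t) x + ν * ∑ j, pd j (pd j (u i t)) x + f i t x
  div_free : ∀ t ∈ Icc 0 T, ∀ x, ∑ i, pd i (u i t) x = 0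
  init : ∀ i x, u i 0 x = 0

/-- `(u, p)` is a global smooth solution: smooth on `[0, ∞) × 𝕋³` and a classical solution on
every `[0, T]`. -/
structure IsGlobalSmooth (ν : ℝ) (f : Fin 3 → ℝ → T3 → ℝ)
    (u : Fin 3 → ℝ → T3 → ℝ) (p : ℝ → T3 → ℝ) : Prop where
  smooth_u : ∀ i, SmoothOn0 (u i)
  smooth_p : SmoothOn0 p
  classical : ∀ T > 0, IsClassical ν f T u p

/-- `X` is a trajectory of `u` from `a`: on `[0, ∞)` it is the projection of a curve `Y` in `ℝ³`
with `Y'(t) = u(t, X(t))`, and `X(0) = a`. -/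
def IsTrajectory (u : Fin 3 → ℝ → T3 → ℝ) (a : T3) (X : ℝ → T3) : Prop :=
  X 0 = a ∧ ∃ Y : ℝ → Fin 3 → ℝ, ∀ t ≥ (0 : ℝ),
    X t = proj (Y t) ∧ HasDerivWithinAt Y (fun i => u i t (X t)) (Ici 0) t

/-! ## Turing machines -/

/-- A deterministic one-tape Turing machine with states `Fin nQ` and alphabet `Fin nA`. In a state
`q` that is not halting, reading `a`, it goes to the state, writes the symbol and moves the head
by the amount (`-1`, `0` or `1`) listed in `δ q a`. -/
structure Machine where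
  nQ : ℕ
  nA : ℕ
  start : Fin nQ
  blank : Fin nA
  halting : Fin nQ → Bool
  δ : Fin nQ → Fin nA → Fin nQ × Fin nA × SignType

/-- A configuration: state, contents of the two-sided tape, position of the head. -/
abbrev Machine.Config (M : Machine) : Type := Fin M.nQ × (ℤ → Fin M.nA) × ℤ

/-- One step of the machine; a configuration in a halting state does not change. -/
def Machine.next (M : Machine) (c : M.Config) : M.Config :=
  if M.halting c.1 then c
  else
    ((M.δ c.1 (c.2.1 c.2.2)).1,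
      Function.update c.2.1 c.2.2 (M.δ c.1 (c.2.1 c.2.2)).2.1,
      c.2.2 + ((M.δ c.1 (c.2.1 c.2.2)).2.2 : ℤ))

/-- The initial configuration: `w` is written on the cells `0, 1, …`, all other cells are blank,
and the head is on cell `0`. -/
def Machine.init (M : Machine) (w : List (Fin M.nA)) : M.Config :=
  (M.start, fun n => if 0 ≤ n then w.getD n.toNat M.blank else M.blank, 0)

/-- `M` halts on `w`: it reaches a halting state after finitely many steps, possibly none. -/
def Machine.Halts (M : Machine) (w : List (Fin M.nA)) : Prop :=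
  ∃ n : ℕ, M.halting (M.next^[n] (M.init w)).1 = true

/-- Finite descriptions of pairs (machine, input). -/
abbrev Code : Type := (ℕ × ℕ × ℕ × ℕ × List Bool × List (List (ℕ × ℕ × ℤ))) × List ℕ

/-- The description of `(M, w)`: numbers of states and symbols, start state, blank, table of
halting states, transition table, and the letters of `w`. -/
def Machine.code (M : Machine) (w : List (Fin M.nA)) : Code :=
  ((M.nQ, M.nA, M.start, M.blank, List.ofFn M.halting,
    List.ofFn fun q => List.ofFn fun a =>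
      (((M.δ q a).1 : ℕ), ((M.δ q a).2.1 : ℕ), ((M.δ q a).2.2 : ℤ))),
    w.map Fin.val)

/-! ## Admissible functions -/

/-- `ρ(s) = exp (-1 / (1 - s²))` for `|s| < 1`, and `0` otherwise. -/
noncomputable def rho (s : ℝ) : ℝ := if |s| < 1 then Real.exp (-1 / (1 - s ^ 2)) else 0

/-- `κ = ∫ ρ`. -/
noncomputable def kappa : ℝ := ∫ s, rho s

/-- `σ(s) = ∫_{-∞}^s ρ`. -/
noncomputable def sigma (s : ℝ) : ℝ := ∫ r in Iic s, rho r

/-- `π_ℓ(s) = σ(s) - σ(s - ℓ)`. -/
noncomputable def plateau (l s : ℝ) : ℝ := sigma s - sigma (s - l)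

/-- Descriptions of bumps: `(k, a, b, inl j)` is `s ↦ s^k ρ^{(j)}(a s - b)` and `(k, a, b, inr ℓ)`
is `s ↦ s^k π_ℓ(a s - b)`. -/
abbrev Bump : Type := ℕ × ℚ × ℚ × (ℕ ⊕ ℚ)

/-- The function described by a bump. -/
noncomputable def Bump.eval : Bump → ℝ → ℝ
  | (k, a, b, Sum.inl j), s => s ^ k * iteratedDeriv j rho (a * s - b)
  | (k, a, b, Sum.inr l), s => s ^ k * plateau l (a * s - b)

/-- The side conditions `a ≠ 0` and `ℓ > 0`. -/
def Bump.Valid : Bump → Prop
  | (_, a, _, Sum.inl _) => a ≠ 0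
  | (_, a, _, Sum.inr l) => a ≠ 0 ∧ 0 < l

/-- The periodization `P[g](y) = ∑_{m ∈ ℤ} g(y + m)`. -/
noncomputable def per (g : ℝ → ℝ) (y : ℝ) : ℝ := ∑' m : ℤ, g (y + m)

/-- The periodization `P[g]` as a function on `ℝ/ℤ` (its value at the representative in
`[0, 1)`). -/
noncomputable def perC (g : ℝ → ℝ) : UnitAddCircle → ℝ := AddCircle.liftIco 1 0 (per g)

/-- Descriptions of terms: `((q, m, n, r), (θ₀, θ₁), h)` is the term
`q ν^m κ^n ∏ ln r_i · ∏_{g ∈ θ₀} g(t) · ∏_{g ∈ θ₁} P[g](t) · ∏_i ∏_{g ∈ h i} P[g](x_i)`. -/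
abbrev Term : Type :=
  (ℚ × ℕ × ℤ × List ℚ) × (List Bump × List Bump) × (Fin 3 → List Bump)

/-- The function on `[0, ∞) × 𝕋³` described by a term. -/
noncomputable def Term.eval (ν : ℝ) : Term → ℝ → T3 → ℝ
  | ((q, m, n, r), (θ₀, θ₁), h), t, x =>
    q * ν ^ m * kappa ^ n * (r.map fun a : ℚ => Real.log a).prod
      * ((θ₀.map fun g => g.eval t).prod * (θ₁.map fun g => per g.eval t).prod)
      * ∏ i, ((h i).map fun g => perC g.eval (x i)).prod

/-- The side conditions: all `r_i > 0` and all bumps satisfy their side conditions. -/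
def Term.Valid : Term → Prop
  | ((_, _, _, r), (θ₀, θ₁), h) =>
    (∀ a ∈ r, 0 < a) ∧ (∀ g ∈ θ₀, g.Valid) ∧ (∀ g ∈ θ₁, g.Valid) ∧ ∀ i, ∀ g ∈ h i, g.Valid

/-- A term is periodic if its time factor is `1` or a product of periodizations only. -/
def Term.periodic : Term → Bool
  | (_, (θ₀, _), _) => θ₀.isEmpty

/-! ## Force compilers -/

/-- The force `f_{M,w}`: its component `i` is the sum of the terms listed by `C` for `i`. -/
noncomputable def force (ν : ℝ) (C : Code → Fin 3 → List Term) (M : Machine)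
    (w : List (Fin M.nA)) (i : Fin 3) (t : ℝ) (x : T3) : ℝ :=
  ((C (M.code w) i).map fun τ => τ.eval ν t x).sum

/-- `C` is a force compiler. -/
structure IsForceCompiler (ν : ℝ) (C : Code → Fin 3 → List Term) : Prop where
  computable : Computable C
  valid : ∀ (M : Machine) (w : List (Fin M.nA)) (i : Fin 3), ∀ τ ∈ C (M.code w) i, τ.Valid
  vanish : ∃ T₀ : ℝ, ∀ (M : Machine) (w : List (Fin M.nA)) (i : Fin 3), ∀ τ ∈ C (M.code w) i,
    τ.periodic = false → ∀ t ≥ T₀, ∀ x, τ.eval ν t x = 0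
  periodic_indep : ∀ (M : Machine) (w w' : List (Fin M.nA)) (i : Fin 3),
    (C (M.code w) i).filter Term.periodic = (C (M.code w') i).filter Term.periodic

/-- The image in `𝕋³` of the open box with rational corners `lo`, `hi`. -/
def boxImage (lo hi : Fin 3 → ℚ) : Set T3 :=
  proj '' {x | ∀ i, (lo i : ℝ) < x i ∧ x i < (hi i : ℝ)}

/-- The statement of Q1 (for every `ν > 0`, computable or not). -/
def Q1 : Prop :=
  ∀ ν : ℝ, 0 < ν →
    ∃ (a lo hi : Fin 3 → ℚ) (C : Code → Fin 3 → List Term),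
      (∀ i, lo i < hi i) ∧ IsForceCompiler ν C ∧
      ∀ (M : Machine) (w : List (Fin M.nA)),
        ∃ (u : Fin 3 → ℝ → T3 → ℝ) (p : ℝ → T3 → ℝ),
          IsGlobalSmooth ν (force ν C M w) u p ∧
          (∀ T > 0, ∀ v q, IsClassical ν (force ν C M w) T v q →
            ∀ t ∈ Icc 0 T, (∀ i, v i t = u i t) ∧ q t = p t) ∧
          ∃ X : ℝ → T3, IsTrajectory u (proj fun i => a i) X ∧
            (∀ X', IsTrajectory u (proj fun i => a i) X' → ∀ t ≥ (0 : ℝ), X' t = X t) ∧
            ((∃ t ≥ (0 : ℝ), X t ∈ boxImage lo hi) ↔ M.Halts w)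

end Vale.Agent.P113
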