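import Vale.Agent.P113.EnergyBox

/-!
Uniqueness of periodic classical solutions of the forced Navier-Stokes system by the energy
method. The derivative fields are explicit arguments, so that the theorem adapts to any
formulation of a classical solution.
-/

open MeasureTheory Set Filter Topology

namespace Vale.Agent.P113.Energy

/-- A periodic classical solution on `[0,T]` with explicit derivative fields: `ut` is the time
derivative, `Du j` the partial derivative in direction `j`, `DDu j` the second partial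
derivative in direction `j` twice, `Dp j` the partial derivative of the pressure. Only what the
energy method needs is required. -/
structure Sol (ν T : ℝ) (f u : ℝ → (Fin 3 → ℝ) → Fin 3 → ℝ) (p : ℝ → (Fin 3 → ℝ) → ℝ)
    (ut : ℝ → (Fin 3 → ℝ) → Fin 3 → ℝ) (Du DDu : Fin 3 → ℝ → (Fin 3 → ℝ) → Fin 3 → ℝ)
    (Dp : Fin 3 → ℝ → (Fin 3 → ℝ) → ℝ) : Prop where
  per_u : ∀ t ∈ Ioo 0 T, ∀ (j : Fin 3) x, u t (x + Pi.single j 1) = u t x
  per_p : ∀ t ∈ Ioo 0 T, ∀ (j : Fin 3) x, p t (x + Pi.single j 1) = p t x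
  cont_u : ∀ i, ContinuousOn (fun z : ℝ × (Fin 3 → ℝ) => u z.1 z.2 i) (Icc 0 T ×ˢ univ)
  cont_ut : ∀ i, ContinuousOn (fun z : ℝ × (Fin 3 → ℝ) => ut z.1 z.2 i) (Ioo 0 T ×ˢ univ)
  cont_Du : ∀ j i, ContinuousOn (fun z : ℝ × (Fin 3 → ℝ) => Du j z.1 z.2 i) (Icc 0 T ×ˢ univ)
  cont_DDu : ∀ t ∈ Ioo 0 T, ∀ j i, Continuous (fun x => DDu j t x i)
  cont_p : ∀ t ∈ Ioo 0 T, Continuous (p t)
  cont_Dp : ∀ t ∈ Ioo 0 T, ∀ j, Continuous (Dp j t)
  d_ut : ∀ t ∈ Ioo 0 T, ∀ x i, HasDerivAt (fun s => u s x i) (ut t x i) t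
  d_Du : ∀ t ∈ Ioo 0 T, ∀ (j : Fin 3) x i,
    HasLineDerivAt ℝ (fun y => u t y i) (Du j t x i) x (Pi.single j 1)
  d_DDu : ∀ t ∈ Ioo 0 T, ∀ (j : Fin 3) x i,
    HasLineDerivAt ℝ (fun y => Du j t y i) (DDu j t x i) x (Pi.single j 1)
  d_Dp : ∀ t ∈ Ioo 0 T, ∀ (j : Fin 3) x, HasLineDerivAt ℝ (p t) (Dp j t x) x (Pi.single j 1)
  eqn : ∀ t ∈ Ioo 0 T, ∀ x i,
    ut t x i + ∑ j, u t x j * Du j t x i = -Dp i t x + ν * ∑ j, DDu j t x i + f t x i
  div : ∀ t ∈ Ioo 0 T, ∀ x, ∑ j, Du j t x j = 0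

/-- The partial derivative of a periodic function is periodic. -/
theorem partial_periodic {F G : (Fin 3 → ℝ) → ℝ} {v c : Fin 3 → ℝ}
    (hd : ∀ x, HasLineDerivAt ℝ F (G x) x v) (hper : ∀ x, F (x + c) = F x) (x : Fin 3 → ℝ) :
    G (x + c) = G x := by
  have h1 := hd (x + c)
  have h2 := hd x
  unfold HasLineDerivAt at h1 h2
  have h3 : (fun t : ℝ => F (x + c + t • v)) = fun t : ℝ => F (x + t • v) := by
    funext t
    rw [add_right_comm, hper]
  rw [h3] at h1
  exact h1.unique h2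

theorem quad_bound {a C x y : ℝ} (h : |a| ≤ C) : -(2 * (x * y * a)) ≤ C * (x ^ 2 + y ^ 2) := by
  obtain ⟨h1, h2⟩ := abs_le.1 h
  nlinarith [mul_nonneg (by linarith : 0 ≤ C + a) (sq_nonneg (x + y)),
    mul_nonneg (by linarith : 0 ≤ C - a) (sq_nonneg (x - y))]

/-- The pointwise energy inequality, as pure algebra. -/
theorem pointwise_ineq {ν C pr : ℝ} (hν : 0 ≤ ν) {u v ut vt f Dp Dq : Fin 3 → ℝ}
    {Du Dv DDu DDv : Fin 3 → Fin 3 → ℝ}
    (hu : ∀ i, ut i + ∑ j, u j * Du j i = -Dp i + ν * ∑ j, DDu j i + f i)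
    (hv : ∀ i, vt i + ∑ j, v j * Dv j i = -Dq i + ν * ∑ j, DDv j i + f i)
    (hdu : ∑ j, Du j j = 0) (hdv : ∑ j, Dv j j = 0) (hC : ∀ j i, |Du j i| ≤ C) :
    ∑ i, 2 * (u i - v i) * (ut i - vt i) ≤
      ∑ j, (-(Dv j j * ∑ i, (u i - v i) ^ 2 + v j * ∑ i, 2 * (u i - v i) * (Du j i - Dv j i))
        - 2 * ((Du j j - Dv j j) * pr + (u j - v j) * (Dp j - Dq j))
        + 2 * ν * ∑ i, ((Du j i - Dv j i) * (Du j i - Dv j i) +
            (u i - v i) * (DDu j i - DDv j i)))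
      + 6 * C * ∑ i, (u i - v i) ^ 2 := by
  have e : ∀ i, ut i - vt i = -(∑ j, u j * Du j i - ∑ j, v j * Dv j i) - (Dp i - Dq i) +
      ν * (∑ j, DDu j i - ∑ j, DDv j i) := fun i => by linarith [hu i, hv i]
  have q : ∀ j i, -(2 * ((u i - v i) * (u j - v j) * Du j i)) ≤
      C * ((u i - v i) ^ 2 + (u j - v j) ^ 2) := fun j i => quad_bound (hC j i)
  have s : ∀ j i, 0 ≤ ν * ((Du j i - Dv j i) * (Du j i - Dv j i)) :=
    fun j i => mul_nonneg hν (mul_self_nonneg _)
  simp only [e]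
  simp only [Fin.sum_univ_three] at hdu hdv ⊢
  have h1 : Dv 2 2 = -Dv 0 0 - Dv 1 1 := by linarith
  have h2 : Du 2 2 = -Du 0 0 - Du 1 1 := by linarith
  have q00 := q 0 0
  have q01 := q 0 1
  have q02 := q 0 2
  have q10 := q 1 0
  have q11 := q 1 1
  have q12 := q 1 2
  have q20 := q 2 0
  have q21 := q 2 1
  have q22 := q 2 2
  have s00 := s 0 0
  have s01 := s 0 1
  have s02 := s 0 2
  have s10 := s 1 0
  have s11 := s 1 1
  have s12 := s 1 2
  have s20 := s 2 0
  have s21 := s 2 1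
  have s22 := s 2 2
  rw [h1, h2] at s22 ⊢
  rw [h2] at q22
  linarith

variable {ν T : ℝ} {f u v : ℝ → (Fin 3 → ℝ) → Fin 3 → ℝ} {p q : ℝ → (Fin 3 → ℝ) → ℝ}
  {ut vt : ℝ → (Fin 3 → ℝ) → Fin 3 → ℝ} {Du DDu Dv DDv : Fin 3 → ℝ → (Fin 3 → ℝ) → Fin 3 → ℝ}
  {Dp Dq : Fin 3 → ℝ → (Fin 3 → ℝ) → ℝ}

theorem Sol.cont_u_slice (h : Sol ν T f u p ut Du DDu Dp) {t : ℝ} (ht : t ∈ Icc 0 T) (i : Fin 3) :
    Continuous (fun x => u t x i) :=
  continuous_slice (g := fun t x => u t x i) (h.cont_u i) ht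

theorem Sol.cont_ut_slice (h : Sol ν T f u p ut Du DDu Dp) {t : ℝ} (ht : t ∈ Ioo 0 T)
    (i : Fin 3) : Continuous (fun x => ut t x i) :=
  continuous_slice (g := fun t x => ut t x i) (h.cont_ut i) ht

theorem Sol.cont_Du_slice (h : Sol ν T f u p ut Du DDu Dp) {t : ℝ} (ht : t ∈ Icc 0 T)
    (j i : Fin 3) : Continuous (fun x => Du j t x i) :=
  continuous_slice (g := fun t x => Du j t x i) (h.cont_Du j i) ht

theorem Sol.per_Du (h : Sol ν T f u p ut Du DDu Dp) {t : ℝ} (ht : t ∈ Ioo 0 T) (j k i : Fin 3)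
    (x : Fin 3 → ℝ) : Du j t (x + Pi.single k 1) i = Du j t x i :=
  partial_periodic (F := fun y => u t y i) (G := fun y => Du j t y i)
    (fun y => h.d_Du t ht j y i) (fun y => by rw [h.per_u t ht]) x

/-- The integrated energy inequality at one time. -/
theorem energy_ineq (hν : 0 ≤ ν) (hu : Sol ν T f u p ut Du DDu Dp)
    (hv : Sol ν T f v q vt Dv DDv Dq) (a : Fin 3 → ℝ) {C t : ℝ} (ht : t ∈ Ioo 0 T)
    (hC : ∀ x ∈ cube a, ∀ j i, |Du j t x i| ≤ C) :
    ∫ x in cube a, ∑ i, 2 * (u t x i - v t x i) * (ut t x i - vt t x i) ≤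
      6 * C * ∫ x in cube a, ∑ i, (u t x i - v t x i) ^ 2 := by
  have ht' : t ∈ Icc 0 T := Ioo_subset_Icc_self ht
  have cu := hu.cont_u_slice ht'
  have cv := hv.cont_u_slice ht'
  have cut := hu.cont_ut_slice ht
  have cvt := hv.cont_ut_slice ht
  have cDu := hu.cont_Du_slice ht'
  have cDv := hv.cont_Du_slice ht'
  have cDDu := hu.cont_DDu t ht
  have cDDv := hv.cont_DDu t ht
  have cp := hu.cont_p t ht
  have cq := hv.cont_p t ht
  have cDp := hu.cont_Dp t ht
  have cDq := hv.cont_Dp t ht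
  set F : Fin 3 → (Fin 3 → ℝ) → ℝ := fun j x =>
    -(v t x j * ∑ i, (u t x i - v t x i) ^ 2) - 2 * ((u t x j - v t x j) * (p t x - q t x))
      + 2 * ν * ∑ i, (u t x i - v t x i) * (Du j t x i - Dv j t x i) with hF
  set G : Fin 3 → (Fin 3 → ℝ) → ℝ := fun j x =>
    -(Dv j t x j * ∑ i, (u t x i - v t x i) ^ 2 +
        v t x j * ∑ i, 2 * (u t x i - v t x i) * (Du j t x i - Dv j t x i))
      - 2 * ((Du j t x j - Dv j t x j) * (p t x - q t x) +
          (u t x j - v t x j) * (Dp j t x - Dq j t x))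
      + 2 * ν * ∑ i, ((Du j t x i - Dv j t x i) * (Du j t x i - Dv j t x i) +
          (u t x i - v t x i) * (DDu j t x i - DDv j t x i)) with hG
  have cG : ∀ j, Continuous (G j) := by
    intro j
    simp only [hG]
    fun_prop
  have hI : ∀ j, ∫ x in cube a, G j x = 0 := by
    intro j
    refine integral_partial_eq_zero (F j) (G j) j a (cG j) (fun x => ?_) (fun x => ?_)
    · have dw : ∀ i, HasDerivAt
          (fun s : ℝ => u t (x + s • (Pi.single j (1 : ℝ) : Fin 3 → ℝ)) i -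
            v t (x + s • (Pi.single j (1 : ℝ) : Fin 3 → ℝ)) i)
          (Du j t x i - Dv j t x i) 0 :=
        fun i => HasDerivAt.sub (hu.d_Du t ht j x i) (hv.d_Du t ht j x i)
      have dDw : ∀ i, HasDerivAt
          (fun s : ℝ => Du j t (x + s • (Pi.single j (1 : ℝ) : Fin 3 → ℝ)) i -
            Dv j t (x + s • (Pi.single j (1 : ℝ) : Fin 3 → ℝ)) i)
          (DDu j t x i - DDv j t x i) 0 :=
        fun i => HasDerivAt.sub (hu.d_DDu t ht j x i) (hv.d_DDu t ht j x i)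
      have dpq : HasDerivAt
          (fun s : ℝ => p t (x + s • (Pi.single j (1 : ℝ) : Fin 3 → ℝ)) -
            q t (x + s • (Pi.single j (1 : ℝ) : Fin 3 → ℝ)))
          (Dp j t x - Dq j t x) 0 :=
        HasDerivAt.sub (hu.d_Dp t ht j x) (hv.d_Dp t ht j x)
      have dv : HasDerivAt (fun s : ℝ => v t (x + s • (Pi.single j (1 : ℝ) : Fin 3 → ℝ)) j)
          (Dv j t x j) 0 := hv.d_Du t ht j x j
      have d1 := HasDerivAt.fun_sum (u := Finset.univ) (fun i _ => (dw i).fun_pow 2)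
      have d2 := HasDerivAt.fun_sum (u := Finset.univ) (fun i _ => (dw i).fun_mul (dDw i))
      have d3 := (((dv.fun_mul d1).fun_neg).fun_sub (((dw j).fun_mul dpq).const_mul 2)).fun_add
        (d2.const_mul (2 * ν))
      unfold HasLineDerivAt
      refine HasDerivAt.congr_deriv d3 ?_
      simp only [hG, zero_smul, add_zero, Nat.cast_ofNat, Nat.add_one_sub_one, pow_one]
    · simp only [hF, hu.per_u t ht, hv.per_u t ht, hu.per_p t ht, hv.per_p t ht,
        hu.per_Du ht, hv.per_Du ht]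
  have cW : Continuous (fun x => ∑ i, (u t x i - v t x i) ^ 2) := by fun_prop
  have cS : Continuous (fun x => ∑ j, G j x) := by fun_prop
  have h1 : ∫ x in cube a, (∑ j, G j x + 6 * C * ∑ i, (u t x i - v t x i) ^ 2) =
      6 * C * ∫ x in cube a, ∑ i, (u t x i - v t x i) ^ 2 := by
    rw [integral_add (integrableOn_cube cS a) ((integrableOn_cube cW a).const_mul _),
      integral_finsetSum _ (fun j _ => integrableOn_cube (cG j) a), integral_const_mul]
    simp [hI]
  rw [← h1]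
  refine setIntegral_mono_on (integrableOn_cube (by fun_prop) a)
    (integrableOn_cube (by fun_prop) a) (measurableSet_cube a) (fun x hx => ?_)
  exact pointwise_ineq (pr := p t x - q t x) (Du := fun j i => Du j t x i)
    (Dv := fun j i => Dv j t x i) (DDu := fun j i => DDu j t x i) (DDv := fun j i => DDv j t x i)
    (Dp := fun j => Dp j t x) (Dq := fun j => Dq j t x) hν (hu.eqn t ht x) (hv.eqn t ht x)
    (hu.div t ht x) (hv.div t ht x) (hC x hx)

/-- Uniqueness of the velocity. -/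
theorem velocity_unique (hν : 0 ≤ ν) (hu : Sol ν T f u p ut Du DDu Dp)
    (hv : Sol ν T f v q vt Dv DDv Dq) (h0 : ∀ x, u 0 x = v 0 x) :
    ∀ t ∈ Icc 0 T, ∀ x, u t x = v t x := by
  intro t ht a
  have hb : ∀ j i, ∃ C : ℝ, 0 ≤ C ∧ ∀ t ∈ Icc 0 T, ∀ x ∈ cube a, |Du j t x i| ≤ C :=
    fun j i => exists_bound (g := fun t x => Du j t x i) (hu.cont_Du j i) isCompact_Icc
      subset_rfl a
  choose C hC0 hC using hb
  have hCs : ∀ j i, C j i ≤ ∑ j, ∑ i, C j i := by
    intro j i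
    refine le_trans (Finset.single_le_sum (f := fun i => C j i) (fun i _ => hC0 j i)
      (Finset.mem_univ i)) ?_
    exact Finset.single_le_sum (f := fun j => ∑ i, C j i)
      (fun j _ => Finset.sum_nonneg fun i _ => hC0 j i) (Finset.mem_univ j)
  have cW : ContinuousOn
      (fun z : ℝ × (Fin 3 → ℝ) => ∑ i, (u z.1 z.2 i - v z.1 z.2 i) ^ 2) (Icc 0 T ×ˢ univ) :=
    continuousOn_finsetSum _ fun i _ => ((hu.cont_u i).sub (hv.cont_u i)).pow 2
  have hsub : (Ioo 0 T ×ˢ (univ : Set (Fin 3 → ℝ))) ⊆ Icc 0 T ×ˢ univ :=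
    prod_mono Ioo_subset_Icc_self subset_rfl
  have cW' : ContinuousOn (fun z : ℝ × (Fin 3 → ℝ) =>
      ∑ i, 2 * (u z.1 z.2 i - v z.1 z.2 i) * (ut z.1 z.2 i - vt z.1 z.2 i)) (Ioo 0 T ×ˢ univ) :=
    continuousOn_finsetSum _ fun i _ =>
      (continuousOn_const.mul (((hu.cont_u i).sub (hv.cont_u i)).mono hsub)).mul
        ((hu.cont_ut i).sub (hv.cont_ut i))
  have hE := gronwall_zero (E := fun t => ∫ x in cube a, ∑ i, (u t x i - v t x i) ^ 2)
    (E' := fun t => ∫ x in cube a, ∑ i, 2 * (u t x i - v t x i) * (ut t x i - vt t x i))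
    (T := T) (K := 6 * ∑ j, ∑ i, C j i)
    (continuousOn_integral_cube (g := fun t x => ∑ i, (u t x i - v t x i) ^ 2) cW
      isCompact_Icc a)
    (fun s hs => hasDerivAt_integral_cube (g := fun t x => ∑ i, (u t x i - v t x i) ^ 2)
      (g' := fun t x => ∑ i, 2 * (u t x i - v t x i) * (ut t x i - vt t x i)) isOpen_Ioo
      (fun r hr => continuous_slice (g := fun t x => ∑ i, (u t x i - v t x i) ^ 2) cW
        (Ioo_subset_Icc_self hr)) cW'
      (fun r hr x => by
        have := HasDerivAt.fun_sum (u := Finset.univ)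
          (fun i _ => ((hu.d_ut r hr x i).fun_sub (hv.d_ut r hr x i)).fun_pow 2)
        refine this.congr_deriv ?_
        simp only [Nat.cast_ofNat, Nat.add_one_sub_one, pow_one]) a hs)
    (fun s hs => energy_ineq hν hu hv a hs
      (fun x hx j i => (hC j i s (Ioo_subset_Icc_self hs) x hx).trans (hCs j i)))
    (by simp [h0])
  have hz := eq_zero_of_integral_cube (g := fun x => ∑ i, (u t x i - v t x i) ^ 2)
    (continuous_slice (g := fun t x => ∑ i, (u t x i - v t x i) ^ 2) cW ht)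
    (fun x => Finset.sum_nonneg fun i _ => sq_nonneg _) a (hE t ht) a (self_mem_cube a)
  funext i
  have := (Finset.sum_eq_zero_iff_of_nonneg (fun i _ => sq_nonneg (u t a i - v t a i))).1 hz i
    (Finset.mem_univ i)
  exact sub_eq_zero.1 (pow_eq_zero_iff two_ne_zero |>.1 this)

/-- The pressure gradients agree at interior times. -/
theorem pressure_grad_unique (hν : 0 ≤ ν) (hu : Sol ν T f u p ut Du DDu Dp)
    (hv : Sol ν T f v q vt Dv DDv Dq) (h0 : ∀ x, u 0 x = v 0 x) :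
    ∀ t ∈ Ioo 0 T, ∀ i x, Dp i t x = Dq i t x := by
  have huv := velocity_unique hν hu hv h0
  intro t ht i x
  have ht' : t ∈ Icc 0 T := Ioo_subset_Icc_self ht
  have e1 : ut t x i = vt t x i := by
    refine (hu.d_ut t ht x i).unique ((hv.d_ut t ht x i).congr_of_eventuallyEq ?_)
    filter_upwards [isOpen_Ioo.mem_nhds ht] with s hs
    rw [huv s (Ioo_subset_Icc_self hs)]
  have e2 : ∀ j y, Du j t y i = Dv j t y i := by
    intro j y
    have h1 := hu.d_Du t ht j y i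
    have h2 := hv.d_Du t ht j y i
    simp only [huv t ht'] at h1
    exact h1.unique h2
  have e3 : ∀ j, DDu j t x i = DDv j t x i := by
    intro j
    have h1 := hu.d_DDu t ht j x i
    have h2 := hv.d_DDu t ht j x i
    simp only [e2] at h1
    exact h1.unique h2
  have h1 := hu.eqn t ht x i
  have h2 := hv.eqn t ht x i
  simp only [e1, e2, e3, huv t ht'] at h1
  linarith

/-- At interior times the pressures differ by a spatial constant. -/
theorem pressure_sub_const (hν : 0 ≤ ν) (hu : Sol ν T f u p ut Du DDu Dp)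
    (hv : Sol ν T f v q vt Dv DDv Dq) (h0 : ∀ x, u 0 x = v 0 x) :
    ∀ t ∈ Ioo 0 T, ∀ x y, p t x - q t x = p t y - q t y := by
  intro t ht
  refine const_of_partials_zero (g := fun x => p t x - q t x) fun i x => ?_
  have h : HasDerivAt
      (fun s : ℝ => p t (x + s • (Pi.single i (1 : ℝ) : Fin 3 → ℝ)) -
        q t (x + s • (Pi.single i (1 : ℝ) : Fin 3 → ℝ))) (Dp i t x - Dq i t x) 0 :=
    HasDerivAt.sub (hu.d_Dp t ht i x) (hv.d_Dp t ht i x)
  rw [pressure_grad_unique hν hu hv h0 t ht i x, sub_self] at h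
  exact h

/-- Uniqueness of the pressure at interior times, given equal means over a unit cube. -/
theorem pressure_unique_Ioo (hν : 0 ≤ ν) (hu : Sol ν T f u p ut Du DDu Dp)
    (hv : Sol ν T f v q vt Dv DDv Dq) (h0 : ∀ x, u 0 x = v 0 x) (a : Fin 3 → ℝ)
    (hm : ∀ t ∈ Ioo 0 T, ∫ x in cube a, p t x = ∫ x in cube a, q t x) :
    ∀ t ∈ Ioo 0 T, ∀ x, p t x = q t x := by
  intro t ht x
  have h1 : ∫ y in cube a, (p t y - q t y) = 0 := by
    rw [integral_sub (integrableOn_cube (hu.cont_p t ht) a) (integrableOn_cube (hv.cont_p t ht) a),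
      hm t ht, sub_self]
  have h2 : (fun y => p t y - q t y) = fun _ => p t x - q t x :=
    funext fun y => pressure_sub_const hν hu hv h0 t ht y x
  rw [h2] at h1
  simp only [integral_const, MeasurableSet.univ, measureReal_def, Measure.restrict_apply,
    univ_inter, volume_cube, ENNReal.toReal_one, smul_eq_mul, one_mul] at h1
  exact sub_eq_zero.1 h1

/-- Uniqueness of the pressure on the closed interval, for pressures continuous in time. -/
theorem pressure_unique (hν : 0 ≤ ν) (hT : 0 < T) (hu : Sol ν T f u p ut Du DDu Dp)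
    (hv : Sol ν T f v q vt Dv DDv Dq) (h0 : ∀ x, u 0 x = v 0 x) (a : Fin 3 → ℝ)
    (hm : ∀ t ∈ Ioo 0 T, ∫ x in cube a, p t x = ∫ x in cube a, q t x)
    (hp : ContinuousOn (fun z : ℝ × (Fin 3 → ℝ) => p z.1 z.2) (Icc 0 T ×ˢ univ))
    (hq : ContinuousOn (fun z : ℝ × (Fin 3 → ℝ) => q z.1 z.2) (Icc 0 T ×ˢ univ)) :
    ∀ t ∈ Icc 0 T, ∀ x, p t x = q t x := by
  intro t ht x
  have h : EqOn (fun s => p s x) (fun s => q s x) (Ioo 0 T) :=
    fun s hs => pressure_unique_Ioo hν hu hv h0 a hm s hs x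
  exact h.of_subset_closure (continuousOn_time hp x) (continuousOn_time hq x)
    Ioo_subset_Icc_self (by rw [closure_Ioo hT.ne]) ht

end Vale.Agent.P113.Energy
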