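import Mathlib

/-!
Integrals over unit cubes of `Fin 3 → ℝ`: the integral of a continuous partial derivative of a
periodic function vanishes; differentiation in time under the integral sign; continuity in time.
-/

open MeasureTheory Set Filter Topology

namespace Vale.Agent.P113.Energy

/-- The closed unit cube with lower corner `a`. -/
def cube (a : Fin 3 → ℝ) : Set (Fin 3 → ℝ) := Icc a (fun j => a j + 1)

theorem isCompact_cube (a : Fin 3 → ℝ) : IsCompact (cube a) := isCompact_Icc

theorem measurableSet_cube (a : Fin 3 → ℝ) : MeasurableSet (cube a) := measurableSet_Icc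

theorem self_mem_cube (a : Fin 3 → ℝ) : a ∈ cube a :=
  ⟨le_rfl, fun j => by simp⟩

theorem volume_cube (a : Fin 3 → ℝ) : volume (cube a) = 1 := by
  simp [cube, Real.volume_Icc_pi]

theorem integrableOn_cube {g : (Fin 3 → ℝ) → ℝ} (hg : Continuous g) (a : Fin 3 → ℝ) :
    IntegrableOn g (cube a) :=
  hg.continuousOn.integrableOn_compact (isCompact_cube a)

theorem insertNth_add_single (i : Fin 3) (s r : ℝ) (y : Fin 2 → ℝ) :
    (i.insertNth s y : Fin 3 → ℝ) + r • (Pi.single i (1 : ℝ) : Fin 3 → ℝ) =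
      i.insertNth (s + r) y := by
  funext j
  refine Fin.succAboveCases i ?_ (fun k => ?_) j
  · simp
  · simp [Fin.succAbove_ne]

theorem continuous_insertNth_left (i : Fin 3) (y : Fin 2 → ℝ) :
    Continuous (fun s : ℝ => (i.insertNth s y : Fin 3 → ℝ)) :=
  Continuous.finInsertNth i continuous_id continuous_const

/-- The integral over a unit cube of a continuous partial derivative of a periodic function
is zero. -/
theorem integral_partial_eq_zero (F G : (Fin 3 → ℝ) → ℝ) (i : Fin 3) (a : Fin 3 → ℝ)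
    (hG : Continuous G) (hd : ∀ x, HasLineDerivAt ℝ F (G x) x (Pi.single i 1))
    (hper : ∀ x, F (x + Pi.single i 1) = F x) :
    ∫ x in cube a, G x = 0 := by
  set e : ℝ × (Fin 2 → ℝ) ≃ᵐ (Fin 3 → ℝ) :=
    (MeasurableEquiv.piFinSuccAbove (fun _ => ℝ) i).symm with he
  have hem : MeasurePreserving e :=
    (volume_preserving_piFinSuccAbove (fun _ : Fin 3 => ℝ) i).symm _
  have heπ : (e ⁻¹' cube a) = Icc (a i) (a i + 1) ×ˢ
      Icc (fun j => a (i.succAbove j)) (fun j => a (i.succAbove j) + 1) :=
    ((Fin.insertNthOrderIso (fun _ => ℝ) i).preimage_Icc _ _).trans (Icc_prod_eq _ _)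
  have hint : IntegrableOn (fun z => G (e z)) (Icc (a i) (a i + 1) ×ˢ
      Icc (fun j => a (i.succAbove j)) (fun j => a (i.succAbove j) + 1)) := by
    have := integrableOn_cube hG a
    rwa [← hem.integrableOn_comp_preimage e.measurableEmbedding, heπ] at this
  rw [← hem.map_eq, setIntegral_map_equiv, heπ, Measure.volume_eq_prod]
  rw [Measure.volume_eq_prod, IntegrableOn, ← Measure.prod_restrict] at hint
  rw [← Measure.prod_restrict, integral_prod_symm _ hint]
  refine integral_eq_zero_of_ae (Eventually.of_forall fun y => ?_)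
  have hey : ∀ s : ℝ, e (s, y) = i.insertNth s y := fun s => rfl
  simp only [hey, Pi.zero_apply]
  have hder : ∀ s : ℝ, HasDerivAt (fun s : ℝ => F (i.insertNth s y)) (G (i.insertNth s y)) s := by
    intro s
    have h1 : HasDerivAt (fun r : ℝ => F (i.insertNth (s + r) y)) (G (i.insertNth s y)) 0 := by
      have := hd (i.insertNth s y)
      unfold HasLineDerivAt at this
      simpa only [insertNth_add_single] using this
    have h2 : HasDerivAt (fun r : ℝ => F (i.insertNth (s + r) y)) (G (i.insertNth s y))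
        (s - s) := by simpa using h1
    have h3 := h2.comp_sub_const s s
    simpa using h3
  rw [integral_Icc_eq_integral_Ioc, ← intervalIntegral.integral_of_le (by linarith),
    intervalIntegral.integral_eq_sub_of_hasDerivAt (fun s _ => hder s)
      ((hG.comp (continuous_insertNth_left i y)).intervalIntegrable _ _)]
  have := hper (i.insertNth (a i) y)
  rw [← one_smul ℝ (Pi.single i (1 : ℝ) : Fin 3 → ℝ), insertNth_add_single] at this
  rw [this, sub_self]

/-- A jointly continuous function is continuous in space at each time. -/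
theorem continuous_slice {g : ℝ → (Fin 3 → ℝ) → ℝ} {S : Set ℝ}
    (hg : ContinuousOn (fun z : ℝ × (Fin 3 → ℝ) => g z.1 z.2) (S ×ˢ univ)) {t : ℝ}
    (ht : t ∈ S) : Continuous (g t) := by
  have h : Continuous (fun x : Fin 3 → ℝ => ((t, x) : ℝ × (Fin 3 → ℝ))) := by fun_prop
  exact hg.comp_continuous h (fun x => ⟨ht, mem_univ _⟩)

/-- A jointly continuous function is continuous in time at each point. -/
theorem continuousOn_time {g : ℝ → (Fin 3 → ℝ) → ℝ} {S : Set ℝ}
    (hg : ContinuousOn (fun z : ℝ × (Fin 3 → ℝ) => g z.1 z.2) (S ×ˢ univ)) (x : Fin 3 → ℝ) :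
    ContinuousOn (fun t => g t x) S := by
  have h : Continuous (fun t : ℝ => ((t, x) : ℝ × (Fin 3 → ℝ))) := by fun_prop
  exact hg.comp h.continuousOn (fun t ht => ⟨ht, mem_univ _⟩)

/-- A jointly continuous function is bounded on a compact time set times a cube. -/
theorem exists_bound {g : ℝ → (Fin 3 → ℝ) → ℝ} {S K : Set ℝ}
    (hg : ContinuousOn (fun z : ℝ × (Fin 3 → ℝ) => g z.1 z.2) (S ×ˢ univ))
    (hK : IsCompact K) (hKS : K ⊆ S) (a : Fin 3 → ℝ) :
    ∃ C : ℝ, 0 ≤ C ∧ ∀ t ∈ K, ∀ x ∈ cube a, |g t x| ≤ C := by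
  have hc : IsCompact (K ×ˢ cube a) := hK.prod (isCompact_cube a)
  obtain ⟨C, hC⟩ := hc.exists_bound_of_continuousOn
    (hg.mono (prod_mono hKS (subset_univ _)))
  refine ⟨max C 0, le_max_right _ _, fun t ht x hx => ?_⟩
  exact le_trans (hC (t, x) ⟨ht, hx⟩) (le_max_left _ _)

/-- Continuity in time of the integral over a cube. -/
theorem continuousOn_integral_cube {g : ℝ → (Fin 3 → ℝ) → ℝ} {K : Set ℝ}
    (hg : ContinuousOn (fun z : ℝ × (Fin 3 → ℝ) => g z.1 z.2) (K ×ˢ univ))
    (hK : IsCompact K) (a : Fin 3 → ℝ) :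
    ContinuousOn (fun t => ∫ x in cube a, g t x) K := by
  obtain ⟨C, -, hC⟩ := exists_bound hg hK subset_rfl a
  have : IsFiniteMeasure (volume.restrict (cube a)) :=
    ⟨by simp [volume_cube]⟩
  refine continuousOn_of_dominated (bound := fun _ => C) ?_ ?_ (integrable_const C) ?_
  · intro t ht
    exact (continuous_slice hg ht).aestronglyMeasurable
  · intro t ht
    filter_upwards [ae_restrict_mem (measurableSet_cube a)] with x hx
    exact hC t ht x hx
  · exact Eventually.of_forall fun x => continuousOn_time hg x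

/-- Differentiation in time of the integral over a cube. -/
theorem hasDerivAt_integral_cube {g g' : ℝ → (Fin 3 → ℝ) → ℝ} {S : Set ℝ} (hS : IsOpen S)
    (hg : ∀ t ∈ S, Continuous (g t))
    (hg' : ContinuousOn (fun z : ℝ × (Fin 3 → ℝ) => g' z.1 z.2) (S ×ˢ univ))
    (hd : ∀ t ∈ S, ∀ x, HasDerivAt (fun s => g s x) (g' t x) t) (a : Fin 3 → ℝ)
    {t : ℝ} (ht : t ∈ S) :
    HasDerivAt (fun s => ∫ x in cube a, g s x) (∫ x in cube a, g' t x) t := by
  obtain ⟨K, hKn, hKS, hK⟩ := local_compact_nhds (hS.mem_nhds ht)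
  obtain ⟨C, -, hC⟩ := exists_bound hg' hK hKS a
  have : IsFiniteMeasure (volume.restrict (cube a)) :=
    ⟨by simp [volume_cube]⟩
  refine (hasDerivAt_integral_of_dominated_loc_of_deriv_le (μ := volume.restrict (cube a))
    (F := g) (F' := g') (bound := fun _ => C) hKn ?_ ?_ ?_ ?_ (integrable_const C) ?_).2
  · filter_upwards [hS.mem_nhds ht] with s hs
    exact (hg s hs).aestronglyMeasurable
  · exact integrableOn_cube (hg t ht) a
  · exact (continuous_slice hg' ht).aestronglyMeasurable
  · filter_upwards [ae_restrict_mem (measurableSet_cube a)] with x hx s hs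
    exact hC s hs x hx
  · exact Eventually.of_forall fun x s hs => hd s (hKS hs) x

/-- A continuous nonnegative function with integral at most zero over a cube vanishes on it. -/
theorem eq_zero_of_integral_cube {g : (Fin 3 → ℝ) → ℝ} (hg : Continuous g) (h0 : ∀ x, 0 ≤ g x)
    (a : Fin 3 → ℝ) (hI : ∫ x in cube a, g x ≤ 0) : ∀ x ∈ cube a, g x = 0 := by
  have h1 : ∫ x in cube a, g x = 0 :=
    le_antisymm hI (integral_nonneg fun x => h0 x)
  have h2 : g =ᵐ[volume.restrict (cube a)] 0 :=
    (integral_eq_zero_iff_of_nonneg (fun x => h0 x) (integrableOn_cube hg a)).1 h1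
  have h3 : cube a ⊆ closure (interior (cube a)) := by
    rw [cube, ← pi_univ_Icc, interior_pi_set finite_univ, closure_pi_set]
    refine pi_mono fun j _ => ?_
    rw [interior_Icc, closure_Ioo (by linarith)]
  exact Measure.eqOn_of_ae_eq h2 hg.continuousOn continuousOn_const h3

/-- Gronwall in the form used by the energy method. -/
theorem gronwall_zero {E E' : ℝ → ℝ} {T K : ℝ} (hc : ContinuousOn E (Icc 0 T))
    (hd : ∀ t ∈ Ioo 0 T, HasDerivAt E (E' t) t) (hle : ∀ t ∈ Ioo 0 T, E' t ≤ K * E t)
    (h0 : E 0 = 0) : ∀ t ∈ Icc 0 T, E t ≤ 0 := by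
  intro t ht
  have hg : AntitoneOn (fun s => Real.exp (-K * s) * E s) (Icc 0 T) := by
    have hder : ∀ s ∈ Ioo 0 T, HasDerivAt (fun s => Real.exp (-K * s) * E s)
        (Real.exp (-K * s) * (E' s - K * E s)) s := by
      intro s hs
      have h1 : HasDerivAt (fun s => Real.exp (-K * s)) (Real.exp (-K * s) * (-K * 1)) s :=
        ((hasDerivAt_id s).const_mul (-K)).exp
      have h2 := h1.mul (hd s hs)
      exact h2.congr_deriv (by ring)
    refine antitoneOn_of_deriv_nonpos (convex_Icc 0 T) ?_ ?_ ?_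
    · exact (by fun_prop : Continuous fun s => Real.exp (-K * s)).continuousOn.mul hc
    · rw [interior_Icc]
      exact fun s hs => (hder s hs).differentiableAt.differentiableWithinAt
    · rw [interior_Icc]
      intro s hs
      rw [(hder s hs).deriv]
      exact mul_nonpos_of_nonneg_of_nonpos (Real.exp_pos _).le (by linarith [hle s hs])
  have h1 := hg (left_mem_Icc.2 (ht.1.trans ht.2)) ht ht.1
  simp only [h0, mul_zero] at h1
  have h2 := Real.exp_pos (-K * t)
  by_contra h
  push Not at h
  have := mul_pos h2 h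
  linarith

/-- A function on `Fin 3 → ℝ` whose three partial derivatives vanish is constant. -/
theorem const_of_partials_zero {g : (Fin 3 → ℝ) → ℝ}
    (hd : ∀ i x, HasLineDerivAt ℝ g 0 x (Pi.single i 1)) (x y : Fin 3 → ℝ) : g x = g y := by
  have h1 : ∀ (i : Fin 3) (x : Fin 3 → ℝ) (r : ℝ),
      g (x + r • (Pi.single i (1 : ℝ) : Fin 3 → ℝ)) = g x := by
    intro i x r
    have hder : ∀ s : ℝ,
        HasDerivAt (fun s : ℝ => g (x + s • (Pi.single i (1 : ℝ) : Fin 3 → ℝ))) 0 s := by
      intro s
      have h := hd i (x + s • (Pi.single i (1 : ℝ) : Fin 3 → ℝ))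
      unfold HasLineDerivAt at h
      have h2 : HasDerivAt (fun r : ℝ => g (x + s • (Pi.single i (1 : ℝ) : Fin 3 → ℝ) +
          r • (Pi.single i (1 : ℝ) : Fin 3 → ℝ))) 0 (s - s) := by simpa using h
      have h3 := h2.comp_sub_const s s
      have h4 : (fun r : ℝ => g (x + s • (Pi.single i (1 : ℝ) : Fin 3 → ℝ) +
          (r - s) • (Pi.single i (1 : ℝ) : Fin 3 → ℝ))) =
          fun r : ℝ => g (x + r • (Pi.single i (1 : ℝ) : Fin 3 → ℝ)) := by
        funext r
        rw [add_assoc, ← add_smul, add_sub_cancel]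
      rwa [h4] at h3
    have := is_const_of_deriv_eq_zero (fun s => (hder s).differentiableAt)
      (fun s => (hder s).deriv) r 0
    simpa using this
  have h2 : y = x + (y 0 - x 0) • (Pi.single 0 (1 : ℝ) : Fin 3 → ℝ) +
      (y 1 - x 1) • (Pi.single 1 (1 : ℝ) : Fin 3 → ℝ) +
      (y 2 - x 2) • (Pi.single 2 (1 : ℝ) : Fin 3 → ℝ) := by
    funext j
    fin_cases j <;> simp
  rw [h2, h1, h1, h1]

end Vale.Agent.P113.Energy
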