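import Mathlib

/-!
# P113: primitive recursive arithmetic on `ℤ` and `ℚ`
-/

namespace Vale.Agent.P113.Prim

open Encodable

/-! ### Integers -/

theorem int_subNat : Primrec₂ (fun a b : ℕ => (a : ℤ) - (b : ℤ)) := by
  have h : Primrec (fun p : ℕ × ℕ => if p.2 ≤ p.1 then 2 * (p.1 - p.2) else
      2 * (p.2 - p.1 - 1) + 1) := by
    refine Primrec.ite (Primrec.nat_le.comp Primrec.snd Primrec.fst) ?_ ?_
    · exact Primrec.nat_mul.comp (Primrec.const 2) (Primrec.nat_sub.comp Primrec.fst Primrec.snd)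
    · exact Primrec.succ.comp (Primrec.nat_mul.comp (Primrec.const 2)
        (Primrec.nat_sub.comp (Primrec.nat_sub.comp Primrec.snd Primrec.fst) (Primrec.const 1)))
  refine Primrec.encode_iff.1 (h.of_eq ?_)
  rintro ⟨a, b⟩
  simp only
  split_ifs with hab
  · obtain ⟨c, rfl⟩ := Nat.exists_eq_add_of_le hab
    have e1 : ((b + c : ℕ) : ℤ) - (b : ℤ) = ((c : ℕ) : ℤ) := by push_cast; ring
    rw [e1, Nat.add_sub_cancel_left]
    rfl
  · obtain ⟨c, rfl⟩ : ∃ c, b = a + c + 1 := ⟨b - a - 1, by omega⟩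
    have e1 : ((a : ℕ) : ℤ) - ((a + c + 1 : ℕ) : ℤ) = Int.negSucc c := by
      rw [Int.negSucc_eq]; push_cast; ring
    have e2 : a + c + 1 - a - 1 = c := by omega
    rw [e1, e2]
    rfl

theorem int_toNat : Primrec (fun z : ℤ => z.toNat) := by
  have h3 : Primrec (fun n : ℕ => if n % 2 = 0 then n / 2 else 0) := by
    refine Primrec.ite (Primrec.eq.comp ?_ (Primrec.const 0)) ?_ (Primrec.const 0)
    · exact Primrec.nat_mod.comp Primrec.id (Primrec.const 2)
    · exact Primrec.nat_div.comp Primrec.id (Primrec.const 2)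
  refine (h3.comp (Primrec.encode (α := ℤ))).of_eq (fun z => ?_)
  rcases z with n | n
  · have e : Encodable.encode (Int.ofNat n) = 2 * n := rfl
    rw [e, if_pos (by omega)]
    simp
  · have e : Encodable.encode (Int.negSucc n) = 2 * n + 1 := rfl
    rw [e, if_neg (by omega)]
    rfl

theorem int_negToNat : Primrec (fun z : ℤ => (-z).toNat) := by
  have h3 : Primrec (fun n : ℕ => if n % 2 = 0 then 0 else n / 2 + 1) := by
    refine Primrec.ite (Primrec.eq.comp ?_ (Primrec.const 0)) (Primrec.const 0) ?_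
    · exact Primrec.nat_mod.comp Primrec.id (Primrec.const 2)
    · exact Primrec.succ.comp (Primrec.nat_div.comp Primrec.id (Primrec.const 2))
  refine (h3.comp (Primrec.encode (α := ℤ))).of_eq (fun z => ?_)
  rcases z with n | n
  · have e : Encodable.encode (Int.ofNat n) = 2 * n := rfl
    rw [e, if_pos (by omega)]
    simp
  · have e : Encodable.encode (Int.negSucc n) = 2 * n + 1 := rfl
    rw [e, if_neg (by omega)]
    rw [Int.neg_negSucc]
    simp
    omega

theorem toNat_sub (z : ℤ) : ((z.toNat : ℕ) : ℤ) - (((-z).toNat : ℕ) : ℤ) = z := by omega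

theorem int_add : Primrec₂ (fun a b : ℤ => a + b) := by
  have h : Primrec (fun p : ℤ × ℤ => ((p.1.toNat + p.2.toNat : ℕ) : ℤ) -
      (((-p.1).toNat + (-p.2).toNat : ℕ) : ℤ)) :=
    int_subNat.comp (Primrec.nat_add.comp (int_toNat.comp Primrec.fst)
      (int_toNat.comp Primrec.snd)) (Primrec.nat_add.comp (int_negToNat.comp Primrec.fst)
      (int_negToNat.comp Primrec.snd))
  refine h.of_eq fun p => ?_
  show _ = p.1 + p.2
  omega

theorem int_neg : Primrec (fun a : ℤ => -a) := by
  have h : Primrec (fun p : ℤ => (((-p).toNat : ℕ) : ℤ) - ((p.toNat : ℕ) : ℤ)) :=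
    int_subNat.comp int_negToNat int_toNat
  exact h.of_eq fun p => by omega

theorem int_natCast : Primrec (fun n : ℕ => (n : ℤ)) :=
  (int_subNat.comp Primrec.id (Primrec.const 0)).of_eq fun n => by simp

theorem int_mul : Primrec₂ (fun a b : ℤ => a * b) := by
  have h : Primrec (fun p : ℤ × ℤ =>
      ((p.1.toNat * p.2.toNat + (-p.1).toNat * (-p.2).toNat : ℕ) : ℤ) -
      ((p.1.toNat * (-p.2).toNat + (-p.1).toNat * p.2.toNat : ℕ) : ℤ)) := by
    have a1 := int_toNat.comp (Primrec.fst (α := ℤ) (β := ℤ))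
    have a2 := int_toNat.comp (Primrec.snd (α := ℤ) (β := ℤ))
    have b1 := int_negToNat.comp (Primrec.fst (α := ℤ) (β := ℤ))
    have b2 := int_negToNat.comp (Primrec.snd (α := ℤ) (β := ℤ))
    exact int_subNat.comp (Primrec.nat_add.comp (Primrec.nat_mul.comp a1 a2)
      (Primrec.nat_mul.comp b1 b2)) (Primrec.nat_add.comp (Primrec.nat_mul.comp a1 b2)
      (Primrec.nat_mul.comp b1 a2))
  refine h.of_eq fun p => ?_
  have e1 := toNat_sub p.1
  have e2 := toNat_sub p.2
  generalize p.1.toNat = x at *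
  generalize (-p.1).toNat = y at *
  generalize p.2.toNat = z at *
  generalize (-p.2).toNat = w at *
  show _ = p.1 * p.2
  rw [← e1, ← e2]
  push_cast
  ring

theorem int_natAbs : Primrec (fun z : ℤ => z.natAbs) :=
  (Primrec.nat_add.comp int_toNat int_negToNat).of_eq fun z => by omega

theorem int_sub : Primrec₂ (fun a b : ℤ => a - b) :=
  (int_add.comp Primrec.fst (int_neg.comp Primrec.snd)).of_eq fun p => by
    simp [sub_eq_add_neg]

theorem int_le : PrimrecRel (fun a b : ℤ => a ≤ b) := by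
  have h : PrimrecPred (fun p : ℤ × ℤ => (p.1 - p.2).toNat = 0) :=
    Primrec.eq.comp (int_toNat.comp int_sub) (Primrec.const 0)
  exact h.of_eq fun p => by omega

theorem int_lt : PrimrecRel (fun a b : ℤ => a < b) := by
  have h : PrimrecPred (fun p : ℤ × ℤ => ¬ (p.2 ≤ p.1)) :=
    (int_le.comp Primrec.snd Primrec.fst).not
  exact h.of_eq fun p => by omega

/-! ### Divisibility and gcd on `ℕ` -/

theorem nat_dvd : PrimrecRel (fun a b : ℕ => a ∣ b) := by
  have h : PrimrecPred (fun p : ℕ × ℕ => p.2 % p.1 = 0) :=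
    Primrec.eq.comp (Primrec.nat_mod.comp Primrec.snd Primrec.fst) (Primrec.const 0)
  exact h.of_eq fun p => (Nat.dvd_iff_mod_eq_zero ..).symm

theorem gcd_eq_findGreatest (a b : ℕ) :
    Nat.gcd a b = Nat.findGreatest (fun d => d ∣ a ∧ d ∣ b) (a + b) := by
  symm
  rcases Nat.eq_zero_or_pos (a + b) with h | h
  · have ha : a = 0 := by omega
    have hb : b = 0 := by omega
    subst ha hb
    simp
  · have hg : 0 < Nat.gcd a b := by
      rcases Nat.eq_zero_or_pos a with ha | ha
      · exact Nat.gcd_pos_of_pos_right _ (by omega)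
      · exact Nat.gcd_pos_of_pos_left _ ha
    rw [Nat.findGreatest_eq_iff]
    refine ⟨?_, fun _ => ⟨Nat.gcd_dvd_left _ _, Nat.gcd_dvd_right _ _⟩, ?_⟩
    · rcases Nat.eq_zero_or_pos a with ha | ha
      · subst ha; simp
      · exact (Nat.gcd_le_left _ ha).trans (Nat.le_add_right _ _)
    · rintro n hn - ⟨h1, h2⟩
      exact absurd (Nat.le_of_dvd hg (Nat.dvd_gcd h1 h2)) (not_le.2 hn)

theorem nat_gcd : Primrec₂ Nat.gcd := by
  have h : Primrec (fun p : ℕ × ℕ =>
      Nat.findGreatest (fun d => d ∣ p.1 ∧ d ∣ p.2) (p.1 + p.2)) := by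
    refine Primrec.nat_findGreatest (p := fun (p : ℕ × ℕ) d => d ∣ p.1 ∧ d ∣ p.2)
      (Primrec.nat_add.comp Primrec.fst Primrec.snd) ?_
    exact PrimrecPred.and (nat_dvd.comp Primrec.snd (Primrec.fst.comp Primrec.fst))
      (nat_dvd.comp Primrec.snd (Primrec.snd.comp Primrec.fst))
  exact h.of_eq fun p => (gcd_eq_findGreatest _ _).symm

theorem nat_pow : Primrec₂ (fun a b : ℕ => a ^ b) :=
  Primrec₂.unpaired'.1 Nat.Primrec.pow

/-! ### Rationals -/

/-- The code of a rational as the pair (numerator, denominator). -/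
def code0 (q : ℚ) : ℕ := Nat.pair (encode q.num) q.den

/-- The codes of rationals. -/
def Good (n : ℕ) : Prop :=
  0 < n.unpair.2 ∧ Nat.gcd (Denumerable.ofNat ℤ n.unpair.1).natAbs n.unpair.2 = 1

instance : DecidablePred Good := fun n => by unfold Good; infer_instance

theorem good_code0 (q : ℚ) : Good (code0 q) := by
  refine ⟨by simpa [code0] using q.den_pos, ?_⟩
  simp only [code0, Nat.unpair_pair, Denumerable.ofNat_encode]
  exact q.reduced

theorem good_iff (n : ℕ) : Good n ↔ n ∈ Set.range code0 := by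
  constructor
  · rintro ⟨h1, h2⟩
    refine ⟨⟨Denumerable.ofNat ℤ n.unpair.1, n.unpair.2, h1.ne', h2⟩, ?_⟩
    simp only [code0, Denumerable.encode_ofNat, Nat.pair_unpair]
  · rintro ⟨q, rfl⟩
    exact good_code0 q

theorem encode0_eq (q : ℚ) : @encode ℚ Rat.instEncodable q = code0 q := rfl

theorem encode_eq (q : ℚ) :
    @encode ℚ (Primcodable.ofDenumerable ℚ).toEncodable q = Nat.count Good (code0 q) := by
  have e : @encode ℚ (Primcodable.ofDenumerable ℚ).toEncodable q =
      (List.range (code0 q)).countP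
        (fun n => @decide (n ∈ Set.range (@encode ℚ Rat.instEncodable))
          (@decidableRangeEncode ℚ Rat.instEncodable n)) := rfl
  rw [e, Nat.count]
  congr 1
  funext n
  rw [decide_eq_decide, good_iff]
  rfl

theorem primrec_good : PrimrecPred Good := by
  refine PrimrecPred.and ?_ ?_
  · exact Primrec.nat_lt.comp (Primrec.const 0) (Primrec.snd.comp Primrec.unpair)
  · exact Primrec.eq.comp (nat_gcd.comp
      (int_natAbs.comp ((Primrec.ofNat ℤ).comp (Primrec.fst.comp Primrec.unpair)))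
      (Primrec.snd.comp Primrec.unpair)) (Primrec.const 1)

theorem primrec_count : Primrec (Nat.count Good) := by
  have h : Primrec (fun n : ℕ => ((List.range n).filter (fun k => Good k)).length) :=
    Primrec.list_length.comp ((Primrec.listFilter primrec_good).comp Primrec.list_range)
  exact h.of_eq fun n => by rw [Nat.count, List.countP_eq_length_filter]

theorem le_count (n : ℕ) : n ≤ Nat.count Good (Nat.pair (2 * n) 1) := by
  induction n with
  | zero => exact Nat.zero_le _
  | succ n ih =>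
    have hg : Good (Nat.pair (2 * n) 1) := ⟨by simp, by simp⟩
    exact lt_of_le_of_lt ih
      (Nat.count_strict_mono hg (Nat.pair_lt_pair_left 1 (by omega)))

theorem primrec_code0 : Primrec code0 := by
  refine Primrec.of_graph
    ⟨fun q => Nat.pair (2 * @encode ℚ (Primcodable.ofDenumerable ℚ).toEncodable q) 1, ?_, ?_⟩ ?_
  · exact Primrec₂.natPair.comp (Primrec.nat_double.comp Primrec.encode) (Primrec.const 1)
  · intro q
    simp only [encode_nat, encode_eq]
    by_contra hlt
    have hlt' := not_le.1 hlt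
    have hg : Good (Nat.pair (2 * Nat.count Good (code0 q)) 1) := ⟨by simp, by simp⟩
    exact absurd (Nat.count_strict_mono hg hlt') (not_lt.2 (le_count _))
  · have h : PrimrecPred (fun p : ℚ × ℕ => Good p.2 ∧ Nat.count Good p.2 =
        @encode ℚ (Primcodable.ofDenumerable ℚ).toEncodable p.1) :=
      PrimrecPred.and (primrec_good.comp Primrec.snd)
        (Primrec.eq.comp (primrec_count.comp Primrec.snd) (Primrec.encode.comp Primrec.fst))
    refine h.of_eq fun p => ?_
    rw [encode_eq]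
    constructor
    · rintro ⟨h1, h2⟩
      exact (Nat.count_injective h1 (good_code0 _) h2).symm
    · intro h1
      rw [← h1]
      exact ⟨good_code0 _, rfl⟩

theorem rat_num : Primrec Rat.num :=
  ((Primrec.ofNat ℤ).comp (Primrec.fst.comp (Primrec.unpair.comp primrec_code0))).of_eq
    fun q => by simp only [code0, Nat.unpair_pair, Denumerable.ofNat_encode]

theorem rat_den : Primrec Rat.den :=
  (Primrec.snd.comp (Primrec.unpair.comp primrec_code0)).of_eq fun q => by simp [code0]

theorem rat_of_num_den {α : Type*} [Primcodable α] {f : α → ℚ}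
    (h1 : Primrec fun a => (f a).num) (h2 : Primrec fun a => (f a).den) : Primrec f := by
  refine Primrec.encode_iff.1 ?_
  have h : Primrec fun a => Nat.count Good (Nat.pair (encode (f a).num) (f a).den) :=
    primrec_count.comp (Primrec₂.natPair.comp (Primrec.encode.comp h1) h2)
  exact h.of_eq fun a => (encode_eq _).symm

theorem int_div_of_dvd (n : ℤ) (g : ℕ) (h : g ∣ n.natAbs) :
    n / (g : ℤ) = ((n.toNat / g : ℕ) : ℤ) - (((-n).toNat / g : ℕ) : ℤ) := by
  rcases le_total 0 n with hn | hn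
  · obtain ⟨m, rfl⟩ := Int.eq_ofNat_of_zero_le hn
    simp
  · obtain ⟨m, rfl⟩ : ∃ m : ℕ, n = -(m : ℤ) := ⟨(-n).toNat, by omega⟩
    have hm : (g : ℤ) ∣ (m : ℤ) := by
      rw [Int.natCast_dvd_natCast]; simpa using h
    rw [Int.neg_ediv_of_dvd hm]
    simp

theorem rat_mkRat : Primrec₂ mkRat := by
  have hg : Primrec fun p : ℤ × ℕ => Nat.gcd p.2 p.1.natAbs :=
    nat_gcd.comp Primrec.snd (int_natAbs.comp Primrec.fst)
  have h0 : PrimrecPred fun p : ℤ × ℕ => p.2 = 0 := Primrec.eq.comp Primrec.snd (Primrec.const 0)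
  refine rat_of_num_den (f := fun p : ℤ × ℕ => mkRat p.1 p.2) ?_ ?_
  · refine (Primrec.ite h0 (Primrec.const (0 : ℤ)) (int_subNat.comp
      (Primrec.nat_div.comp (int_toNat.comp Primrec.fst) hg)
      (Primrec.nat_div.comp (int_negToNat.comp Primrec.fst) hg))).of_eq fun p => ?_
    rw [Rat.num_mkRat]
    split_ifs
    · rfl
    · rw [int_div_of_dvd _ _ (Nat.gcd_dvd_right _ _)]
  · refine (Primrec.ite h0 (Primrec.const 1) (Primrec.nat_div.comp Primrec.snd hg)).of_eq
      fun p => ?_
    rw [Rat.den_mkRat]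

theorem rat_add : Primrec₂ (fun a b : ℚ => a + b) := by
  have n1 := rat_num.comp (Primrec.fst (α := ℚ) (β := ℚ))
  have n2 := rat_num.comp (Primrec.snd (α := ℚ) (β := ℚ))
  have d1 := rat_den.comp (Primrec.fst (α := ℚ) (β := ℚ))
  have d2 := rat_den.comp (Primrec.snd (α := ℚ) (β := ℚ))
  refine (rat_mkRat.comp (int_add.comp (int_mul.comp n1 (int_natCast.comp d2))
    (int_mul.comp n2 (int_natCast.comp d1))) (Primrec.nat_mul.comp d1 d2)).of_eq fun p => ?_
  exact (Rat.add_def' _ _).symm

theorem rat_mul : Primrec₂ (fun a b : ℚ => a * b) := by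
  have n1 := rat_num.comp (Primrec.fst (α := ℚ) (β := ℚ))
  have n2 := rat_num.comp (Primrec.snd (α := ℚ) (β := ℚ))
  have d1 := rat_den.comp (Primrec.fst (α := ℚ) (β := ℚ))
  have d2 := rat_den.comp (Primrec.snd (α := ℚ) (β := ℚ))
  refine (rat_mkRat.comp (int_mul.comp n1 n2) (Primrec.nat_mul.comp d1 d2)).of_eq fun p => ?_
  exact (Rat.mul_def' _ _).symm

theorem rat_intCast : Primrec (fun n : ℤ => (n : ℚ)) :=
  (rat_mkRat.comp Primrec.id (Primrec.const 1)).of_eq fun n => by
    simp [Rat.mkRat_eq_div]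

theorem rat_natCast : Primrec (fun n : ℕ => (n : ℚ)) :=
  (rat_intCast.comp int_natCast).of_eq fun n => by simp

theorem rat_neg : Primrec (fun a : ℚ => -a) :=
  (rat_mul.comp (Primrec.const (-1)) Primrec.id).of_eq fun a => by simp

theorem rat_sub : Primrec₂ (fun a b : ℚ => a - b) :=
  (rat_add.comp Primrec.fst (rat_neg.comp Primrec.snd)).of_eq fun p => by
    simp [sub_eq_add_neg]

theorem rat_inv : Primrec (fun a : ℚ => a⁻¹) := by
  have h : Primrec fun a : ℚ => mkRat (a.num * a.den) (a.num.natAbs * a.num.natAbs) :=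
    rat_mkRat.comp (int_mul.comp rat_num (int_natCast.comp rat_den))
      (Primrec.nat_mul.comp (int_natAbs.comp rat_num) (int_natAbs.comp rat_num))
  refine h.of_eq fun a => ?_
  rw [Rat.mkRat_eq_div]
  have e : ((a.num.natAbs * a.num.natAbs : ℕ) : ℚ) = (a.num : ℚ) * a.num := by
    have h2 := congrArg (fun z : ℤ => (z : ℚ)) (Int.natAbs_mul_self' a.num)
    simpa only [Int.cast_mul, Int.cast_natCast, Nat.cast_mul] using h2
  rw [e]
  rcases eq_or_ne a 0 with rfl | ha
  · simp
  · have hn : (a.num : ℚ) ≠ 0 := by exact_mod_cast Rat.num_ne_zero.2 ha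
    conv_rhs => rw [← Rat.num_div_den a]
    push_cast
    field_simp

theorem rat_div : Primrec₂ (fun a b : ℚ => a / b) :=
  (rat_mul.comp Primrec.fst (rat_inv.comp Primrec.snd)).of_eq fun p => by
    simp [div_eq_mul_inv]

theorem rat_pow : Primrec₂ (fun (a : ℚ) (n : ℕ) => a ^ n) := by
  have h : Primrec fun p : ℚ × ℕ => (fun x => x * p.1)^[p.2] (1 : ℚ) :=
    Primrec.nat_iterate Primrec.snd (Primrec.const 1)
      (rat_mul.comp Primrec.snd (Primrec.fst.comp Primrec.fst)).to₂
  refine h.of_eq fun p => ?_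
  obtain ⟨a, n⟩ := p
  induction n with
  | zero => simp
  | succ n ih => simp only [Function.iterate_succ_apply'] at ih ⊢; rw [ih, pow_succ]

theorem rat_le : PrimrecRel (fun a b : ℚ => a ≤ b) := by
  have h : PrimrecPred (fun p : ℚ × ℚ => 0 ≤ (p.2 - p.1).num) :=
    int_le.comp (Primrec.const 0) (rat_num.comp (rat_sub.comp Primrec.snd Primrec.fst))
  exact h.of_eq fun p => by rw [Rat.num_nonneg, sub_nonneg]

theorem rat_lt : PrimrecRel (fun a b : ℚ => a < b) := by
  have h : PrimrecPred (fun p : ℚ × ℚ => ¬ (p.2 ≤ p.1)) :=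
    (rat_le.comp Primrec.snd Primrec.fst).not
  exact h.of_eq fun p => not_le

end Vale.Agent.P113.Prim
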