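import Vale.Agent.P113.Smooth
import Vale.Agent.P113.Window

/-!
Velocity fields that are, in each time window, a time profile times a shear: they solve the
forced system with force `∂_t u - ν Δ u` and zero pressure, and their trajectories are explicit.
-/

open MeasureTheory Set Filter Topology

namespace Vale.Agent.P113

/-- A shear: in each direction `j`, either the component `j` of the field vanishes identically or
the field does not depend on the coordinate `j`. -/
def IsShear (V : T3 → Fin 3 → ℝ) : Prop :=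
  ∀ j : Fin 3, (∀ x, V x j = 0) ∨ ∀ x (s : UnitAddCircle), V (x + Pi.single j s) = V x

theorem isShear_const (c : Fin 3 → ℝ) : IsShear fun _ => c := fun _ => Or.inr fun _ _ => rfl

theorem isShear_single (d : Fin 3) {H : T3 → ℝ}
    (h : ∀ x (s : UnitAddCircle), H (x + Pi.single d s) = H x) :
    IsShear fun x => Pi.single d (H x) := by
  intro j
  by_cases hj : j = d
  · subst hj
    exact Or.inr fun x s => by simp only [h]
  · exact Or.inl fun x => Pi.single_eq_of_ne hj _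

theorem IsShear.step {V : T3 → Fin 3 → ℝ} (h : IsShear V) (y z : T3) (s : ℝ) (j : Fin 3) :
    V (y + Pi.single j ((s * V z j : ℝ) : UnitAddCircle)) = V y := by
  rcases h j with h | h
  · simp [h]
  · exact h _ _

theorem IsShear.invariant {V : T3 → Fin 3 → ℝ} (h : IsShear V) (x : Fin 3 → ℝ) (s : ℝ) :
    V (proj (x + s • V (proj x))) = V (proj x) := by
  have e : proj (x + s • V (proj x)) =
      proj x + Pi.single 0 ((s * V (proj x) 0 : ℝ) : UnitAddCircle) +
        Pi.single 1 ((s * V (proj x) 1 : ℝ) : UnitAddCircle) +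
        Pi.single 2 ((s * V (proj x) 2 : ℝ) : UnitAddCircle) := by
    funext j
    fin_cases j <;> simp [proj]
  rw [e, h.step, h.step, h.step]

theorem IsShear.pd_self {V : T3 → Fin 3 → ℝ} (h : IsShear V) (c : ℝ) (j : Fin 3) (x : T3) :
    pd j (fun y => c * V y j) x = 0 := by
  refine pd_eq_zero_of_indep (fun y s => ?_) x
  rcases h j with h | h
  · simp only [h]
  · simp only [h]

theorem IsShear.mul_pd {V : T3 → Fin 3 → ℝ} (h : IsShear V) (c : ℝ) (i j : Fin 3) (x : T3) :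
    c * V x j * pd j (fun y => c * V y i) x = 0 := by
  rcases h j with h | h
  · simp [h]
  · rw [pd_eq_zero_of_indep (fun y s => by simp only [h]) x, mul_zero]

/-- The lifted window fields. -/
def liftW (V : ℕ → T3 → Fin 3 → ℝ) (m : ℕ) (x : Fin 3 → ℝ) : Fin 3 → ℝ := V m (proj x)

/-- The solution, its uniqueness and its trajectory for a field made of shears acting in
consecutive time windows of length `1 / N`. -/
theorem shear_solution {ν N : ℝ} (hν : 0 ≤ ν) (hN : 0 < N) {V : ℕ → T3 → Fin 3 → ℝ}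
    (hV : ∀ m, IsShear (V m)) {f u : Fin 3 → ℝ → T3 → ℝ} (hu : ∀ i, Sm (u i))
    (huV : ∀ i, ∀ t ≥ (0 : ℝ), ∀ x,
      u i t x = N * winB (N * t - ⌊N * t⌋₊) * V ⌊N * t⌋₊ x i)
    (hf : ∀ i, ∀ t ≥ (0 : ℝ), ∀ x,
      f i t x = deriv (fun s => u i s x) t - ν * ∑ j, pd j (pd j (u i t)) x)
    (a : Fin 3 → ℝ) :
    IsGlobalSmooth ν f u (fun _ _ => 0) ∧
      (∀ T > 0, ∀ v q, IsClassical ν f T v q →
        ∀ t ∈ Icc 0 T, (∀ i, v i t = u i t) ∧ q t = fun _ => 0) ∧
      IsTrajectory u (proj a) (fun t => proj (Chain.path N winS (liftW V) a t)) ∧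
      ∀ X', IsTrajectory u (proj a) X' →
        ∀ t ≥ (0 : ℝ), X' t = proj (Chain.path N winS (liftW V) a t) := by
  have hut : ∀ i, ∀ t ≥ (0 : ℝ),
      u i t = fun x => N * winB (N * t - ⌊N * t⌋₊) * V ⌊N * t⌋₊ x i :=
    fun i t ht => funext fun x => huV i t ht x
  have hB0 : winB 0 = 0 := Chain.deriv_zero_left hasDerivAt_winS winS_of_nonpos le_rfl
  have hY := Chain.hasDerivWithinAt_path_field (N := N) (S := winS) (β := winB) (W := liftW V)
    (a := a) hN hasDerivAt_winS winS_of_nonpos winS_of_one_le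
    (fun m x s => (hV m).invariant x s) (U := fun t x i => u i t (proj x))
    (fun t ht x => funext fun i => by rw [huV i t ht]; rfl)
  have h := solution_package (f := f) hν hu
    (fun i x => by rw [huV i 0 le_rfl]; simp [hB0])
    (fun t ht x => Finset.sum_eq_zero fun i _ => by rw [hut i t ht]; exact (hV _).pd_self _ i x)
    (fun i t ht x => by
      have : ∑ j, u j t x * pd j (u i t) x = 0 := Finset.sum_eq_zero fun j _ => by
        rw [hut i t ht, huV j t ht]
        exact (hV _).mul_pd _ i j x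
      rw [this, add_zero, hf i t ht x])
    hY
  rwa [Chain.path_zero winS_zero] at h

/-- The full conclusion of the problem for one pair (machine, input): it suffices that some window
end lies in the box when `H` holds, and that all window ends lie in a convex set whose image
misses the image of the box when `H` fails. -/
theorem shear_detect {ν N : ℝ} (hν : 0 ≤ ν) (hN : 0 < N) {V : ℕ → T3 → Fin 3 → ℝ}
    (hV : ∀ m, IsShear (V m)) {f u : Fin 3 → ℝ → T3 → ℝ} (hu : ∀ i, Sm (u i))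
    (huV : ∀ i, ∀ t ≥ (0 : ℝ), ∀ x,
      u i t x = N * winB (N * t - ⌊N * t⌋₊) * V ⌊N * t⌋₊ x i)
    (hf : ∀ i, ∀ t ≥ (0 : ℝ), ∀ x,
      f i t x = deriv (fun s => u i s x) t - ν * ∑ j, pd j (pd j (u i t)) x)
    (a : Fin 3 → ℝ) {O : Set T3} {H : Prop}
    (hyes : H → ∃ m, proj (Chain.pt (liftW V) a m) ∈ O)
    (hno : ¬ H → ∃ C : Set (Fin 3 → ℝ), Convex ℝ C ∧ (∀ m, Chain.pt (liftW V) a m ∈ C) ∧
      ∀ y ∈ C, proj y ∉ O) :
    ∃ (u : Fin 3 → ℝ → T3 → ℝ) (p : ℝ → T3 → ℝ),
      IsGlobalSmooth ν f u p ∧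
      (∀ T > 0, ∀ v q, IsClassical ν f T v q →
        ∀ t ∈ Icc 0 T, (∀ i, v i t = u i t) ∧ q t = p t) ∧
      ∃ X : ℝ → T3, IsTrajectory u (proj a) X ∧
        (∀ X', IsTrajectory u (proj a) X' → ∀ t ≥ (0 : ℝ), X' t = X t) ∧
        ((∃ t ≥ (0 : ℝ), X t ∈ O) ↔ H) := by
  obtain ⟨h1, h2, h3, h4⟩ := shear_solution hν hN hV hu huV hf a
  refine ⟨u, fun _ _ => 0, h1, h2, _, h3, h4, ?_, fun h => ?_⟩
  · rintro ⟨t, -, ht⟩
    by_contra h
    obtain ⟨C, hC, hpt, hO⟩ := hno h
    exact hO _ (Chain.path_mem_convex winS_mem hC hpt t) ht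
  · obtain ⟨m, hm⟩ := hyes h
    refine ⟨m / N, div_nonneg (Nat.cast_nonneg m) hN.le, ?_⟩
    simp only [Chain.path_nat hN winS_zero]
    exact hm

/-- The slab `0 ≤ z ≤ 1/2` is convex and its image misses the image of a box whose heights lie in
`(1/2, 1)`. -/
theorem slab_not_mem_boxImage {lo hi : Fin 3 → ℚ} (h1 : 1 / 2 ≤ lo 2) (h2 : hi 2 ≤ 1)
    {y : Fin 3 → ℝ} (hy : y 2 ∈ Icc (0 : ℝ) (1 / 2)) : proj y ∉ boxImage lo hi := by
  rintro ⟨x, hx, hxy⟩
  have h1' : (1 / 2 : ℝ) ≤ lo 2 := by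
    have h := (Rat.cast_le (K := ℝ)).2 h1
    simpa using h
  have h2' : (hi 2 : ℝ) ≤ 1 := by exact_mod_cast h2
  have h3 : ((x 2 : ℝ) : UnitAddCircle) = ((y 2 : ℝ) : UnitAddCircle) := congrFun hxy 2
  have h4 := (hx 2).1
  have h5 := (hx 2).2
  have h6 := (AddCircle.coe_eq_coe_iff_of_mem_Ico (p := (1 : ℝ)) (a := 0)
    ⟨by linarith, by linarith⟩ ⟨hy.1, by linarith [hy.2]⟩).1 h3
  linarith [hy.2]

theorem convex_slab : Convex ℝ {y : Fin 3 → ℝ | y 2 ∈ Icc (0 : ℝ) (1 / 2)} :=
  (convex_Icc (0 : ℝ) (1 / 2)).linear_preimage (LinearMap.proj (R := ℝ) (φ := fun _ => ℝ) 2)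

end Vale.Agent.P113
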