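import Vale.Agent.P113.Defs
import Vale.Agent.P113.PrimFun

/-!
# P113: the combinatorial data extracted from a machine

A machine is turned into a reversible rewriting system on two stacks of digits.  The stacks are
encoded by base `N` expansions with digits `< N / 4`.  One step of the system is realised by four
shears; each shear is a finite sum of *pieces* `χ_a(p) χ_b(q) (α + β p + γ q)`.
-/

namespace Vale.Agent.P113

/-- The machine part of a code. -/
abbrev MCode : Type := ℕ × ℕ × ℕ × ℕ × List Bool × List (List (ℕ × ℕ × ℤ))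

/-- A cylinder `(A, U)`: the numbers `x` with `A x - U ∈ [0, 1/4]`. -/
abbrev Cyl : Type := ℕ × ℕ

/-- A piece `(a, b, α, β, γ)` stands for `(p, q) ↦ χ_a(p) χ_b(q) (α + β p + γ q)`. -/
abbrev Piece : Type := Cyl × Cyl × ℚ × ℚ × ℚ

/-- `x` lies in the cylinder `c`. -/
def Cyl.In (c : Cyl) (x : ℝ) : Prop := 0 ≤ c.1 * x - c.2 ∧ c.1 * x - c.2 ≤ 1 / 4

/-- `x` is far from the cylinder `c`. -/
def Cyl.Out (c : Cyl) (x : ℝ) : Prop := c.1 * x - c.2 ≤ -(1 / 2) ∨ 3 / 4 ≤ c.1 * x - c.2

/-- The cylinder starts in `[0, 1/4]` and has scale at most one. -/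
def Cyl.Small (c : Cyl) : Prop := 1 ≤ c.1 ∧ 4 * c.2 ≤ c.1

/-- What is needed from a realisation `ev` of pieces by actual functions. -/
structure PieceSpec (ev : Piece → ℝ → ℝ → ℝ) : Prop where
  of_in : ∀ (π : Piece) (p q : ℝ), π.1.Small → π.2.1.Small → p ∈ Set.Icc (0 : ℝ) (1 / 4) →
    q ∈ Set.Icc (0 : ℝ) (1 / 4) → π.1.In p → π.2.1.In q →
    ev π p q = π.2.2.1 + π.2.2.2.1 * p + π.2.2.2.2 * q
  of_out : ∀ (π : Piece) (p q : ℝ), π.1.Small → π.2.1.Small → p ∈ Set.Icc (0 : ℝ) (1 / 4) →
    q ∈ Set.Icc (0 : ℝ) (1 / 4) → π.1.Out p ∨ π.2.1.Out q → ev π p q = 0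

/-- The cylinder of the numbers whose base `N` expansion starts with the word `u`. -/
def cyl (N : ℕ) (u : List ℕ) : Cyl := u.foldr (fun a c => (N * c.1, a * c.1 + c.2)) (1, 0)

/-- The number with base `N` expansion `l`. -/
def valQ (N : ℕ) (l : List ℕ) : ℚ := l.foldr (fun (d : ℕ) (acc : ℚ) => (d + acc) / N) 0

/-- Tilted lift (or, with sign `ε = -1`, descent) over the rectangle `a × b` to height `i / H`. -/
def pieceZ (ε : ℚ) (H i : ℕ) (a b : Cyl) : Piece :=
  (a, b, ε * ((i - (a.2 + b.2) / 2) / H), ε * (a.1 / (2 * H)), ε * (b.1 / (2 * H)))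

/-- Horizontal move at height `i / H` of one coordinate from the cylinder `a` to the cylinder
`a'`, the other horizontal coordinate lying in the cylinder `o`. -/
def pieceH (H i : ℕ) (a a' o : Cyl) : Piece :=
  ((1, 0), (H, i),
    (a'.2 : ℚ) / a'.1 - a.2 / a.1 + (1 / a'.1 - 1 / a.1) * (o.2 - 2 * i),
    -((1 / a'.1 - 1 / a.1) * o.1), (1 / a'.1 - 1 / a.1) * (2 * H))

/-- The lift of a halting state to height `3/4`. -/
def pieceHalt (a : Cyl) : Piece := (a, (1, 0), 3 / 4, 0, 0)

namespace MC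

/-- Number of states. -/
def nQ (m : MCode) : ℕ := m.1
/-- Number of tape symbols. -/
def nA (m : MCode) : ℕ := m.2.1
/-- Start state. -/
def start (m : MCode) : ℕ := m.2.2.1
/-- Blank symbol. -/
def blank (m : MCode) : ℕ := m.2.2.2.1
/-- All digits are less than `K`. -/
def K (m : MCode) : ℕ := nA m + 2 + 2 * nQ m * (nA m + 1)
/-- The base of the expansions. -/
def N (m : MCode) : ℕ := 4 * K m
/-- The base for the heights. -/
def H (m : MCode) : ℕ := 4 * (2 * nQ m * K m + 1)
/-- The digit of a tape symbol (the blank is `0`). -/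
def dig (m : MCode) (a : ℕ) : ℕ := if a = blank m then 0 else a + 1
/-- The tape symbol of a digit. -/
def sym (m : MCode) (c : ℕ) : ℕ := if c = 0 then blank m else c - 1
/-- The state digit `s = 2 q + d` belongs to a halting state `q`. -/
def isHalt (m : MCode) (s : ℕ) : Bool := m.2.2.2.2.1.getD (s / 2) true
/-- The entry of the transition table for the state digit `s` and the symbol digit `c`. -/
def tr (m : MCode) (s c : ℕ) : ℕ × ℕ × ℤ := (m.2.2.2.2.2.getD (s / 2) []).getD (sym m c) (0, 0, 0)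
/-- The garbage digit that records a real step. -/
def rcd (m : MCode) (s c : ℕ) : ℕ := nA m + 2 + s * (nA m + 1) + c
/-- Source words of the rule `(s, c)`. -/
def src (s c : ℕ) : List ℕ × List ℕ := if s % 2 = 1 then ([s], [c]) else ([s, c], [])
/-- Target words of the rule `(s, c)`. -/
def tgt (m : MCode) (s c : ℕ) : List ℕ × List ℕ :=
  if nA m < c then (if s % 2 = 1 then ([s, nA m + 1, c], []) else ([s], [nA m + 1, c]))
  else if (tr m s c).2.2 = 1 then
    ([2 * (tr m s c).1 + 1, rcd m s c, dig m (tr m s c).2.1], [])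
  else if (tr m s c).2.2 = -1 then ([2 * (tr m s c).1], [rcd m s c, dig m (tr m s c).2.1])
  else ([2 * (tr m s c).1 + 1, rcd m s c], [dig m (tr m s c).2.1])
/-- Source words of rule number `i`. -/
def srcI (m : MCode) (i : ℕ) : List ℕ × List ℕ := src (i / K m) (i % K m)
/-- Target words of rule number `i`. -/
def tgtI (m : MCode) (i : ℕ) : List ℕ × List ℕ := tgt m (i / K m) (i % K m)
/-- The numbers of the rules. -/
def idx (m : MCode) : List ℕ := (List.range (2 * nQ m * K m)).filter fun i => !isHalt m (i / K m)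
/-- The halting state digits. -/
def hs (m : MCode) : List ℕ := (List.range (2 * nQ m)).filter fun s => isHalt m s

/-- Phase 1: `z += ∑ piece (x, y)`. -/
def L1 (m : MCode) : List Piece :=
  ((idx m).map fun i => pieceZ 1 (H m) i (cyl (N m) (srcI m i).1) (cyl (N m) (srcI m i).2)) ++
    (hs m).map fun s => pieceHalt (cyl (N m) [s])
/-- Phase 2: `x += ∑ piece (y, z)`. -/
def L2 (m : MCode) : List Piece :=
  (idx m).map fun i =>
    pieceH (H m) i (cyl (N m) (srcI m i).1) (cyl (N m) (tgtI m i).1) (cyl (N m) (srcI m i).2)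
/-- Phase 3: `y += ∑ piece (x, z)`. -/
def L3 (m : MCode) : List Piece :=
  (idx m).map fun i =>
    pieceH (H m) i (cyl (N m) (srcI m i).2) (cyl (N m) (tgtI m i).2) (cyl (N m) (tgtI m i).1)
/-- Phase 4: `z += ∑ piece (x, y)`. -/
def L4 (m : MCode) : List Piece :=
  (idx m).map fun i => pieceZ (-1) (H m) i (cyl (N m) (tgtI m i).1) (cyl (N m) (tgtI m i).2)

/-- First coordinate of the point that encodes the initial configuration. -/
def x0 (c : Code) : ℚ := valQ (N c.1) [2 * start c.1 + 1]
/-- Second coordinate of the point that encodes the initial configuration. -/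
def y0 (c : Code) : ℚ := valQ (N c.1) (c.2.map (dig c.1))

end MC

/-- The sum of a list of pieces. -/
def pieceSum (ev : Piece → ℝ → ℝ → ℝ) (L : List Piece) (p q : ℝ) : ℝ :=
  (L.map fun π => ev π p q).sum

/-- The shear `z += ∑ piece (x, y)`. -/
def shearZ (ev : Piece → ℝ → ℝ → ℝ) (L : List Piece) (P : Fin 3 → ℝ) : Fin 3 → ℝ :=
  ![P 0, P 1, P 2 + pieceSum ev L (P 0) (P 1)]

/-- The shear `x += ∑ piece (y, z)`. -/
def shearX (ev : Piece → ℝ → ℝ → ℝ) (L : List Piece) (P : Fin 3 → ℝ) : Fin 3 → ℝ :=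
  ![P 0 + pieceSum ev L (P 1) (P 2), P 1, P 2]

/-- The shear `y += ∑ piece (x, z)`. -/
def shearY (ev : Piece → ℝ → ℝ → ℝ) (L : List Piece) (P : Fin 3 → ℝ) : Fin 3 → ℝ :=
  ![P 0, P 1 + pieceSum ev L (P 0) (P 2), P 2]

/-- The map of one period. -/
def periodMap (ev : Piece → ℝ → ℝ → ℝ) (m : MCode) (P : Fin 3 → ℝ) : Fin 3 → ℝ :=
  shearZ ev (MC.L4 m) (shearY ev (MC.L3 m) (shearX ev (MC.L2 m) (shearZ ev (MC.L1 m) P)))

/-- The position after the input has been loaded and `n` periods have passed. -/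
def orbit (ev : Piece → ℝ → ℝ → ℝ) (c : Code) (n : ℕ) : Fin 3 → ℝ :=
  (periodMap ev c.1)^[n] ![MC.x0 c, MC.y0 c, 0]

/-! ### Everything is primitive recursive -/

section Prim
open Prim

@[fun_prop] theorem primrec_cyl : Primrec fun p : ℕ × List ℕ => cyl p.1 p.2 := by
  unfold cyl; fun_prop

@[fun_prop] theorem primrec_valQ : Primrec fun p : ℕ × List ℕ => valQ p.1 p.2 := by
  unfold valQ; fun_prop

@[fun_prop] theorem primrec_pieceZ :
    Primrec fun p : ℚ × ℕ × ℕ × Cyl × Cyl => pieceZ p.1 p.2.1 p.2.2.1 p.2.2.2.1 p.2.2.2.2 := by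
  unfold pieceZ; fun_prop

@[fun_prop] theorem primrec_pieceH :
    Primrec fun p : ℕ × ℕ × Cyl × Cyl × Cyl => pieceH p.1 p.2.1 p.2.2.1 p.2.2.2.1 p.2.2.2.2 := by
  unfold pieceH; fun_prop

@[fun_prop] theorem primrec_pieceHalt : Primrec pieceHalt := by
  unfold pieceHalt; fun_prop

namespace MC

@[fun_prop] theorem primrec_nQ : Primrec nQ := by unfold nQ; fun_prop
@[fun_prop] theorem primrec_nA : Primrec nA := by unfold nA; fun_prop
@[fun_prop] theorem primrec_start : Primrec start := by unfold start; fun_prop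
@[fun_prop] theorem primrec_blank : Primrec blank := by unfold blank; fun_prop
@[fun_prop] theorem primrec_K : Primrec K := by unfold K; fun_prop
@[fun_prop] theorem primrec_N : Primrec N := by unfold N; fun_prop
@[fun_prop] theorem primrec_H : Primrec H := by unfold H; fun_prop
@[fun_prop] theorem primrec_dig : Primrec fun p : MCode × ℕ => dig p.1 p.2 := by
  unfold dig; fun_prop
@[fun_prop] theorem primrec_sym : Primrec fun p : MCode × ℕ => sym p.1 p.2 := by
  unfold sym; fun_prop
@[fun_prop] theorem primrec_isHalt : Primrec fun p : MCode × ℕ => isHalt p.1 p.2 := by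
  unfold isHalt; fun_prop
@[fun_prop] theorem primrec_tr : Primrec fun p : MCode × ℕ × ℕ => tr p.1 p.2.1 p.2.2 := by
  unfold tr; fun_prop
@[fun_prop] theorem primrec_rcd : Primrec fun p : MCode × ℕ × ℕ => rcd p.1 p.2.1 p.2.2 := by
  unfold rcd; fun_prop
@[fun_prop] theorem primrec_src : Primrec fun p : ℕ × ℕ => src p.1 p.2 := by
  unfold src; fun_prop
@[fun_prop] theorem primrec_tgt : Primrec fun p : MCode × ℕ × ℕ => tgt p.1 p.2.1 p.2.2 := by
  unfold tgt; fun_prop
@[fun_prop] theorem primrec_srcI : Primrec fun p : MCode × ℕ => srcI p.1 p.2 := by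
  unfold srcI; fun_prop
@[fun_prop] theorem primrec_tgtI : Primrec fun p : MCode × ℕ => tgtI p.1 p.2 := by
  unfold tgtI; fun_prop
@[fun_prop] theorem primrec_idx : Primrec idx := by unfold idx; fun_prop
@[fun_prop] theorem primrec_hs : Primrec hs := by unfold hs; fun_prop
@[fun_prop] theorem primrec_L1 : Primrec L1 := by unfold L1; fun_prop
@[fun_prop] theorem primrec_L2 : Primrec L2 := by unfold L2; fun_prop
@[fun_prop] theorem primrec_L3 : Primrec L3 := by unfold L3; fun_prop
@[fun_prop] theorem primrec_L4 : Primrec L4 := by unfold L4; fun_prop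
@[fun_prop] theorem primrec_x0 : Primrec x0 := by unfold x0; fun_prop
@[fun_prop] theorem primrec_y0 : Primrec y0 := by unfold y0; fun_prop

end MC

end Prim

end Vale.Agent.P113
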