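import Vale.Agent.P113.BumpCalc

/-!
# P113: symbolic operations on terms (definitions)
-/

namespace Vale.Agent.P113

/-- The sum of the functions described by a list of terms. -/
noncomputable def evalL (ν : ℝ) (l : List Term) (t : ℝ) (x : T3) : ℝ :=
  (l.map fun τ => τ.eval ν t x).sum

/-- The term multiplied by `c ν^k`. -/
def Term.scale (c : ℚ) (k : ℕ) (τ : Term) : Term :=
  ((c * τ.1.1, τ.1.2.1 + k, τ.1.2.2), τ.2)

/-- The partial derivative `∂_i` of a term. -/
def Term.dx (i : Fin 3) (τ : Term) : List Term :=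
  (dList (τ.2.2 i)).map fun p => ((p.1 * τ.1.1, τ.1.2), τ.2.1, Function.update τ.2.2 i p.2)

/-- The time derivative of a term. -/
def Term.dt (τ : Term) : List Term :=
  ((dList τ.2.1.1).map fun p => ((p.1 * τ.1.1, τ.1.2), (p.2, τ.2.1.2), τ.2.2)) ++
    (dList τ.2.1.2).map fun p => ((p.1 * τ.1.1, τ.1.2), (τ.2.1.1, p.2), τ.2.2)

/-- The Laplacian of a term. -/
def Term.lap (τ : Term) : List Term :=
  (τ.dx 0).flatMap (Term.dx 0) ++ (τ.dx 1).flatMap (Term.dx 1) ++ (τ.dx 2).flatMap (Term.dx 2)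

/-- The heat operator `∂_t - ν Δ` applied to a term. -/
def Term.ns (τ : Term) : List Term :=
  τ.dt ++ τ.lap.map (Term.scale (-1) 1)

/-- A term has a non-periodic time factor that vanishes on `[T, ∞)` in a way that is stable under
differentiation. -/
def Term.Dead (T : ℝ) (τ : Term) : Prop := ∃ g ∈ τ.2.1.1, g.Dead T

end Vale.Agent.P113
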