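import Vale.Agent.P113.Defs
import Vale.Agent.P113.Energy

/-!
Uniqueness of classical solutions on the torus, in the terms of `Vale.Agent.P113.Defs`.
-/

open MeasureTheory Set Filter Topology

namespace Vale.Agent.P113

theorem continuous_proj : Continuous proj :=
  continuous_pi fun i => (AddCircle.continuous_mk' (1 : ℝ)).comp (continuous_apply i)

theorem proj_surjective : Function.Surjective proj := by
  intro x
  have h : ∀ i, ∃ r : ℝ, (r : UnitAddCircle) = x i := fun i => QuotientAddGroup.mk_surjective (x i)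
  choose r hr using h
  exact ⟨r, funext hr⟩

theorem proj_add_smul_single (x : Fin 3 → ℝ) (j : Fin 3) (s : ℝ) :
    proj (x + s • (Pi.single j (1 : ℝ) : Fin 3 → ℝ)) =
      proj x + Pi.single j (s : UnitAddCircle) := by
  funext i
  by_cases h : i = j
  · subst h
    simp [proj]
  · simp [proj, h]

theorem proj_add_single_one (x : Fin 3 → ℝ) (j : Fin 3) :
    proj (x + (Pi.single j (1 : ℝ) : Fin 3 → ℝ)) = proj x := by
  have h := proj_add_smul_single x j 1
  rw [one_smul] at h
  rw [h]
  simp

theorem HasPd.hasLineDerivAt {j : Fin 3} {F : T3 → ℝ} (h : HasPd j F) (x : Fin 3 → ℝ) :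
    HasLineDerivAt ℝ (fun y => F (proj y)) (pd j F (proj x)) x (Pi.single j 1) := by
  unfold HasLineDerivAt
  simp only [proj_add_smul_single]
  exact (h (proj x)).hasDerivAt

theorem ContOn.lift {T : ℝ} {F : ℝ → T3 → ℝ} (h : ContOn T F) :
    ContinuousOn (fun z : ℝ × (Fin 3 → ℝ) => F z.1 (proj z.2)) (Icc 0 T ×ˢ univ) := by
  have hc : Continuous (fun z : ℝ × (Fin 3 → ℝ) => ((z.1, proj z.2) : ℝ × T3)) :=
    continuous_fst.prodMk (continuous_proj.comp continuous_snd)
  exact ContinuousOn.comp (g := fun z : ℝ × T3 => F z.1 z.2) h hc.continuousOn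
    (fun z hz => ⟨hz.1, mem_univ _⟩)

theorem ContOn.slice {T : ℝ} {F : ℝ → T3 → ℝ} (h : ContOn T F) {t : ℝ} (ht : t ∈ Icc 0 T) :
    Continuous (F t) := by
  have hc : Continuous (fun x : T3 => ((t, x) : ℝ × T3)) := by fun_prop
  exact ContinuousOn.comp_continuous (g := fun z : ℝ × T3 => F z.1 z.2) h hc
    (fun x => ⟨ht, mem_univ _⟩)

theorem ContOn.time {T : ℝ} {F : ℝ → T3 → ℝ} (h : ContOn T F) (x : T3) :
    ContinuousOn (fun t => F t x) (Icc 0 T) := by
  have hc : Continuous (fun t : ℝ => ((t, x) : ℝ × T3)) := by fun_prop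
  exact ContinuousOn.comp (g := fun z : ℝ × T3 => F z.1 z.2) h hc.continuousOn
    (fun t ht => ⟨ht, mem_univ _⟩)

/-- The lift of a classical solution to `ℝ³` is a periodic solution in the sense of the energy
method. -/
theorem IsClassical.sol {ν T : ℝ} {f u : Fin 3 → ℝ → T3 → ℝ} {p : ℝ → T3 → ℝ}
    (h : IsClassical ν f T u p) :
    Energy.Sol ν T (fun t x i => f i t (proj x)) (fun t x i => u i t (proj x))
      (fun t x => p t (proj x)) (fun t x i => dt T (u i) t (proj x))
      (fun j t x i => pd j (u i t) (proj x)) (fun j t x i => pd j (pd j (u i t)) (proj x))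
      (fun j t x => pd j (p t) (proj x)) where
  per_u := fun t _ j x => by simp only [proj_add_single_one]
  per_p := fun t _ j x => by simp only [proj_add_single_one]
  cont_u := fun i => (h.cont_u i).lift
  cont_ut := fun i => (h.cont_dt i).lift.mono (prod_mono Ioo_subset_Icc_self subset_rfl)
  cont_Du := fun j i => (h.cont_pd i j).lift
  cont_DDu := fun _ ht j i =>
    ((h.cont_pd_pd i j j).slice (Ioo_subset_Icc_self ht)).comp continuous_proj
  cont_p := fun _ ht => (h.cont_p.slice (Ioo_subset_Icc_self ht)).comp continuous_proj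
  cont_Dp := fun _ ht j => ((h.cont_pd_p j).slice (Ioo_subset_Icc_self ht)).comp continuous_proj
  d_ut := fun t ht x i =>
    ((h.has_dt i (proj x) t (Ioo_subset_Icc_self ht)).hasDerivWithinAt).hasDerivAt
      (Icc_mem_nhds ht.1 ht.2)
  d_Du := fun t ht j x i => (h.has_pd i j t (Ioo_subset_Icc_self ht)).hasLineDerivAt x
  d_DDu := fun t ht j x i => (h.has_pd_pd i j j t (Ioo_subset_Icc_self ht)).hasLineDerivAt x
  d_Dp := fun t ht j x => (h.has_pd_p j t (Ioo_subset_Icc_self ht)).hasLineDerivAt x
  eqn := fun t ht x i => h.momentum i t (Ioo_subset_Icc_self ht) (proj x)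
  div := fun t ht x => h.div_free t (Ioo_subset_Icc_self ht) (proj x)

/-- Uniqueness among classical solutions on `[0, T]`. -/
theorem IsClassical.unique {ν T : ℝ} {f u v : Fin 3 → ℝ → T3 → ℝ} {p q : ℝ → T3 → ℝ}
    (hν : 0 ≤ ν) (hT : 0 < T) (hu : IsClassical ν f T u p) (hv : IsClassical ν f T v q) :
    ∀ t ∈ Icc 0 T, (∀ i, v i t = u i t) ∧ q t = p t := by
  have h0 : ∀ x : Fin 3 → ℝ, (fun i => u i 0 (proj x)) = fun i => v i 0 (proj x) := by
    intro x
    funext i
    rw [hu.init, hv.init]
  have hp : ∀ t ∈ Ioo 0 T, ∀ x, p t x = q t x := by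
    intro t ht x
    have ht' := Ioo_subset_Icc_self ht
    have hc : ∀ y, p t y - q t y = p t x - q t x := by
      intro y
      obtain ⟨x', rfl⟩ := proj_surjective x
      obtain ⟨y', rfl⟩ := proj_surjective y
      exact Energy.pressure_sub_const hν hu.sol hv.sol h0 t ht y' x'
    have hi : ∀ {g : T3 → ℝ}, Continuous g → Integrable g := fun hg =>
      hg.integrable_of_hasCompactSupport (HasCompactSupport.of_compactSpace _)
    have h1 : ∫ y, (p t y - q t y) = 0 := by
      rw [integral_sub (hi (hu.cont_p.slice ht')) (hi (hv.cont_p.slice ht')), hu.mean_p t ht',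
        hv.mean_p t ht', sub_self]
    simp only [hc, integral_const, smul_eq_mul, mul_eq_zero] at h1
    rcases h1 with h1 | h1
    · exact absurd h1 (measureReal_univ_ne_zero (μ := (volume : Measure T3)))
    · exact sub_eq_zero.1 h1
  intro t ht
  refine ⟨fun i => ?_, ?_⟩
  · funext x
    obtain ⟨x', rfl⟩ := proj_surjective x
    exact (congrFun (Energy.velocity_unique hν hu.sol hv.sol h0 t ht x') i).symm
  · funext x
    have h : EqOn (fun s => q s x) (fun s => p s x) (Ioo 0 T) := fun s hs => (hp s hs x).symm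
    exact h.of_subset_closure (hv.cont_p.time x) (hu.cont_p.time x)
      Ioo_subset_Icc_self (by rw [closure_Ioo hT.ne]) ht

end Vale.Agent.P113
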